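import Crest.Agent.N222.B.Defs2
import Crest.Agent.N222.F.Res
import Crest.Agent.N222.F.Bump

/-!
# Row 222, part B: the double (helper69)

A regular level of a small perturbation of a bump function is found by a dimension count
(no Sard theorem), then the region above the level is doubled in `X × ℝ`.
-/

set_option autoImplicit false
set_option linter.unusedSectionVars false
open MeasureTheory Set Filter Topology Function Metric
open scoped ContDiff InnerProductSpace RealInnerProductSpace

noncomputable section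

namespace Crest.Agent.N222

namespace Db

variable {d : ℕ} {ι : Type} [Fintype ι] {X : Type} [TopologicalSpace X]

/-- the vector of a functional -/
def vec (T : E (Fin d) →L[ℝ] ℝ) : E (Fin d) := WithLp.toLp 2 fun i => T (ee i)

theorem contDiff_vec : ContDiff ℝ ∞ (vec : (E (Fin d) →L[ℝ] ℝ) → E (Fin d)) :=
  contDiff_euclidean.2 fun _ => contDiff_id.clm_apply contDiff_const

/-- the perturbed function -/
def pert {κ : Type} [Fintype κ] (ρ : X → ℝ) (y : κ → X → E (Fin d)) (v : κ → E (Fin d)) (p : X) :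
    ℝ := ρ p + ∑ r, ⟪v r, y r p⟫

theorem pert_update {κ : Type} [Fintype κ] [DecidableEq κ] (ρ : X → ℝ) (y : κ → X → E (Fin d))
    (v : κ → E (Fin d)) (r : κ) (p : X) :
    pert ρ y v p = pert ρ y (update v r 0) p + ⟪v r, y r p⟫ := by
  simp only [pert]
  rw [← Finset.add_sum_erase _ _ (Finset.mem_univ r),
    ← Finset.add_sum_erase _ (fun j => ⟪update v r 0 j, y j p⟫) (Finset.mem_univ r),
    Finset.sum_congr rfl (f := fun j => ⟪update v r 0 j, y j p⟫) (g := fun j => ⟪v j, y j p⟫)
      fun j hj => by rw [update_of_ne (Finset.ne_of_mem_erase hj)]]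
  simp only [update_self, inner_zero_left]
  ring

theorem sm_pert {M : Imm d ι X} {κ : Type} [Fintype κ] {ρ : X → ℝ} {y : κ → X → E (Fin d)}
    (hρ : M.Sm ρ) (hy : ∀ r, M.Sm (y r)) (v : κ → E (Fin d)) : M.Sm (pert ρ y v) :=
  hρ.add (Imm.sm_sum _ fun r _ => (hy r).comp (g := fun z => ⟪v r, z⟫)
    (contDiff_const.inner ℝ contDiff_id))

/-- the critical pairs `(v, c)` over a chart where `y r` is the chart have small dimension -/
theorem dimH_bad {M : Imm d ι X} {κ : Type} [Fintype κ] {ρ : X → ℝ} {y : κ → X → E (Fin d)}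
    (hρ : M.Sm ρ) (hy : ∀ r, M.Sm (y r)) (r : κ) {e : OpenPartialHomeomorph X (E (Fin d))}
    (he : IsChart M.x e) :
    dimH {a : (κ → E (Fin d)) × ℝ | ∃ p ∈ e.source, y r =ᶠ[𝓝 p] e ∧ M.td (pert ρ y a.1) p = 0 ∧
      pert ρ y a.1 p = a.2} ≤ Module.finrank ℝ (κ → E (Fin d)) := by
  classical
  let w : (κ → E (Fin d)) → κ → E (Fin d) := fun u =>
    update u r (-vec (fderiv ℝ (pert ρ y (update u r 0) ∘ e.symm) (u r)))
  let Ψ : (κ → E (Fin d)) → (κ → E (Fin d)) × ℝ := fun u => (w u, pert ρ y (w u) (e.symm (u r)))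
  have hH : ∀ a : (κ → E (Fin d)) × E (Fin d), a.2 ∈ e.target →
      ContDiffAt ℝ ∞ (fun b : (κ → E (Fin d)) × E (Fin d) => pert ρ y b.1 (e.symm b.2)) a := by
    intro a ha
    have hn := e.open_target.mem_nhds ha
    refine (((hρ.chart he).contDiffAt hn).comp a contDiffAt_snd).add
      (ContDiffAt.sum fun j _ => ContDiffAt.inner ℝ ?_
        ((((hy j).chart he).contDiffAt hn).comp a contDiffAt_snd))
    fun_prop
  have hup : ContDiff ℝ ∞ fun b : (κ → E (Fin d)) × E (Fin d) => update b.1 r b.2 := by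
    refine contDiff_pi.2 fun j => ?_
    by_cases h : j = r
    · subst h; simp only [update_self]; fun_prop
    · simp only [update_of_ne h]; fun_prop
  have hΨ : ∀ u ∈ {u : κ → E (Fin d) | u r ∈ e.target}, ContDiffAt ℝ 1 Ψ u := by
    intro u hu
    have h0 : ContDiff ℝ ∞ fun u : κ → E (Fin d) => u r := by fun_prop
    have h1 : ContDiffAt ℝ ∞ (uncurry fun (u : κ → E (Fin d)) => pert ρ y (update u r 0) ∘ e.symm)
        (u, u r) :=
      ContDiffAt.comp (f := fun b : (κ → E (Fin d)) × E (Fin d) => (update b.1 r 0, b.2)) (u, u r)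
        (hH (update u r 0, u r) hu)
        ((hup.comp (contDiff_fst.prodMk contDiff_const)).prodMk contDiff_snd).contDiffAt
    have h2 : ContDiffAt ℝ ∞ (fun u : κ → E (Fin d) =>
        fderiv ℝ (pert ρ y (update u r 0) ∘ e.symm) (u r)) u :=
      h1.fderiv h0.contDiffAt (by simp)
    have h3 : ContDiffAt ℝ ∞ w u :=
      hup.contDiffAt.comp u (contDiffAt_id.prodMk (contDiff_vec.contDiffAt.comp u h2).neg)
    have h4 : ContDiffAt ℝ ∞ Ψ u :=
      h3.prodMk (ContDiffAt.comp (f := fun u => (w u, u r))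
        (g := fun b : (κ → E (Fin d)) × E (Fin d) => pert ρ y b.1 (e.symm b.2)) u
        (hH (w u, u r) hu) (h3.prodMk h0.contDiffAt))
    exact h4.of_le (by simp)
  have hd : dimH (Ψ '' {u : κ → E (Fin d) | u r ∈ e.target}) ≤
      dimH {u : κ → E (Fin d) | u r ∈ e.target} :=
    dimH_image_le_of_locally_lipschitzOn fun u hu => by
      obtain ⟨C, t, ht, hC⟩ := (hΨ u hu).exists_lipschitzOnWith
      exact ⟨C, t, mem_nhdsWithin_of_mem_nhds ht, hC⟩
  refine (dimH_mono ?_).trans (hd.trans ((dimH_mono (subset_univ _)).trans_eq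
    (Real.dimH_univ_eq_finrank _)))
  rintro ⟨v, c⟩ ⟨p, hp, hyp, h0, hc⟩
  refine ⟨update v r (e p), by simpa using e.map_source hp, ?_⟩
  have h1 : fderiv ℝ (pert ρ y v ∘ e.symm) (e p) = 0 := by
    rw [Imm.fderiv_chart _ he hp, h0, ContinuousLinearMap.zero_comp]
  have h2 : pert ρ y v ∘ e.symm =ᶠ[𝓝 (e p)]
      fun z => (pert ρ y (update v r 0) ∘ e.symm) z + ⟪v r, z⟫ := by
    filter_upwards [symm_eventuallyEq hp hyp, e.eventually_right_inverse (e.map_source hp)]
      with z hz hz'
    simp only [comp_apply] at hz ⊢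
    rw [pert_update ρ y v r, hz, hz']
  have h3 : DifferentiableAt ℝ (pert ρ y (update v r 0) ∘ e.symm) (e p) :=
    (Imm.diffAt_chart he hp).1 ((sm_pert hρ hy _).diffAt p)
  have h3' : HasFDerivAt (fun z => (pert ρ y (update v r 0) ∘ e.symm) z + ⟪v r, z⟫)
      (fderiv ℝ (pert ρ y (update v r 0) ∘ e.symm) (e p) + innerSL ℝ (v r)) (e p) :=
    h3.hasFDerivAt.add (innerSL ℝ (v r)).hasFDerivAt
  rw [h2.fderiv_eq, h3'.fderiv] at h1
  have h4 : w (update v r (e p)) = v := by
    simp only [w, update_idem, update_self]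
    rw [update_eq_self_iff]
    ext i
    have h5 := congrArg (fun T : E (Fin d) →L[ℝ] ℝ => T (ee i)) h1
    simp only [add_apply, innerSL_apply_apply, EuclideanSpace.inner_single_right, zero_apply,
      conj_trivial, one_mul] at h5
    simp only [vec, PiLp.neg_apply]
    linarith
  simp only [Ψ, h4, update_self, e.left_inv hp]
  exact Prod.ext rfl hc

variable [T2Space X] [SecondCountableTopology X]

/-- a smooth function with a regular level between the compact set and infinity -/
theorem exists_reg (M : Imm d ι X) {K : Set X} (hK : IsCompact K) :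
    ∃ (f : X → ℝ) (L : Set X), M.Sm f ∧ IsCompact L ∧ (∀ p ∈ K, 1 / 4 < f p) ∧ (∀ p, f p ≤ 2) ∧
      (∀ p, 0 ≤ f p → p ∈ L) ∧ ∀ p, f p = 0 → M.td f p ≠ 0 := by
  classical
  obtain ⟨ρ, hρ, -, hρ01, hρ1⟩ := M.exists_bump hK isOpen_univ (subset_univ _)
  choose χ hχ hχU hχ01 hχ1 using fun p : X => M.exists_bump (isCompact_singleton (x := p))
    (M.ch p).open_source (singleton_subset_iff.2 (M.mem p))
  obtain ⟨t, -, ht⟩ := hρ.cs.isCompact.elim_nhds_subcover (fun p => interior {q | χ p q = 1})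
    fun p _ => interior_mem_nhds.2 (by have h := hχ1 p; rwa [nhdsSet_singleton] at h)
  let y : t → X → E (Fin d) := fun r q => χ r q • M.ch r q
  have hy : ∀ r, M.Sm (y r) := fun r => (Imm.smOn_chart (M.isChart r)).smul_sm (hχ r).sm (hχU r)
  have hb : ∀ r, ∃ B : ℝ, ∀ q, ‖y r q‖ ≤ B := fun r =>
    (hy r).continuous.bounded_above_of_compact_support (hχ r).cs.smul_right
  choose B hB using hb
  set S := ∑ r, |B r| with hS
  have hS0 : 0 ≤ S := Finset.sum_nonneg fun r _ => abs_nonneg _
  have hdim : dimH (⋃ r : t, {a : (t → E (Fin d)) × ℝ | ∃ p ∈ (M.ch r).source,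
      y r =ᶠ[𝓝 p] M.ch r ∧ M.td (pert ρ y a.1) p = 0 ∧ pert ρ y a.1 p = a.2}) <
      Module.finrank ℝ ((t → E (Fin d)) × ℝ) := by
    rw [dimH_iUnion]
    refine (iSup_le fun r => dimH_bad hρ.sm hy r (M.isChart r)).trans_lt ?_
    rw [Module.finrank_prod, Module.finrank_self]
    exact_mod_cast Nat.lt_succ_self _
  obtain ⟨⟨v, c⟩, hbad, hv, hc⟩ := (dense_compl_of_dimH_lt_finrank hdim).exists_mem_open
    (U := ball 0 (1 / (20 * (S + 1))) ×ˢ Ioo (1 / 3 : ℝ) (2 / 3)) (isOpen_ball.prod isOpen_Ioo)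
    ⟨(0, 1 / 2), mem_ball_self (by positivity), by norm_num, by norm_num⟩
  have hsm : ∀ p, |pert ρ y v p - ρ p| ≤ 1 / 20 := by
    intro p
    rw [pert, add_sub_cancel_left]
    have h1 : ‖v‖ ≤ 1 / (20 * (S + 1)) := (mem_ball_zero_iff.1 hv).le
    calc |∑ r, ⟪v r, y r p⟫| ≤ ∑ r, ‖v‖ * |B r| := by
          refine (Finset.abs_sum_le_sum_abs _ _).trans (Finset.sum_le_sum fun r _ => ?_)
          exact (abs_real_inner_le_norm _ _).trans (mul_le_mul (norm_le_pi_norm v r)
            ((hB r p).trans (le_abs_self _)) (norm_nonneg _) (norm_nonneg _))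
      _ = ‖v‖ * S := by rw [← Finset.mul_sum]
      _ ≤ 1 / (20 * (S + 1)) * (S + 1) := by gcongr; linarith
      _ = 1 / 20 := by field_simp
  have hL : ∀ p, 0 ≤ pert ρ y v p - c → p ∈ tsupport ρ := fun p hp =>
    subset_tsupport _ fun h => by
      have := abs_le.1 (hsm p)
      have := hc.1
      simp only at this
      linarith
  refine ⟨fun p => pert ρ y v p - c, tsupport ρ, (sm_pert hρ.sm hy v).sub (Imm.sm_const c),
    hρ.cs.isCompact, fun p hp => ?_, fun p => ?_, hL, fun p hp h0 => hbad ?_⟩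
  · have := abs_le.1 (hsm p)
    have h1 : ρ p = 1 := hρ1.self_of_nhdsSet p hp
    have := hc.2
    simp only at this
    linarith
  · have := abs_le.1 (hsm p)
    have := hc.1
    have := (hρ01 p).2
    simp only at *
    linarith
  · obtain ⟨r, hr, hpr⟩ := mem_iUnion₂.1 (ht (hL p hp.ge))
    have h1 : ∀ᶠ q in 𝓝 p, χ r q = 1 := mem_interior_iff_mem_nhds.1 hpr
    refine mem_iUnion.2 ⟨⟨r, hr⟩, p, hχU r (subset_tsupport _ (by simp [h1.self_of_nhds])),
      h1.mono fun q hq => by simp [y, hq], ?_, sub_eq_zero.1 hp⟩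
    have h2 := Imm.td_comp ((sm_pert hρ.sm hy v).diffAt p) (g := fun s : ℝ => s - c)
      (differentiableAt_id.sub_const c)
    rw [h0, fderiv_sub_const, fderiv_fun_id, ContinuousLinearMap.id_comp] at h2
    exact h2.symm

/-- the profile -/
def β (t : ℝ) : ℝ := t + (1 - t) * Real.smoothTransition (8 * t - 1)

theorem contDiff_β : ContDiff ℝ ∞ β :=
  contDiff_id.add ((contDiff_const.sub contDiff_id).mul
    (Real.smoothTransition.contDiff.comp ((contDiff_const.mul contDiff_id).sub contDiff_const)))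

theorem β_of_le {t : ℝ} (h : t ≤ 1 / 8) : β t = t := by
  rw [β, Real.smoothTransition.zero_of_nonpos (by linarith)]; ring

theorem β_of_ge {t : ℝ} (h : 1 / 4 ≤ t) : β t = 1 := by
  rw [β, Real.smoothTransition.one_of_one_le (by linarith)]; ring

theorem β_pos {t : ℝ} (h : 0 < t) : 0 < β t := by
  have h0 := Real.smoothTransition.nonneg (8 * t - 1)
  have h1 := Real.smoothTransition.le_one (8 * t - 1)
  rw [β]
  rcases h0.eq_or_lt with h2 | h2
  · rw [← h2]; linarith
  · nlinarith [mul_nonneg h.le (sub_nonneg.2 h1)]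

theorem β_le {t : ℝ} (h : t ≤ 2) : β t ≤ 2 := by
  have h0 := Real.smoothTransition.nonneg (8 * t - 1)
  have h1 := Real.smoothTransition.le_one (8 * t - 1)
  rw [β]
  nlinarith [mul_nonneg (sub_nonneg.2 h) (sub_nonneg.2 h1)]

theorem hasDerivAt_β : HasDerivAt β 1 0 :=
  (hasDerivAt_id (0 : ℝ)).congr_of_eventuallyEq
    ((eventually_lt_nhds (by norm_num : (0 : ℝ) < 1 / 8)).mono fun _ ht => β_of_le ht.le)

end Db

open Db in
/-- **DOUBLE** -/
theorem dbl : DblStmt := by
  intro d ι _ _ X _ _ _ _ _ M K hK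
  classical
  rcases isEmpty_or_nonempty X with hX | ⟨⟨p0⟩⟩
  · exact ⟨X, inferInstance, inferInstance, inferInstance, inferInstance, inferInstance,
      inferInstance, M.pad 0, OpenPartialHomeomorph.refl X, 0, subset_univ _, fun _ _ => rfl⟩
  obtain ⟨f, L, hf, hL, hfK, hf2, hfL, hreg⟩ := exists_reg M (hK.insert p0)
  obtain ⟨N0, hx, hsm, htd2, htd1⟩ := M.exists_prodR
  have hh : M.Sm fun p => β (f p) := hf.comp contDiff_β
  have hs : N0.Sm fun q : X × ℝ => q.2 := by
    have h := N0.sm_coord none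
    simp only [hx] at h
    exact h
  let G : X × ℝ → ℝ := fun q => q.2 * q.2 - β (f q.1)
  have hG : N0.Sm G := (hs.mul hs).sub (hsm _ hh)
  have hD : ∀ q a, N0.pre.D a G q = 2 * q.2 * (ee a : E (Option ι)) none -
      M.td (fun p => β (f p)) q.1 (down (ee a)) := by
    intro q a
    rw [Imm.D_sub ((hs.mul hs).diffAt q) ((hsm _ hh).diffAt q),
      Imm.D_mul (hs.diffAt q) (hs.diffAt q), ← htd1, ← htd2 q]
    simp only [Imm.pre]
    ring
  obtain ⟨N, hN⟩ := N0.exists_level hG fun q hq h0 => by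
    have h1 : ∀ a, N0.pre.D a G q = 0 := fun a =>
      congrArg (fun T : E (Option ι) →L[ℝ] ℝ => T (ee a)) h0
    have h2 : down (ee none : E (Option ι)) = 0 := by ext a; simp [down]
    have h3 : ∀ a, down (ee (some a) : E (Option ι)) = ee a := fun a => by
      ext b; simp [down]
    have h4 : q.2 = 0 := by simpa [hD, h2] using h1 none
    have h5 : β (f q.1) = 0 := by simpa [G, h4] using hq
    have h6 : f q.1 = 0 := by
      rcases lt_trichotomy (f q.1) 0 with h | h | h
      · rwa [β_of_le (by linarith)] at h5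
      · exact h
      · exact absurd h5 (β_pos h).ne'
    refine hreg q.1 h6 (ContinuousLinearMap.ext fun w => ?_)
    rw [Imm.td_apply]
    refine Finset.sum_eq_zero fun a _ => ?_
    have h7 := h1 (some a)
    have h8 := Imm.D_comp (hf.diffAt q.1) (g := β) (h6 ▸ hasDerivAt_β) a
    rw [hD, h3, h4] at h7
    simp only [Imm.pre] at h8 ⊢
    rw [h8] at h7
    simp only [mul_zero, zero_mul, one_mul, zero_sub, neg_eq_zero] at h7
    rw [h7, mul_zero]
  have hmem : ∀ p, 1 / 4 < f p → (p, (1 : ℝ)) ∈ {q | G q = 0} := fun p hp => by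
    simp [G, β_of_ge hp.le]
  have hcpt : IsCompact {q | G q = 0} := by
    refine (hL.prod (isCompact_Icc (a := (-2 : ℝ)) (b := 2))).of_isClosed_subset
      (isClosed_eq hG.continuous continuous_const) fun q hq => ?_
    have h1 : q.2 * q.2 = β (f q.1) := sub_eq_zero.1 hq
    have h2 := β_le (hf2 q.1)
    refine ⟨hfL _ ?_, by nlinarith, by nlinarith⟩
    by_contra h
    rw [β_of_le (by linarith)] at h1
    nlinarith
  let e : OpenPartialHomeomorph X {q | G q = 0} :=
    { toFun := fun p => if h : 1 / 4 < f p then ⟨(p, 1), hmem p h⟩ else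
        ⟨(p0, 1), hmem p0 (hfK p0 (mem_insert _ _))⟩
      invFun := fun q => q.1.1
      source := {p | 1 / 4 < f p}
      target := {q | 0 < q.1.2 ∧ 1 / 4 < f q.1.1}
      map_source' := fun p (hp : 1 / 4 < f p) => by
        rw [dif_pos hp]
        exact ⟨one_pos, hp⟩
      map_target' := fun q hq => hq.2
      left_inv' := fun p (hp : 1 / 4 < f p) => by rw [dif_pos hp]
      right_inv' := fun q hq => by
        rw [dif_pos hq.2]
        have h1 : q.1.2 * q.1.2 = β (f q.1.1) := sub_eq_zero.1 q.2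
        rw [β_of_ge hq.2.le] at h1
        refine Subtype.ext (Prod.ext rfl ?_)
        have := hq.1
        change 1 = q.1.2
        nlinarith
      open_source := isOpen_lt continuous_const hf.continuous
      open_target := IsOpen.and
        (isOpen_lt continuous_const (continuous_snd.comp continuous_subtype_val))
        (isOpen_lt continuous_const
          (hf.continuous.comp (continuous_fst.comp continuous_subtype_val)))
      continuousOn_toFun := by
        rw [IsInducing.subtypeVal.continuousOn_iff]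
        refine (Continuous.prodMk_left (1 : ℝ)).continuousOn.congr
          fun p (hp : 1 / 4 < f p) => ?_
        simp only [comp_apply]
        rw [dif_pos hp]
      continuousOn_invFun := by fun_prop }
  refine ⟨{q | G q = 0}, inferInstance, inferInstance, inferInstance, borel _,
    @BorelSpace.mk _ _ (borel _) rfl,
    isCompact_iff_compactSpace.1 hcpt, N, e, 1, fun p hp => hfK p (mem_insert_of_mem _ hp),
    fun p (hp : 1 / 4 < f p) => ?_⟩
  rw [hN, hx]
  simp only [e, OpenPartialHomeomorph.coe_mk]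
  rw [dif_pos hp]

end Crest.Agent.N222

end
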