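import Crest.Agent.N222.B.E2

/-!
# Row 222, part B, ε-regularity block (helper16): tools for the blow-up
-/

set_option autoImplicit false
set_option linter.unusedSectionVars false
open MeasureTheory Set Filter Topology Function Metric
open scoped ContDiff InnerProductSpace RealInnerProductSpace CompactlySupported

noncomputable section

namespace Crest.Agent.N222.EP

/-- vague limits along an ultrafilter -/
theorem exists_vague {S : Type} [TopologicalSpace S] [T2Space S] [LocallyCompactSpace S]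
    [MeasurableSpace S] [BorelSpace S] (𝒰 : Ultrafilter ℕ) (I : ℕ → (S → ℝ) → ℝ)
    (add : ∀ j f g, Continuous f → Continuous g → I j (f + g) = I j f + I j g)
    (smul : ∀ j (c : ℝ) f, I j (c • f) = c * I j f)
    (pos : ∀ f, 0 ≤ f → ∀ᶠ j in (𝒰 : Filter ℕ), 0 ≤ I j f)
    (bd : ∀ f, Continuous f → HasCompactSupport f → ∃ K, ∀ᶠ j in (𝒰 : Filter ℕ), |I j f| ≤ K) :
    ∃ V : Measure S, IsFiniteMeasureOnCompacts V ∧ ∀ f, Continuous f → HasCompactSupport f →
      Tendsto (fun j => I j f) 𝒰 (𝓝 (∫ s, f s ∂V)) := by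
  have h : ∀ f : C_c(S, ℝ), ∃ a, Tendsto (fun j => I j f) 𝒰 (𝓝 a) := fun f => by
    obtain ⟨K, hK⟩ := bd f f.continuous f.hasCompactSupport
    obtain ⟨a, -, ha⟩ := (isCompact_Icc (a := -K) (b := K)).ultrafilter_le_nhds
      (𝒰.map fun j => I j f) (le_principal_iff.2 (mem_map.2 (hK.mono fun j hj => abs_le.1 hj)))
    exact ⟨a, ha⟩
  choose Λ hΛ using h
  let Λ1 : C_c(S, ℝ) →ₗ[ℝ] ℝ :=
    { toFun := Λ
      map_add' := fun f g => tendsto_nhds_unique (hΛ (f + g))
        (((hΛ f).add (hΛ g)).congr fun j => (add j f g f.continuous g.continuous).symm)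
      map_smul' := fun c f => tendsto_nhds_unique (hΛ (c • f))
        (((hΛ f).const_mul c).congr fun j => (smul j c f).symm) }
  let Λ2 : C_c(S, ℝ) →ₚ[ℝ] ℝ := .mk₀ Λ1 fun f hf => ge_of_tendsto (hΛ f) (pos f hf)
  refine ⟨RealRMK.rieszMeasure Λ2, inferInstance, fun f hf hc => ?_⟩
  have := RealRMK.integral_rieszMeasure Λ2 ⟨⟨f, hf⟩, hc⟩
  exact this ▸ hΛ ⟨⟨f, hf⟩, hc⟩

variable {d : ℕ} {ι : Type} [Fintype ι] [DecidableEq ι] {X : Type} [TopologicalSpace X]
  [T2Space X] [SecondCountableTopology X] [MeasurableSpace X] [BorelSpace X] [CompactSpace X]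
  {M : Imm d ι X}

/-- chords near a point are almost tangent -/
theorem chord_near (M : Imm d ι X) (p0 : X) {ε : ℝ} (hε : 0 < ε) : ∃ N ∈ 𝓝 p0, ∀ p ∈ N, ∀ q ∈ N,
    ‖M.x q - M.x p - M.PL p0 (M.x q - M.x p)‖ ≤ ε * ‖M.x q - M.x p‖ := by
  have he := M.isChart p0
  have hp := M.mem p0
  have hd : HasStrictFDerivAt (M.x ∘ (M.ch p0).symm) (M.J p0) (M.ch p0 p0) :=
    (he.sm.contDiffAt ((M.ch p0).open_target.mem_nhds ((M.ch p0).map_source hp))).hasStrictFDerivAt
      (by simp)
  obtain ⟨K, hK0, hK⟩ := (M.J p0 : E (Fin d) →ₗ[ℝ] E ι).exists_antilipschitzWith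
    (LinearMap.ker_eq_bot.2 (M.J_inj p0))
  have hK0' : (0 : ℝ) < K := hK0
  have h1 := hd.isLittleO.def (c := min (1 / 2) (ε / 4) / K) (by positivity)
  have hc := (M.ch p0).continuousAt hp
  have h2 := (hc.tendsto.prodMap_nhds hc.tendsto).eventually h1
  rw [nhds_prod_eq] at h2
  obtain ⟨N, hN, h2⟩ := mem_prod_self_iff.1 h2
  refine ⟨N ∩ (M.ch p0).source, inter_mem hN ((M.ch p0).open_source.mem_nhds hp),
    fun p hp' q hq' => ?_⟩
  have h3 := h2 (mk_mem_prod hq'.1 hp'.1)
  simp only [mem_setOf_eq, Prod.map_fst, Prod.map_snd, comp_apply, (M.ch p0).left_inv hp'.2,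
    (M.ch p0).left_inv hq'.2] at h3
  generalize M.ch p0 q - M.ch p0 p = v at h3
  generalize M.x q - M.x p = w at h3 ⊢
  have h4 : ‖v‖ ≤ K * ‖M.J p0 v‖ := by simpa using hK.le_mul_dist v 0
  have h5 : ‖w - M.J p0 v‖ ≤ min (1 / 2) (ε / 4) * ‖M.J p0 v‖ :=
    h3.trans ((mul_le_mul_of_nonneg_left h4 (by positivity)).trans_eq (by field_simp))
  have h6 := norm_sub_norm_le (M.J p0 v) w
  rw [norm_sub_rev (M.J p0 v)] at h6
  have h7 : w - M.PL p0 w = w - M.J p0 v - M.PL p0 (w - M.J p0 v) := by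
    rw [map_sub, show M.PL p0 (M.J p0 v) = M.J p0 v from Imm.PL_chart he hp v]; abel
  have h8 := norm_sub_le (w - M.J p0 v) (M.PL p0 (w - M.J p0 v))
  have h8' := M.norm_PL_le p0 (w - M.J p0 v)
  have h9 := mul_le_mul_of_nonneg_right (min_le_left (1 / 2) (ε / 4)) (norm_nonneg (M.J p0 v))
  have h10 := mul_le_mul_of_nonneg_right (min_le_right (1 / 2) (ε / 4)) (norm_nonneg (M.J p0 v))
  rw [h7]
  nlinarith

theorem norm_sub_PbL (p : X) (w : E (Option ι)) :
    ‖w - M.PbL p w‖ = ‖down w - M.PL p (down w)‖ := by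
  have : w - M.PbL p w = up 0 (down w - M.PL p (down w)) := by
    conv_lhs => rw [← up_down w]
    rw [Imm.PbL, up_sub]
    exact congrArg₂ up (sub_self _) rfl
  rw [← sq_eq_sq₀ (norm_nonneg _) (norm_nonneg _), this, norm_sq_up]; ring

theorem L_Ls {p0 : X} {L : Y d →ₗᵢ[ℝ] E (Option ι)} (h : ∀ w, M.PbL p0 w = w ↔ w ∈ range L)
    (w : E (Option ι)) : L (Ls L w) = M.PbL p0 w := by
  obtain ⟨a, ha⟩ := (h _).1 (PbL_PbL p0 w)
  rw [← ha]
  refine congrArg L (ext_inner_right ℝ fun v => ?_)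
  rw [inner_Ls, ← (h _).2 ⟨v, rfl⟩, ← PbL_symm, ← ha, L.inner_map_map]

/-- the tangent space of the cylinder -/
theorem exists_L {p0 : X} (L0 : E (Fin d) →ₗᵢ[ℝ] E ι) (h : ∀ w, M.PL p0 w = w ↔ w ∈ range L0) :
    ∃ L : Y d →ₗᵢ[ℝ] E (Option ι), (∀ w, M.PbL p0 w = w ↔ w ∈ range L) ∧
      ∀ f : E (Option ι) → ℝ, Integrable (fun y => f (L y)) →
        ∫ y, f (L y) = ∫ z, ∫ s : ℝ, f (up s (L0 z)) := by
  obtain ⟨J, hJ⟩ := exists_split (n := (ee 0 : Y d)) (by simp)
  have h1 : ∀ (s : ℝ) z, Ls J (s • ee 0 + J z) = z := fun s z => ext_inner_right ℝ fun v => by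
    rw [inner_Ls, inner_add_left, inner_smul_left, hJ.orth, J.inner_map_map]; simp
  let L : Y d →ₗᵢ[ℝ] E (Option ι) :=
    { toFun := fun y => up ⟪ee 0, y⟫ (L0 (Ls J y))
      map_add' := fun a b => by rw [up_add, inner_add_right, map_add, map_add]
      map_smul' := fun c a => by rw [RingHom.id_apply, smul_up, inner_smul_right, map_smul, map_smul]
      norm_map' := fun y => by
        obtain ⟨z, hz⟩ := hJ.surj y
        change ‖up _ _‖ = _
        rw [← sq_eq_sq₀ (norm_nonneg _) (norm_nonneg _), norm_sq_up, L0.norm_map]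
        conv_rhs => rw [hz, hJ.norm_sq]
        conv_lhs => rhs; rw [hz, h1] }
  have h2 : ∀ (s : ℝ) z, L (s • ee 0 + J z) = up s (L0 z) := fun s z => by
    change up _ _ = _
    rw [hJ.inner_apply, h1]
  refine ⟨L, fun w => ⟨fun hw => ?_, ?_⟩, fun f hf => ?_⟩
  · obtain ⟨z, hz⟩ := (h (down w)).1 (congrArg down hw)
    exact ⟨_, (h2 (w none) z).trans (by rw [hz, up_down])⟩
  · rintro ⟨y, rfl⟩
    exact congrArg (up _) ((h _).2 ⟨_, rfl⟩)
  · rw [hJ.integral_eq' hf]; simp only [h2]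

section Fib
variable {f : E (Option ι) → ℝ}

theorem continuous_fib (hf : Continuous f) (hc : HasCompactSupport f) :
    Continuous fun w : E ι => ∫ s : ℝ, f (up s w) := by
  obtain ⟨R, -, hR⟩ := exists_norm_of_hcs hc
  have h := continuous_parametric_integral_of_continuous (μ := volume)
    (f := fun (w : E ι) (s : ℝ) => f (up s w))
    (hf.comp (contDiff_up.continuous.comp continuous_swap)) (isCompact_closedBall (0 : ℝ) R)
  refine h.congr fun w => setIntegral_eq_integral_of_forall_compl_eq_zero fun s hs => hR _ ?_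
  rw [mem_closedBall_zero_iff, not_le] at hs
  exact hs.le.trans (abs_none_le (up s w))

theorem hcs_fib (hc : HasCompactSupport f) :
    HasCompactSupport fun s : E ι × X => ∫ t : ℝ, f (up t s.1) := by
  obtain ⟨R, -, hR⟩ := exists_norm_of_hcs hc
  refine HasCompactSupport.intro ((isCompact_closedBall 0 R).prod isCompact_univ) fun s hs => ?_
  have h1 : R < ‖s.1‖ := by simpa using hs
  simp only [fun t => hR (up t s.1) (h1.le.trans (norm_down_le (up t s.1))), integral_zero]

/-- the two half lines of the calibration inequalities add up -/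
theorem integral_halves (hf : Continuous f) (hc : HasCompactSupport f) {u : X → ℝ}
    (hu : Continuous u) :
    (∫ p, (∫ t in Iic (u p), f (up t (M.x p))) ∂M.mu) +
      ∫ p, (∫ t in Ioi (u p), f (up t (M.x p))) ∂M.mu = ∫ p, (∫ t, f (up t (M.x p))) ∂M.mu := by
  obtain ⟨R, -, hR⟩ := exists_norm_of_hcs hc
  have h1 : Continuous fun s : X × ℝ => f (up s.2 (M.x s.1)) :=
    hf.comp (contDiff_up.continuous.comp₂ continuous_snd (M.continuous_x.comp continuous_fst))
  have h2 : Integrable (fun s : X × ℝ => f (up s.2 (M.x s.1))) (M.mu.prod volume) :=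
    h1.integrable_of_hasCompactSupport (HasCompactSupport.intro
      (isCompact_univ.prod (isCompact_closedBall (0 : ℝ) R)) fun s hs => hR _ (by
        have h3 : R < |s.2| := by simpa using hs
        exact h3.le.trans (abs_none_le (up s.2 (M.x s.1)))))
  have h3 : MeasurableSet {s : X × ℝ | s.2 ≤ u s.1} :=
    (isClosed_le continuous_snd (hu.comp continuous_fst)).measurableSet
  rw [← integral_add]
  · refine integral_congr_ae ?_
    filter_upwards [h2.prod_right_ae] with p hp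
    exact intervalIntegral.integral_Iic_add_Ioi hp.integrableOn hp.integrableOn
  · refine (h2.indicator h3).integral_prod_left.congr (.of_forall fun p => ?_)
    exact integral_indicator (f := fun t => f (up t (M.x p))) (s := Iic (u p)) measurableSet_Iic
  · refine (h2.indicator h3.compl).integral_prod_left.congr (.of_forall fun p => ?_)
    beta_reduce
    rw [← compl_Iic]
    exact integral_indicator (f := fun t => f (up t (M.x p))) (s := (Iic (u p))ᶜ)
      measurableSet_Iic.compl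

/-- rescaling of the vertical integral -/
theorem integral_fib_scale (f : E (Option ι) → ℝ) {r : ℝ} (hr : 0 < r) (a : ℝ) (x y : E ι) :
    ∫ t, f (r⁻¹ • (up t x - up a y)) = r * ∫ s, f (up s (r⁻¹ • (x - y))) := by
  simp only [up_sub, smul_up]
  rw [integral_sub_right_eq_self (fun t => f (up (r⁻¹ * t) (r⁻¹ • (x - y)))) a,
    Measure.integral_comp_inv_mul_left (fun t => f (up t (r⁻¹ • (x - y)))), abs_of_pos hr,
    smul_eq_mul]

end Fib

theorem bl_Phi_le {u : X → ℝ} {C r σ : ℝ} (hu : M.Sm u) (hA : Area M C u) (hr : 0 < r) (hσ : 0 < σ)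
    (h1 : σ * r ≤ 1) (p : X) (z : E (Option ι)) :
    bl M u r (fun q => Phi (‖ry M u p r q - z‖ ^ 2 / σ ^ 2)) ≤ C * σ ^ d := by
  have := Imm.isFiniteMeasure_gmu hu
  have h2 : ∀ q, ‖ry M u p r q - z‖ = ‖M.gx u q - (M.gx u p + r • z)‖ / r := fun q => by
    rw [eq_div_iff hr.ne', mul_comm, ← norm_smul_of_nonneg hr.le, ry, smul_sub,
      smul_inv_smul₀ hr.ne', sub_sub]
  rw [bl, div_le_iff₀ (pow_pos hr d), ← setIntegral_eq_integral_of_forall_compl_eq_zero
    (s := {q | ‖M.gx u q - (M.gx u p + r • z)‖ ≤ σ * r}) fun q hq => Phi_ball_zero hσ (by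
      rw [h2, le_div_iff₀ hr]; exact (not_le.1 hq).le)]
  refine (le_abs_self _).trans ((norm_setIntegral_le_of_norm_le_const (C := 1)
    (f := fun q => Phi (‖ry M u p r q - z‖ ^ 2 / σ ^ 2)) (measure_lt_top _ _)
    fun q _ => (abs_of_nonneg (Phi_nonneg _)).trans_le (Phi_le_one _)).trans ?_)
  rw [one_mul, mul_assoc, ← mul_pow]
  exact hA _ _ (by positivity) h1

end Crest.Agent.N222.EP

end
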