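import Crest.Agent.N222.B.Bl1

/-!
# Row 222, part B, ε-regularity block (helper16): blow-up limits of admissible graphs
-/

set_option autoImplicit false
set_option linter.unusedSectionVars false
open MeasureTheory Set Filter Topology Function Metric
open scoped ContDiff InnerProductSpace RealInnerProductSpace

noncomputable section

namespace Crest.Agent.N222
namespace EP

variable {d : ℕ} {ι : Type} [Fintype ι] [DecidableEq ι] {X : Type} [TopologicalSpace X]
  [T2Space X] [SecondCountableTopology X] [MeasurableSpace X] [BorelSpace X] [CompactSpace X]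
  {M : Imm d ι X} {C : ℝ} {𝒰 : Ultrafilter ℕ} {u : ℕ → X → ℝ} {p : ℕ → X} {r : ℕ → ℝ} {p0 : X}
  {L : Y d →ₗᵢ[ℝ] E (Option ι)} {V : Measure (Y d × Y d)}

theorem down_ry (u : X → ℝ) (p : X) (r : ℝ) (q : X) :
    down (ry M u p r q) = r⁻¹ • (M.x q - M.x p) := rfl

theorem ev_flat (hM : Injective M.x) (hu : ∀ j, M.Sm (u j)) (hp : Tendsto p 𝒰 (𝓝 p0))
    (hr : Tendsto r 𝒰 (𝓝[>] 0)) (R : ℝ) {ε : ℝ} (hε : 0 < ε) :
    ∀ᶠ j in (𝒰 : Filter ℕ), ∀ q, ‖ry M (u j) (p j) (r j) q‖ ≤ R →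
      ‖ry M (u j) (p j) (r j) q - M.PbL p0 (ry M (u j) (p j) (r j) q)‖ ≤ ε ∧
      ‖M.nuv (u j) q - M.PbL p0 (M.nuv (u j) q)‖ ≤ ε := by
  have hR : 0 < |R| + 1 := by positivity
  obtain ⟨N, hN, h⟩ := chord_near M p0 (div_pos hε hR)
  have hN' : {q | ‖M.PL q - M.PL p0‖ ≤ ε} ∈ 𝓝 p0 :=
    ((M.sm_PL.continuous.sub continuous_const).norm.tendsto p0).eventually_le_const
      (by simpa using hε)
  filter_upwards [ev_pos hr, ev_near (u := u) hM hp hr R (inter_mem hN hN'), hp.eventually hN]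
    with j h0 h1 h2 q hq
  rw [norm_sub_PbL, norm_sub_PbL]
  have h3 : 0 ≤ (r j)⁻¹ := (inv_pos.2 h0).le
  constructor
  · have h4 := (norm_down_le _).trans hq
    rw [down_ry, norm_smul_of_nonneg h3] at h4
    rw [down_ry, map_smul, ← smul_sub, norm_smul_of_nonneg h3]
    refine (mul_le_mul_of_nonneg_left (h _ h2 q (h1 q hq).1) h3).trans ?_
    rw [mul_left_comm, div_mul_eq_mul_div, div_le_iff₀ hR]
    exact mul_le_mul_of_nonneg_left (by linarith [le_abs_self R]) hε.le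
  · have h4 : M.PL q (down (M.nuv (u j) q)) = down (M.nuv (u j) q) :=
      congrArg down (Imm.PbL_nuv (hu j) q)
    have h5 := (M.PL q - M.PL p0).le_of_opNorm_le_of_le (h1 q hq).2
      ((norm_down_le _).trans (Imm.norm_nuv (hu j) q).le)
    rwa [sub_apply, h4, mul_one] at h5

/-- convergence against compactly supported test functions -/
structure Cv (M : Imm d ι X) (C : ℝ) (𝒰 : Ultrafilter ℕ) (u : ℕ → X → ℝ) (p : ℕ → X) (r : ℕ → ℝ)
    (L : Y d →ₗᵢ[ℝ] E (Option ι)) (V : Measure (Y d × Y d)) : Prop where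
  sm : ∀ j, M.Sm (u j)
  area : ∀ j, Area M C (u j)
  hr : Tendsto r 𝒰 (𝓝[>] 0)
  loc : IsFiniteMeasureOnCompacts V
  conv : ∀ g : E (Option ι) × E (Option ι) → ℝ, Continuous g → HasCompactSupport g →
    Tendsto (fun j => bl M (u j) (r j) fun q => g (ry M (u j) (p j) (r j) q, M.nuv (u j) q)) 𝒰
      (𝓝 (∫ q, g (L q.1, L q.2) ∂V))

theorem exists_cv (hM : Injective M.x) (hu : ∀ j, M.Sm (u j)) (hA : ∀ j, Area M C (u j))
    (hp : Tendsto p 𝒰 (𝓝 p0)) (hr : Tendsto r 𝒰 (𝓝[>] 0))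
    (hL : ∀ w, M.PbL p0 w = w ↔ w ∈ range L) : ∃ V, Cv M C 𝒰 u p r L V := by
  have hy := fun j => continuous_ry (hu j) (p j) (r j)
  have hν := fun j => (hu j).nuv.continuous
  have hc : ∀ j (h : Y d × Y d → ℝ), Continuous h → Continuous fun q =>
      h (Ls L (ry M (u j) (p j) (r j) q), Ls L (M.nuv (u j) q)) * cut L (ry M (u j) (p j) (r j) q) :=
    fun j h hh => (hh.comp (((Ls L).continuous.comp (hy j)).prodMk
      ((Ls L).continuous.comp (hν j)))).mul ((contDiff_cut L).continuous.comp (hy j))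
  have h0 : ∀ (h : Y d × Y d → ℝ) (R : ℝ), (∀ s, R ≤ ‖s‖ → h s = 0) → ∀ y n : E (Option ι),
      R + 1 < ‖y‖ → h (Ls L y, Ls L n) * cut L y = 0 := fun h R hR y n hy => by
    by_cases h1 : cut L y = 0
    · rw [h1, mul_zero]
    · rw [hR _ (le_trans (by linarith [norm_le_of_cut L h1]) (norm_fst_le (Ls L y, Ls L n))),
        zero_mul]
  obtain ⟨V, hV, h⟩ := exists_vague 𝒰 (fun j h => bl M (u j) (r j) fun q =>
      h (Ls L (ry M (u j) (p j) (r j) q), Ls L (M.nuv (u j) q)) * cut L (ry M (u j) (p j) (r j) q))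
    (fun j f g hf hg => by
      rw [← bl_add (hu j) (hc j f hf) (hc j g hg)]; simp only [Pi.add_apply, add_mul])
    (fun j c f => by rw [← bl_const_mul]; simp only [Pi.smul_apply, smul_eq_mul, mul_assoc])
    (fun f hf => (ev_pos hr).mono fun j hj =>
      bl_nonneg hj fun q => mul_nonneg (hf _) (cut_nonneg L _))
    (fun f hf hs => by
      obtain ⟨R, hR0, hR⟩ := exists_norm_of_hcs hs
      obtain ⟨K, hK⟩ := hf.bounded_above_of_compact_support hs
      refine ⟨K * (C * (R + 1) ^ d), ?_⟩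
      filter_upwards [ev_pos hr, ev_mul_le hr (R + 1) one_pos] with j h1 h2
      refine abs_bl_le (p := p j) (hu j) (hA j) h1 (by positivity) h2
        ((norm_nonneg _).trans (hK 0)) (fun q _ => ?_) fun q hq => h0 f R hR _ _ hq
      rw [abs_mul, abs_of_nonneg (cut_nonneg L _)]
      exact (mul_le_of_le_one_right (abs_nonneg _) (Phi_le_one _)).trans (hK _))
  refine ⟨V, hu, hA, hr, hV, fun g hg hs => ?_⟩
  obtain ⟨R, hR0, hR⟩ := exists_norm_of_hcs hs
  have hg' : Continuous fun q : Y d × Y d => g (L q.1, L q.2) := by fun_prop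
  have hR' : ∀ q : Y d × Y d, R ≤ ‖q‖ → g (L q.1, L q.2) = 0 := fun q hq =>
    hR _ (by rwa [Prod.norm_def, L.norm_map, L.norm_map])
  have h1 := (h _ hg' (hcs_of_norm R fun q hq => hR' q hq.le)).add
    (tendsto_bl_zero (p := p) hu hA hr (f := fun j q => g (ry M (u j) (p j) (r j) q, M.nuv (u j) q) -
      g (L (Ls L (ry M (u j) (p j) (r j) q)), L (Ls L (M.nuv (u j) q))) *
        cut L (ry M (u j) (p j) (r j) q)) (R + 1) (fun ε hε => ?_) (.of_forall fun j q hq => ?_))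
  · rw [add_zero] at h1
    refine h1.congr fun j => ?_
    rw [bl_sub (hu j) (hg.comp' ((hy j).prodMk (hν j))) (hc j _ hg'), add_sub_cancel]
  · obtain ⟨δ, hδ, hδ'⟩ := Metric.uniformContinuous_iff_le.1
      (hs.uniformContinuous_of_continuous hg) ε hε
    filter_upwards [ev_flat hM hu hp hr (R + 1) (lt_min hδ one_half_pos)] with j hj q hq
    obtain ⟨h2, h3⟩ := hj q hq
    rw [← L_Ls hL] at h2 h3
    rw [show cut L (ry M (u j) (p j) (r j) q) = 1 from Phi_of_le
      ((pow_le_pow_left₀ (norm_nonneg _) (h2.trans (min_le_right _ _)) 2).trans (by norm_num)),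
      mul_one]
    refine hδ' ?_
    rw [Prod.dist_eq, dist_eq_norm, dist_eq_norm]
    exact max_le (h2.trans (min_le_left _ _)) (h3.trans (min_le_left _ _))
  · rw [h0 _ R hR' _ _ hq, hR _ (le_trans (by linarith) (norm_fst_le
      (ry M (u j) (p j) (r j) q, M.nuv (u j) q))), sub_zero]

theorem hcs_two {F : Type} [NormedAddCommGroup F] [ProperSpace F] {g : F × F → ℝ} {R : ℝ}
    (h0 : ∀ s, R < ‖s.1‖ → g s = 0) {σ : ℝ} (hσ : 0 < σ) :
    HasCompactSupport fun s => g s * Phi (‖s.2 - 0‖ ^ 2 / σ ^ 2) :=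
  hcs_of_norm (max R σ) fun s hs => by
    rcases lt_max_iff.1 (hs.trans_eq (Prod.norm_def s)) with h | h
    · rw [h0 s ((le_max_left _ _).trans_lt h), zero_mul]
    · rw [Phi_ball_zero hσ (by rw [sub_zero]; exact ((le_max_right _ _).trans_lt h).le), mul_zero]

theorem Phi_unit {F : Type} [NormedAddCommGroup F] {n : F} (hn : ‖n‖ = 1) :
    Phi (‖n - 0‖ ^ 2 / 2 ^ 2) = 1 := Phi_ball_one two_pos (by rw [sub_zero, hn]; norm_num)

namespace Cv
variable (H : Cv M C 𝒰 u p r L V)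
include H

theorem unit : ∀ᵐ q ∂V, ‖q.2‖ = 1 := by
  have := H.loc
  have h : ∀ k : ℕ, ∀ᵐ q ∂V, ‖q‖ ≤ ((k : ℝ) + 1) / 2 → ‖q.2‖ = 1 := fun k => by
    have hk : (0 : ℝ) < k + 1 := by positivity
    have h0 : ∀ {F : Type} [NormedAddCommGroup F] (s : F × F), (k : ℝ) + 1 < ‖s.1‖ →
        Phi (‖s.1 - 0‖ ^ 2 / (k + 1) ^ 2) * |‖s.2‖ - 1| = 0 := fun s hs => by
      rw [Phi_ball_zero hk (by rw [sub_zero]; exact hs.le), zero_mul]
    have h1 := H.conv _ (by fun_prop) (hcs_two h0 hk)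
    simp only [fun j q => Imm.norm_nuv (H.sm j) q, sub_self, abs_zero, mul_zero, zero_mul, bl,
      integral_zero, zero_div, sub_zero, L.norm_map] at h1
    have h2 := (hcs_two (F := Y d) h0 hk)
    simp only [sub_zero] at h2
    have h2' : Continuous fun q : Y d × Y d => Phi (‖q.1‖ ^ 2 / (k + 1) ^ 2) * |‖q.2‖ - 1| *
      Phi (‖q.2‖ ^ 2 / (k + 1) ^ 2) := by fun_prop
    filter_upwards [(integral_eq_zero_iff_of_nonneg (fun q => mul_nonneg (mul_nonneg
      (Phi_nonneg _) (abs_nonneg _)) (Phi_nonneg _)) (h2'.integrable_of_hasCompactSupport h2)).1 (tendsto_const_nhds_iff.1 h1).symm] with q hq hn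
    have h3 : ∀ {y : Y d}, ‖y‖ ≤ ‖q‖ → Phi (‖y‖ ^ 2 / (k + 1) ^ 2) = 1 := fun {y} hy => by
      simpa using Phi_ball_one (y := y) (c := 0) hk (by rw [sub_zero]; exact hy.trans hn)
    rw [h3 (norm_fst_le q), h3 (norm_snd_le q), one_mul, mul_one, Pi.zero_apply, abs_eq_zero] at hq
    linarith
  filter_upwards [ae_all_iff.2 h] with q hq
  obtain ⟨k, hk⟩ := exists_nat_ge (2 * ‖q‖)
  exact hq k (by linarith)

theorem integrable {g : Y d × Y d → ℝ} (hg : Continuous g) (R : ℝ)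
    (h0 : ∀ q, R < ‖q.1‖ → g q = 0) : Integrable g V := by
  have := H.loc
  refine (Continuous.integrable_of_hasCompactSupport (by fun_prop) (hcs_two h0 two_pos)).congr ?_
  filter_upwards [H.unit] with q hq
  rw [Phi_unit hq, mul_one]

theorem conv' (g : E (Option ι) × E (Option ι) → ℝ) (R : ℝ) (hg : Continuous g)
    (h0 : ∀ s, R < ‖s.1‖ → g s = 0) :
    Tendsto (fun j => bl M (u j) (r j) fun q => g (ry M (u j) (p j) (r j) q, M.nuv (u j) q)) 𝒰
      (𝓝 (∫ q, g (L q.1, L q.2) ∂V)) := by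
  have h6 := H.conv _ (by fun_prop) (hcs_two h0 two_pos)
  simp only [fun j q => Phi_unit (Imm.norm_nuv (H.sm j) q), mul_one] at h6
  rwa [integral_congr_ae (g := fun q => g (L q.1, L q.2)) (by
    filter_upwards [H.unit] with q hq
    rw [Phi_unit (by rw [L.norm_map, hq]), mul_one])] at h6

omit H in
theorem Phi_far {F : Type} [NormedAddCommGroup F] {σ : ℝ} (hσ : 0 < σ) {y z : F} {R : ℝ}
    (hz : ‖z‖ ≤ R) (h : R + σ < ‖y‖) : Phi (‖y - z‖ ^ 2 / σ ^ 2) = 0 :=
  Phi_ball_zero hσ (by linarith [norm_sub_norm_le y z])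

theorem integrable_Phi (y : Y d) {σ : ℝ} (hσ : 0 < σ) :
    Integrable (fun q => Phi (‖q.1 - y‖ ^ 2 / σ ^ 2)) V :=
  H.integrable (by fun_prop) _ fun _ hq => Phi_far hσ le_rfl hq

theorem conv_Phi (y : Y d) {σ : ℝ} (hσ : 0 < σ) :
    Tendsto (fun j => bl M (u j) (r j) fun q => Phi (‖ry M (u j) (p j) (r j) q - L y‖ ^ 2 / σ ^ 2))
      𝒰 (𝓝 (∫ q, Phi (‖q.1 - y‖ ^ 2 / σ ^ 2) ∂V)) := by
  have := H.conv' (fun s => Phi (‖s.1 - L y‖ ^ 2 / σ ^ 2)) _ (by fun_prop)
    fun _ hq => Phi_far hσ le_rfl hq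
  simpa only [← L.map_sub, L.norm_map] using this

theorem fin (y : Y d) {R : ℝ} (hR : 0 < R) :
    V (closedBall y R ×ˢ univ) ≤ ENNReal.ofReal (C * 2 ^ d * R ^ d) := by
  have h2 : 0 < 2 * R := by positivity
  have h1 : ∫ q, Phi (‖q.1 - y‖ ^ 2 / (2 * R) ^ 2) ∂V ≤ C * (2 * R) ^ d :=
    le_of_tendsto (H.conv_Phi y h2) (by
      filter_upwards [ev_pos H.hr, ev_mul_le H.hr (2 * R) one_pos] with j h3 h4
      exact bl_Phi_le (H.sm j) (H.area j) h3 h2 h4 _ _)
  rw [mul_assoc, ← mul_pow]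
  refine le_trans ?_ (ENNReal.ofReal_le_ofReal h1)
  rw [ofReal_integral_eq_lintegral_ofReal (H.integrable_Phi y h2) (.of_forall fun _ => Phi_nonneg _),
    ← lintegral_indicator_one (measurableSet_closedBall.prod .univ)]
  refine lintegral_mono fun q => indicator_apply_le' (fun hq => ?_) fun _ => zero_le
  rw [Phi_ball_one h2 (by rw [← dist_eq_norm]; linarith [mem_closedBall.1 hq.1])]
  simp

theorem supp {y : Y d} (hy : InSupp V y) :
    ∃ q : ℕ → X, Tendsto (fun j => ry M (u j) (p j) (r j) (q j)) 𝒰 (𝓝 (L y)) := by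
  choose q _ hq using fun j => isCompact_univ.exists_isMinOn ⟨p j, mem_univ _⟩
    ((continuous_ry (H.sm j) (p j) (r j)).sub (continuous_const (y := L y))).norm.continuousOn
  refine ⟨q, Metric.tendsto_nhds.2 fun ε hε => ?_⟩
  have h1 : 0 < ∫ q, Phi (‖q.1 - y‖ ^ 2 / ε ^ 2) ∂V := by
    rw [integral_pos_iff_support_of_nonneg (fun _ => Phi_nonneg _) (H.integrable_Phi y hε)]
    refine (hy _ (half_pos hε)).trans_le (measure_mono fun q hq => ?_)
    rw [mem_support, Phi_ball_one hε (by rw [← dist_eq_norm]; exact (mem_ball.1 hq.1).le)]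
    exact one_ne_zero
  filter_upwards [(H.conv_Phi y hε).eventually_const_lt h1] with j hj
  rw [dist_eq_norm]
  by_contra h
  simp only [fun q' => Phi_ball_zero hε ((not_lt.1 h).trans (hq j (mem_univ q'))), bl,
    integral_zero, zero_div, lt_self_iff_false] at hj

theorem low (hMon2 : Mon2Stmt) (hM : Injective M.x) {C' : ℝ} (hS : ∀ j, M.Sheet C' (u j))
    {y : Y d} {q : ℕ → X} (hq : Tendsto (fun j => ry M (u j) (p j) (r j) (q j)) 𝒰 (𝓝 (L y)))
    {σ : ℝ} (hσ : 0 < σ) : cPhi d * σ ^ d ≤ ∫ q, Phi (‖q.1 - y‖ ^ 2 / σ ^ 2) ∂V := by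
  have h1 := (tendsto_bl_move (p := p) H.sm H.area H.hr
    (G := fun s => Phi (‖s.2.1 - s.1‖ ^ 2 / σ ^ 2)) (by fun_prop) hq (‖L y‖ + 1 + σ)
    ((hq.norm.eventually_le_const (lt_add_one _)).mono fun j hj s hs => Phi_far hσ hj hs)
    fun s hs => Phi_far hσ (le_add_of_nonneg_right one_pos.le) hs).add (H.conv_Phi y hσ)
  simp only [sub_add_cancel, zero_add] at h1
  have h2 : Tendsto (fun j => Real.exp (C' * (σ * r j))) 𝒰 (𝓝 (Real.exp (C' * (σ * 0)))) :=
    (((H.hr.mono_right nhdsWithin_le_nhds).const_mul σ).const_mul C').rexp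
  have h3 := ge_of_tendsto (h2.mul (h1.div_const (σ ^ d))) (by
    filter_upwards [ev_pos H.hr] with j hj
    rw [← gTh_eq_bl hj]
    exact gTh_low hMon2 hM (H.sm j) (hS j) (q j) (mul_pos hσ hj))
  rwa [mul_zero, mul_zero, Real.exp_zero, one_mul, le_div_iff₀ (pow_pos hσ d)] at h3

theorem zero (hMon2 : Mon2Stmt) (hM : Injective M.x) {C' : ℝ} (hS : ∀ j, M.Sheet C' (u j)) :
    InSupp V 0 := fun ε hε => by
  have h := (mul_pos (cPhi_pos d) (pow_pos hε d)).trans_le (H.low hMon2 hM hS (y := 0) (q := p)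
    (by simp [ry]) hε)
  rw [integral_pos_iff_support_of_nonneg (fun _ => Phi_nonneg _) (H.integrable_Phi 0 hε)] at h
  refine h.trans_le (measure_mono fun q hq => ⟨?_, mem_univ _⟩)
  rw [mem_ball, dist_eq_norm]
  exact not_le.1 fun h' => hq (Phi_ball_zero hε h')

/-- the calibration inequality in the limit -/
theorem cal {C' : ℝ}
    (hT : ∀ h : E (Option ι) → ℝ, Continuous h → HasCompactSupport h → Tendsto (fun j =>
      (∫ q, (∫ s, h (up s ((r j)⁻¹ • (M.x q - M.x (p j))))) ∂M.mu) / r j ^ d) 𝒰 (𝓝 (∫ y, h (L y))))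
    (hC : ∀ j (f : E (Option ι) → ℝ), ContDiff ℝ ∞ f → HasCompactSupport f → (∀ y, 0 ≤ f y) →
      2 * ∫ p, f (M.gx (u j) p) ∂M.gmu (u j) ≤ ∫ p, (∫ t,
        (‖fderiv ℝ f (up t (M.x p))‖ + C' * f (up t (M.x p)))) ∂M.mu)
    {f : Y d → ℝ} (hf : ContDiff ℝ ∞ f) (hs : HasCompactSupport f) (h0 : ∀ y, 0 ≤ f y) :
    2 * ∫ q, f q.1 ∂V ≤ ∫ y, ‖fderiv ℝ f y‖ := by
  obtain ⟨R, -, hR⟩ := exists_norm_of_hcs hs
  set g : E (Option ι) → ℝ := fun z => f (Ls L z) * cut L z with hg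
  have g1 : ContDiff ℝ ∞ g := (hf.comp (Ls L).contDiff).mul (contDiff_cut L)
  have g0 : ∀ z, R + 1 < ‖z‖ → g z = 0 := fun z hz => by
    by_cases h1 : cut L z = 0
    · rw [hg]; simp only [h1, mul_zero]
    · rw [hg]; simp only [hR _ (by linarith [norm_le_of_cut L h1]), zero_mul]
  have g2 : HasCompactSupport g := hcs_of_norm _ g0
  have g3 : ∀ z, 0 ≤ g z := fun z => mul_nonneg (h0 _) (cut_nonneg L z)
  have g4 : Continuous fun z => ‖fderiv ℝ g z‖ := (g1.continuous_fderiv (by simp)).norm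
  have g5 : HasCompactSupport fun z => ‖fderiv ℝ g z‖ := (g2.fderiv ℝ).norm
  have hL : ∀ {h : E (Option ι) → ℝ}, Continuous h → HasCompactSupport h →
      Integrable fun y => h (L y) := fun hh hc => (hh.comp L.continuous).integrable_of_hasCompactSupport
        (hc.comp_isClosedEmbedding L.isometry.isClosedEmbedding)
  have g6 : ∀ y, ‖fderiv ℝ g (L y)‖ ≤ ‖fderiv ℝ f y‖ := fun y => by
    have h1 : g =ᶠ[𝓝 (L y)] f ∘ Ls L := by
      have h2 : Continuous fun z => ‖z - L (Ls L z)‖ ^ 2 := by fun_prop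
      filter_upwards [(h2.tendsto (L y)).eventually_le_const (u := 1 / 2) (by simp [Ls_L])] with z hz
      rw [hg]; simp only [cut, Phi_of_le hz, mul_one, comp_apply]
    rw [h1.fderiv_eq, fderiv_comp _ (hf.differentiable (by simp) _) (Ls L).differentiableAt,
      ContinuousLinearMap.fderiv, Ls_L]
    refine ContinuousLinearMap.opNorm_le_bound _ (norm_nonneg _) fun w => ?_
    exact (fderiv ℝ f y).le_of_opNorm_le_of_le le_rfl (norm_Ls_le L w)
  have h1 := (H.conv' (fun s => g s.1) (R + 1) (g1.continuous.comp continuous_fst)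
    fun s hs => g0 _ hs).const_mul 2
  simp only [hg, Ls_L, cut_L, mul_one] at h1
  have key : ∀ δ > 0, 2 * ∫ q, f q.1 ∂V ≤ (∫ y, ‖fderiv ℝ f y‖) + δ * ∫ y, g (L y) := by
    intro δ hδ
    have k1 : Continuous fun z => ‖fderiv ℝ g z‖ + δ * g z := g4.add (g1.continuous.const_mul δ)
    have k2 : HasCompactSupport fun z => ‖fderiv ℝ g z‖ + δ * g z := g5.add g2.mul_left
    refine (le_of_tendsto_of_tendsto h1 (hT _ k1 k2) ?_).trans ?_
    · filter_upwards [ev_pos H.hr, ev_mul_le H.hr C' hδ] with j hj hj'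
      have a1 : ContDiff ℝ ∞ fun z : E (Option ι) => (r j)⁻¹ • (z - M.gx (u j) (p j)) := by fun_prop
      have a2 := hC j _ (g1.comp a1) (g2.comp_homeomorph ((Homeomorph.subRight _).trans
        (Homeomorph.smulOfNeZero _ (inv_pos.2 hj).ne'))) fun z => g3 _
      have a3 : ∀ z, ‖fderiv ℝ (g ∘ fun z : E (Option ι) => (r j)⁻¹ • (z - M.gx (u j) (p j))) z‖ =
          (r j)⁻¹ * ‖fderiv ℝ g ((r j)⁻¹ • (z - M.gx (u j) (p j)))‖ := fun z => by
        have a0 : HasFDerivAt (fun z : E (Option ι) => (r j)⁻¹ • (z - M.gx (u j) (p j)))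
          ((r j)⁻¹ • ContinuousLinearMap.id ℝ _) z :=
          ((hasFDerivAt_id z).sub_const (M.gx (u j) (p j))).const_smul (r j)⁻¹
        rw [((g1.differentiable (by simp) _).hasFDerivAt.comp z a0).fderiv,
          ContinuousLinearMap.comp_smul, ContinuousLinearMap.comp_id]
        exact norm_smul_of_nonneg (inv_pos.2 hj).le (fderiv ℝ g _)
      simp only [a3, comp_apply] at a2
      rw [bl, ← mul_div_assoc]
      refine div_le_div_of_nonneg_right (a2.trans ?_) (pow_pos hj d).le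
      have a4 : ∀ {h : E (Option ι) → ℝ}, Continuous h → HasCompactSupport h → Integrable
          (fun q => ∫ s, h (up s ((r j)⁻¹ • (M.x q - M.x (p j))))) M.mu := fun hh hc =>
        ((continuous_fib hh hc).comp (by have := M.continuous_x; fun_prop)).integrable_of_hasCompactSupport
          (HasCompactSupport.of_compactSpace _)
      have a5 : ∀ w : E ι, ∀ {h : E (Option ι) → ℝ}, Continuous h → HasCompactSupport h →
          Integrable fun s : ℝ => h (up s w) := fun w h hh hc => by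
        obtain ⟨R', -, hR'⟩ := exists_norm_of_hcs hc
        exact (hh.comp (contDiff_up.continuous.comp (Continuous.prodMk_left w))).integrable_of_hasCompactSupport
          (hcs_of_norm R' fun s hs => hR' _ (hs.le.trans (abs_none_le (up s w))))
      have k3 : Continuous fun z => ‖fderiv ℝ g z‖ + C' * r j * g z :=
        g4.add (g1.continuous.const_mul _)
      have k4 : HasCompactSupport fun z => ‖fderiv ℝ g z‖ + C' * r j * g z := g5.add g2.mul_left
      refine le_of_eq_of_le (integral_congr_ae (.of_forall fun q => ?_))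
        (integral_mono (a4 k3 k4) (a4 k1 k2) fun q => integral_mono (a5 _ k3 k4) (a5 _ k1 k2)
          fun s => add_le_add_right (mul_le_mul_of_nonneg_right hj' (g3 _)) _)
      refine (integral_fib_scale (fun z => (r j)⁻¹ * ‖fderiv ℝ g z‖ + C' * g z) hj _ _ _).trans ?_
      rw [← integral_const_mul]
      refine integral_congr_ae (.of_forall fun s => ?_)
      field_simp
    · rw [integral_add (hL g4 g5) ((hL g1.continuous g2).const_mul δ), integral_const_mul]
      exact add_le_add_left (integral_mono (hL g4 g5)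
        ((hf.continuous_fderiv (by simp)).norm.integrable_of_hasCompactSupport (hs.fderiv ℝ).norm)
        g6) _
  refine le_of_forall_pos_le_add fun ε hε => ?_
  have h2 : 0 ≤ ∫ y, g (L y) := integral_nonneg fun y => g3 _
  refine (key (ε / ((∫ y, g (L y)) + 1)) (by positivity)).trans (add_le_add_right ?_ _)
  rw [div_mul_eq_mul_div, div_le_iff₀ (by positivity)]
  nlinarith

end Cv
end EP
open EP

theorem blow (hT : TanStmt) (hMon2 : Mon2Stmt) (hS : SheetStmt) (hCal : CalStmt) : BlowStmt := by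
  intro d ι _ _ X _ _ _ _ _ _ M F hM hF Λ 𝒰 u p r hu hr
  obtain ⟨p0, -, hp⟩ := isCompact_univ.ultrafilter_le_nhds (𝒰.map p) (by simp)
  have hp : Tendsto p 𝒰 (𝓝 p0) := hp
  obtain ⟨L0, hL0, hT⟩ := hT d ι X M inferInstance hM p0
  obtain ⟨L, hL, hI⟩ := exists_L L0 hL0
  obtain ⟨C', -, hS⟩ := hS d ι X M F hM hF Λ
  obtain ⟨C, -, hC⟩ := hCal d ι X M F hM hF Λ
  obtain ⟨V, H⟩ := exists_cv hM (fun j => (hu j).sm) (fun j => (hC _ (hu j)).2.1) hp hr hL
  have hS' := fun j => hS _ (hu j)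
  refine ⟨p0, L, V, hp, ⟨⟨_, fun y R hR => H.fin y hR⟩, H.unit, H.zero hMon2 hM hS',
    fun y hy σ hσ => H.low hMon2 hM hS' (H.supp hy).choose_spec hσ, fun f hf hs h0 => ?_⟩, hL,
    H.conv, fun y hy => H.supp hy⟩
  refine H.cal (C' := C) (fun h hh hc => ?_) (fun j g hg hc h0 => ?_) hf hs h0
  · rw [hI h ((hh.comp L.continuous).integrable_of_hasCompactSupport
      (hc.comp_isClosedEmbedding L.isometry.isClosedEmbedding))]
    exact hT ℕ 𝒰 p r hp hr _ ((continuous_fib hh hc).comp continuous_fst) (hcs_fib hc)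
  · obtain ⟨h1, h2⟩ := (hC _ (hu j)).1 g hg hc h0
    rw [← integral_halves (f := fun z => ‖fderiv ℝ g z‖ + C * g z)
      ((hg.continuous_fderiv (by simp)).norm.add (hg.continuous.const_mul C))
      ((hc.fderiv ℝ).norm.add hc.mul_left) (hu j).sm.continuous]
    linarith

end Crest.Agent.N222

end
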