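import Crest.Agent.N222.B.Box2

/-!
# Row 222, part B, local graphs: the equation and the estimates (helper10)
-/

set_option autoImplicit false
set_option linter.unusedSectionVars false
open Set Filter Topology Function Metric
open scoped ContDiff InnerProductSpace RealInnerProductSpace

noncomputable section

namespace Crest.Agent.N222.Bx

variable {m : ℕ} {ι : Type} [Fintype ι] [DecidableEq ι] {X : Type} [TopologicalSpace X]
  [MeasurableSpace X]

/-- `c` is the chart `(u - t, y')`, and `w` is the coordinate `y₀` as a function of it -/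
structure GC (M : Imm (m + 1) ι X) (u : X → ℝ) (e c : OpenPartialHomeomorph X (E (Fin (m + 1))))
    (w : E (Fin (m + 1)) → ℝ) (t ρ : ℝ) : Prop where
  hu : M.Sm u
  he : IsChart M.x e
  hc : IsChart M.x c
  tg : c.target = ball 0 ρ
  sm : ContDiffOn ℝ ∞ w (ball 0 ρ)
  mem : ∀ z ∈ ball 0 ρ, ps w z ∈ e.target
  eq : ∀ z ∈ ball 0 ρ, c.symm z = e.symm (ps w z)
  ht : ∀ z ∈ ball 0 ρ, u (c.symm z) = t + z 0
  cone : ∀ z ∈ ball 0 ρ, ∀ η : E (Fin (m + 1)), ‖tail0 η‖ ≤ η 0 →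
    η 0 ≤ fderiv ℝ (u ∘ e.symm) (ps w z) η

namespace GC

variable {M : Imm (m + 1) ι X} {u : X → ℝ} {e c : OpenPartialHomeomorph X (E (Fin (m + 1)))}
  {w : E (Fin (m + 1)) → ℝ} {t ρ : ℝ} (H : GC M u e c w t ρ) {z : E (Fin (m + 1))}
  (hz : z ∈ ball (0 : E (Fin (m + 1))) ρ)
include H hz

theorem wAt : ContDiffAt ℝ ∞ w z := H.sm.contDiffAt (isOpen_ball.mem_nhds hz)

theorem fAt {V : Type} [NormedAddCommGroup V] [NormedSpace ℝ V] {f : X → V} (hf : M.Sm f) :
    ContDiffAt ℝ ∞ (f ∘ e.symm) (ps w z) :=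
  (hf.chart H.he).contDiffAt (e.open_target.mem_nhds (H.mem z hz))

theorem ev {V : Type} (f : X → V) : f ∘ c.symm =ᶠ[𝓝 z] (f ∘ e.symm) ∘ ps w := by
  filter_upwards [isOpen_ball.mem_nhds hz] with y hy
  simp only [comp_apply, H.eq y hy]

theorem evu : (u ∘ e.symm) ∘ ps w =ᶠ[𝓝 z] fun y => t + y 0 := by
  filter_upwards [isOpen_ball.mem_nhds hz] with y hy
  simp only [comp_apply, ← H.eq y hy, H.ht y hy]

theorem src : c.symm z ∈ e.source := H.eq z hz ▸ e.map_target (H.mem z hz)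

theorem e_eq : e (c.symm z) = ps w z := by rw [H.eq z hz, e.right_inv (H.mem z hz)]

theorem fd {V : Type} [NormedAddCommGroup V] [NormedSpace ℝ V] {f : X → V} (hf : M.Sm f) :
    fderiv ℝ (f ∘ c.symm) z = fderiv ℝ (f ∘ e.symm) (ps w z) ∘L jT (gradient w z) := by
  rw [(H.ev hz f).fderiv_eq]
  exact (((H.fAt hz hf).differentiableAt (by simp)).hasFDerivAt.comp z
    (hasFDerivAt_ps ((H.wAt hz).differentiableAt (by simp)))).fderiv

theorem k1 (v : E (Fin (m + 1))) : fderiv ℝ (u ∘ e.symm) (ps w z) (jT (gradient w z) v) = v 0 := by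
  have h1 := (((H.fAt hz H.hu).differentiableAt (by simp)).hasFDerivAt.comp z
    (hasFDerivAt_ps ((H.wAt hz).differentiableAt (by simp)))).congr_of_eventuallyEq (H.evu hz).symm
  have h2 := h1.unique ((EuclideanSpace.proj (𝕜 := ℝ) (0 : Fin (m + 1))).hasFDerivAt.const_add t)
  exact congrArg (fun T : E (Fin (m + 1)) →L[ℝ] ℝ => T v) h2

theorem k2 : gradient w z 0 * fderiv ℝ (u ∘ e.symm) (ps w z) (ee 0) = 1 := by
  have := H.k1 hz (ee 0)
  rw [jT_apply, cons0_eq, tail0_ee, map_add, map_smul] at this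
  have h0 : cons0 0 (0 : E (Fin m)) = 0 := by ext i; exact Fin.cases rfl (fun _ => rfl) i
  have h1 : ⟪gradient w z, ee 0⟫ = gradient w z 0 := by
    rw [ee, EuclideanSpace.inner_single_right]; simp
  rwa [h0, map_zero, add_zero, h1] at this

theorem one_le : 1 ≤ fderiv ℝ (u ∘ e.symm) (ps w z) (ee 0) := by
  simpa [ee] using H.cone z hz (ee 0) (by rw [tail0_ee]; simp [ee])

theorem P0_pos : 0 < gradient w z 0 := by
  have := H.k2 hz
  have := H.one_le hz
  by_contra h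
  nlinarith

theorem k3' (a : E (Fin (m + 1))) : gradient w z 0 * fderiv ℝ (u ∘ e.symm) (ps w z) a =
    a 0 - ⟪tail0 (gradient w z), tail0 a⟫ := by
  have h1 := H.k1 hz (cons0 0 (tail0 a))
  rw [jT_apply, inner_split, cons0_eq _ (tail0 _), map_add, map_smul] at h1
  simp only [cons0_zero, tail0_cons0, mul_zero, zero_add, smul_eq_mul] at h1
  have h2 := H.k2 hz
  conv_lhs => rw [← cons0_tail0 a, cons0_eq, map_add, map_smul, smul_eq_mul]
  linear_combination (a 0 - ⟪tail0 (gradient w z), tail0 a⟫) * h2 + gradient w z 0 * h1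

theorem norm_P : ‖gradient w z‖ ≤ 2 := by
  have h0 := H.P0_pos hz
  have h1 : gradient w z 0 ≤ 1 := by nlinarith [H.k2 hz, H.one_le hz]
  have h2 := H.cone z hz (cons0 ‖tail0 (gradient w z)‖ (tail0 (gradient w z))) (by simp)
  have h3 := H.k3' hz (cons0 ‖tail0 (gradient w z)‖ (tail0 (gradient w z)))
  simp only [cons0_zero, tail0_cons0, real_inner_self_eq_norm_sq] at h2 h3
  have h4 : ‖tail0 (gradient w z)‖ ≤ 1 := by
    have h5 := norm_nonneg (tail0 (gradient w z))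
    by_contra h
    nlinarith [mul_le_mul_of_nonneg_left (h5.trans h2) h0.le]
  have := norm_cons0_le (gradient w z 0) (tail0 (gradient w z))
  rw [cons0_tail0, abs_of_pos h0] at this
  linarith

variable (l : ℝ × ℝ)

theorem inj : Injective (fderiv ℝ (M.x ∘ e.symm) (jy (z, w z, gradient w z, l))) :=
  H.he.inj _ (H.mem z hz)

theorem k3 : gradient w z 0 • M.grad u (c.symm z) = jxi (M.x ∘ e.symm) (z, w z, gradient w z, l) := by
  refine ext_inner_right ℝ fun y => ?_
  rw [real_inner_smul_left, ← Imm.td_eq_inner, Imm.td_chart u H.he (H.src hz), H.e_eq hz,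
    ContinuousLinearMap.comp_apply, H.k3' hz, jxi, ← ContinuousLinearMap.adjoint_inner_right,
    inner_split]
  simp only [cons0_zero, tail0_cons0, one_mul, inner_neg_left]
  rfl

theorem k4 : M.vv u (c.symm z) * jN (M.x ∘ e.symm) (z, w z, gradient w z, l) = gradient w z 0 := by
  have h0 := H.P0_pos hz
  have h1 : jN (M.x ∘ e.symm) (z, w z, gradient w z, l) =
      gradient w z 0 * √(1 + M.pre.gam u u (c.symm z)) := by
    rw [jN, ← H.k3 hz l, norm_smul, Imm.gam_self_eq, Real.norm_eq_abs, mul_pow, sq_abs,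
      ← mul_one_add, Real.sqrt_mul (sq_nonneg _), Real.sqrt_sq h0.le]
  have h2 : 0 < √(1 + M.pre.gam u u (c.symm z)) :=
    Real.sqrt_pos.2 (by have := Imm.gam_self_nonneg (M := M) u (c.symm z); positivity)
  rw [h1, Imm.vv]
  field_simp

theorem k5 : fderiv ℝ (M.gx u ∘ c.symm) z = jJ (M.x ∘ e.symm) (z, w z, gradient w z, l) := by
  ext1 v
  have h1 := Imm.fderiv_gx H.hu H.he (H.src hz) (jT (gradient w z) v)
  have h2 := Imm.fderiv_chart u H.he (H.src hz)
  rw [H.e_eq hz] at h1 h2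
  rw [H.fd hz (Imm.sm_gx H.hu), ContinuousLinearMap.comp_apply, h1, ← Imm.td_eq_inner,
    ← ContinuousLinearMap.comp_apply (M.td u _), ← h2, H.k1 hz]
  rfl

theorem csrc : c.symm z ∈ c.source := c.map_target (H.tg ▸ hz)

theorem c_eq : c (c.symm z) = z := c.right_inv (H.tg ▸ hz)

theorem P_eq (a b : Option ι) : (M.gS u).P a b (c.symm z) =
    jJ (M.x ∘ e.symm) (z, w z, gradient w z, l) (ContinuousLinearMap.adjoint
      (Lam (jJ (M.x ∘ e.symm) (z, w z, gradient w z, l))) (ee a)) b := by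
  have := Imm.td_chart (M := M.graph u H.hu) (M.gx u) (Imm.isChart_graph H.hu H.hc) (H.csrc hz)
  rw [H.c_eq hz, Imm.graph_x, H.k5 hz l] at this
  rw [← Imm.graph_pre H.hu, Imm.P_apply, Imm.PL, Imm.graph_x, this]
  rfl

theorem P_J (v : E (Fin (m + 1))) (b : Option ι) :
    ∑ a, (M.gS u).P a b (c.symm z) * jJ (M.x ∘ e.symm) (z, w z, gradient w z, l) v a =
      jJ (M.x ∘ e.symm) (z, w z, gradient w z, l) v b := by
  have := Imm.PL_chart (M := M.graph u H.hu) (Imm.isChart_graph H.hu H.hc) (H.csrc hz) v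
  rw [H.c_eq hz, Imm.graph_x, H.k5 hz l] at this
  conv_rhs => rw [← this, Imm.PL_apply, Imm.graph_pre H.hu]
  exact Finset.sum_congr rfl fun a _ => by
    rw [← Imm.graph_pre H.hu, (M.graph u H.hu).P_symm]

/-- the second fundamental form in the chart -/
theorem k6 (a b : E (Fin (m + 1))) : jN (M.x ∘ e.symm) (z, w z, gradient w z, l) *
    ∑ p, ∑ q, M.A u p q (c.symm z) * (jJ (M.x ∘ e.symm) (z, w z, gradient w z, l) a p *
      jJ (M.x ∘ e.symm) (z, w z, gradient w z, l) b q) =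
    -(fderiv ℝ (fderiv ℝ w) z a b + jB (M.x ∘ e.symm) (z, w z, gradient w z, l) a b) := by
  set J := jJ (M.x ∘ e.symm) (z, w z, gradient w z, l) with hJ
  have h1 : ∑ p, ∑ q, M.A u p q (c.symm z) * (J a p * J b q) = M.vv u (c.symm z) *
      ∑ p, ∑ q, M.pre.hess u p q (c.symm z) * (J a (some p) * J b (some q)) := by
    have hP : ∀ v p, J v (some p) = ∑ q, (M.gS u).P q (some p) (c.symm z) * J v q :=
      fun v p => (H.P_J hz l v (some p)).symm
    conv_rhs => simp only [hP a, hP b]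
    simp only [Imm.A_eq H.hu, Finset.mul_sum, Finset.sum_mul]
    rw [Finset.sum_comm]
    conv_lhs => enter [2, q]; rw [Finset.sum_comm]
    conv_lhs => enter [2, q, 2, c']; rw [Finset.sum_comm]
    rw [Finset.sum_comm]
    conv_lhs => enter [2, c']; rw [Finset.sum_comm]
    refine Finset.sum_congr rfl fun _ _ => Finset.sum_congr rfl fun _ _ =>
      Finset.sum_congr rfl fun _ _ => Finset.sum_congr rfl fun _ _ => by ring
  have h2 := Imm.hess_chart H.hu H.he (H.src hz) (jT (gradient w z) a) (jT (gradient w z) b)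
  have h3 := fderiv2_comp ((H.wAt hz).of_le Imm.two_le_inf)
    ((H.fAt hz H.hu).of_le Imm.two_le_inf) a b
  have h4 : fderiv ℝ (fderiv ℝ ((u ∘ e.symm) ∘ ps w)) z = 0 := by
    rw [(H.evu hz).fderiv.fderiv_eq]
    have : fderiv ℝ (fun y : E (Fin (m + 1)) => t + y 0) =
        fun _ => EuclideanSpace.proj (𝕜 := ℝ) (0 : Fin (m + 1)) := funext fun y =>
      ((EuclideanSpace.proj (𝕜 := ℝ) (0 : Fin (m + 1))).hasFDerivAt.const_add t).fderiv
    rw [this, fderiv_fun_const]; rfl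
  rw [H.e_eq hz, Imm.td_eq_inner] at h2
  rw [h4, h2, smul_eq_mul] at h3
  have h5 : jB (M.x ∘ e.symm) (z, w z, gradient w z, l) a b = gradient w z 0 *
      ⟪M.grad u (c.symm z), fderiv ℝ (fderiv ℝ (M.x ∘ e.symm)) (ps w z) (jT (gradient w z) a)
        (jT (gradient w z) b)⟫ := by
    rw [jB, ← H.k3 hz l, real_inner_smul_left]; rfl
  have h6 : ∑ p, ∑ q, M.pre.hess u p q (c.symm z) * (J a (some p) * J b (some q)) =
      ∑ p, ∑ q, M.pre.hess u p q (c.symm z) *
        (fderiv ℝ (M.x ∘ e.symm) (ps w z) (jT (gradient w z) a) p *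
          fderiv ℝ (M.x ∘ e.symm) (ps w z) (jT (gradient w z) b) q) := rfl
  rw [h1, h5, h6, ← mul_assoc, mul_comm (jN _ _), H.k4 hz l]
  simp only [zero_apply] at h3
  linear_combination -gradient w z 0 * h3 - fderiv ℝ (fderiv ℝ w) z a b * H.k2 hz

theorem k7 : ∑ a, M.A u a a (c.symm z) =
    ∑ i, ∑ k, ginv (jJ (M.x ∘ e.symm) (z, w z, gradient w z, l)) i k *
      ∑ p, ∑ q, M.A u p q (c.symm z) * (jJ (M.x ∘ e.symm) (z, w z, gradient w z, l) (ee i) p *
        jJ (M.x ∘ e.symm) (z, w z, gradient w z, l) (ee k) q) := by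
  have h1 : ∀ a, M.A u a a (c.symm z) = ∑ b, (M.gS u).P a b (c.symm z) * M.A u b a (c.symm z) :=
    fun a => by simpa using (congrFun (Imm.A_tan H.hu a a) (c.symm z)).symm
  rw [Finset.sum_congr rfl fun a _ => h1 a]
  simp only [H.P_eq hz l, proj_eq (jJ_inj (H.inj hz l)), Finset.sum_mul, Finset.mul_sum]
  rw [Finset.sum_comm]
  conv_lhs => enter [2, b]; rw [Finset.sum_comm]
  conv_lhs => enter [2, b, 2, i]; rw [Finset.sum_comm]
  rw [Finset.sum_comm]
  conv_lhs => enter [2, i]; rw [Finset.sum_comm]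
  refine Finset.sum_congr rfl fun _ _ => Finset.sum_congr rfl fun _ _ =>
    Finset.sum_congr rfl fun _ _ => Finset.sum_congr rfl fun _ _ => by ring

/-- the equation -/
theorem eqn {F h : X → ℝ} (hE : ∀ p, M.hF F u p = l.1 * u p + l.2 - h p) :
    ∑ i, ∑ k, ginv (jJ (M.x ∘ e.symm) (z, w z, gradient w z, l)) i k *
      fderiv ℝ (fderiv ℝ w) z (ee i) (ee k) =
    jc (M.x ∘ e.symm) (F ∘ e.symm) (h ∘ e.symm) t (z, w z, gradient w z, l) := by
  have h1 := congrArg (jN (M.x ∘ e.symm) (z, w z, gradient w z, l) * ·) (H.k7 hz l)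
  simp only [Finset.mul_sum (s := (Finset.univ : Finset (Fin (m + 1)))), mul_left_comm (jN _ _),
    H.k6 hz l, mul_neg, mul_add, Finset.sum_neg_distrib, Finset.sum_add_distrib] at h1
  have h2 := hE (c.symm z)
  rw [Imm.hF_apply, ← Imm.tr_A H.hu, H.ht z hz] at h2
  have h3 : jN (M.x ∘ e.symm) (z, w z, gradient w z, l) * M.pre.dir (M.Xf u) F (c.symm z) =
      fderiv ℝ (F ∘ e.symm) (ps w z) (ContinuousLinearMap.adjoint
        (Lam (fderiv ℝ (M.x ∘ e.symm) (ps w z))) (jxi (M.x ∘ e.symm) (z, w z, gradient w z, l))) := by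
    have := Imm.td_down_nuv M u F (c.symm z)
    rw [Imm.down_nuv, map_neg, neg_inj, Imm.td_chart F H.he (H.src hz), H.e_eq hz] at this
    rw [← this, ← H.k3 hz l, ← H.k4 hz l]
    simp only [ContinuousLinearMap.comp_apply, map_smul, smul_eq_mul]
    rw [H.k4 hz l]
    linear_combination (fderiv ℝ (F ∘ e.symm) (ps w z) (ContinuousLinearMap.adjoint
      (Lam (fderiv ℝ (M.x ∘ e.symm) (ps w z))) (M.grad u (c.symm z)))) * H.k4 hz l
  have h4 : h (c.symm z) = (h ∘ e.symm) (jy (z, w z, gradient w z, l)) := congrArg h (H.eq z hz)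
  rw [jc, ← h4]
  change _ = -(_ * (l.1 * (t + z 0) + l.2 - _)) + fderiv ℝ (F ∘ e.symm) (ps w z)
    (ContinuousLinearMap.adjoint (Lam (fderiv ℝ (M.x ∘ e.symm) (ps w z))) _) - _
  rw [← h2, ← h3]
  linear_combination h1

/-- the `C²` bound -/
theorem c2 {C : ℝ} (hC : M.a2 u (c.symm z) ≤ C) :
    ‖fderiv ℝ (fderiv ℝ w) z‖ ≤ jb (M.x ∘ e.symm) C (z, w z, gradient w z, l) := by
  have hN := jN_pos (H.inj hz l)
  refine ContinuousLinearMap.opNorm_le_bound₂ _ (by unfold jb; positivity) fun a b => ?_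
  have h1 := H.k6 hz l a b
  set s : Jet m := (z, w z, gradient w z, l)
  set J := jJ (M.x ∘ e.symm) s
  have h2 := abs_form_le (fun p q => M.A u p q (c.symm z)) (J a) (J b)
  rw [← Imm.a2_apply] at h2
  have h3 : √(M.a2 u (c.symm z)) * (‖J a‖ * ‖J b‖) ≤ √C * (‖J‖ * ‖a‖ * (‖J‖ * ‖b‖)) := by
    gcongr
    exacts [J.le_opNorm a, J.le_opNorm b]
  have h4 : |jB (M.x ∘ e.symm) s a b| ≤ ‖jxi (M.x ∘ e.symm) s‖ *
      (‖fderiv ℝ (fderiv ℝ (M.x ∘ e.symm)) (jy s)‖ * (‖jT s.2.2.1‖ * ‖a‖) * (‖jT s.2.2.1‖ * ‖b‖)) := by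
    refine (abs_real_inner_le_norm _ _).trans ?_
    gcongr
    refine (ContinuousLinearMap.le_opNorm₂ _ _ _).trans ?_
    gcongr
    exacts [(jT _).le_opNorm a, (jT _).le_opNorm b]
  have h5 : fderiv ℝ (fderiv ℝ w) z a b = -(jN (M.x ∘ e.symm) s *
      ∑ p, ∑ q, M.A u p q (c.symm z) * (J a p * J b q)) - jB (M.x ∘ e.symm) s a b := by
    linarith
  rw [h5, Real.norm_eq_abs]
  refine (abs_sub _ _).trans ?_
  rw [abs_neg, abs_mul, abs_of_pos hN, jb]
  have := mul_le_mul_of_nonneg_left (h2.trans h3) hN.le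
  linarith

end GC

end Crest.Agent.N222.Bx

end
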