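import Crest.Agent.N222.B.Defs

/-!
# Row 222, part B: smooth limits along an ultrafilter (helper46)
-/

set_option autoImplicit false
open MeasureTheory Set Filter Topology Function Metric
open scoped ContDiff

noncomputable section

namespace Crest.Agent.N222

namespace UL

variable {X : Type} [NormedAddCommGroup X] [NormedSpace ℝ X] [FiniteDimensional ℝ X]

theorem finite_cml (j : ℕ) (F : Type) [NormedAddCommGroup F] [NormedSpace ℝ F]
    [FiniteDimensional ℝ F] : FiniteDimensional ℝ (X [×j]→L[ℝ] F) := by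
  induction j with
  | zero =>
    exact (continuousMultilinearCurryFin0 ℝ X F).symm.toLinearEquiv.finiteDimensional
  | succ j ih =>
    exact (continuousMultilinearCurryLeftEquiv ℝ (fun _ : Fin (j + 1) => X)
      F).symm.toLinearEquiv.finiteDimensional

/-- bounded equi-Lipschitz families converge uniformly along an ultrafilter -/
theorem lip_lim {F : Type} [NormedAddCommGroup F] [ProperSpace F] (𝒰 : Ultrafilter ℕ)
    (g : ℕ → X → F) (z0 : X) (r C L : ℝ)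
    (hC : ∀ᶠ j in (𝒰 : Filter ℕ), ∀ z ∈ ball z0 r, ‖g j z‖ ≤ C)
    (hL : ∀ᶠ j in (𝒰 : Filter ℕ), ∀ z ∈ ball z0 r, ∀ y ∈ ball z0 r, ‖g j y - g j z‖ ≤ L * ‖y - z‖) :
    ∃ G : X → F, TendstoUniformlyOn g G 𝒰 (ball z0 r) := by
  have : ProperSpace X := FiniteDimensional.proper_real X
  have h1 : ∀ z, ∃ a : F, z ∈ ball z0 r → Tendsto (fun j => g j z) 𝒰 (𝓝 a) := by
    intro z
    by_cases hz : z ∈ ball z0 r
    · obtain ⟨a, -, ha⟩ := (isCompact_closedBall (0 : F) C).ultrafilter_le_nhds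
        (𝒰.map fun j => g j z) (by
          rw [Ultrafilter.coe_map, le_principal_iff, mem_map]
          filter_upwards [hC] with j hj
          simpa using hj z hz)
      exact ⟨a, fun _ => ha⟩
    · exact ⟨0, fun h => absurd h hz⟩
  choose G hG using h1
  refine ⟨G, Metric.tendstoUniformlyOn_iff.2 fun ε hε => ?_⟩
  have hGL : ∀ z ∈ ball z0 r, ∀ y ∈ ball z0 r, ‖G y - G z‖ ≤ L * ‖y - z‖ := fun z hz y hy =>
    le_of_tendsto ((hG y hy).sub (hG z hz)).norm (hL.mono fun j hj => hj z hz y hy)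
  have htb : TotallyBounded (ball z0 r) :=
    (isCompact_closedBall z0 r).totallyBounded.subset ball_subset_closedBall
  set δ := ε / 3 / (|L| + 1) with hδ
  have hδ0 : 0 < δ := by positivity
  obtain ⟨t, hts, htf, ht⟩ := Metric.finite_approx_of_totallyBounded htb δ hδ0
  have h2 : ∀ᶠ j in (𝒰 : Filter ℕ), ∀ z ∈ t, dist (g j z) (G z) < ε / 3 :=
    (eventually_all_finite htf).2 fun z hz => Metric.tendsto_nhds.1 (hG z (hts hz)) _ (by positivity)
  filter_upwards [h2, hL] with j hj hjL y hy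
  obtain ⟨z, hz, hyz⟩ := mem_iUnion₂.1 (ht hy)
  have hyz' : ‖y - z‖ < δ := by rwa [mem_ball, dist_eq_norm] at hyz
  have h3 : L * ‖y - z‖ ≤ ε / 3 := by
    have : L * ‖y - z‖ ≤ (|L| + 1) * δ :=
      mul_le_mul ((le_abs_self L).trans (by linarith)) hyz'.le (norm_nonneg _) (by positivity)
    rwa [hδ, mul_div_cancel₀ _ (by positivity)] at this
  have a1 := (hGL z (hts hz) y hy).trans h3
  have a2 := (hjL z (hts hz) y hy).trans h3
  have a3 := hj z hz
  rw [← dist_eq_norm] at a1 a2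
  have := dist_triangle4 (G y) (G z) (g j z) (g j y)
  rw [dist_comm (G z), dist_comm (g j z) (g j y)] at this
  linarith

omit [FiniteDimensional ℝ X] in
/-- derivatives of limits -/
theorem der_lim {F : Type} [NormedAddCommGroup F] [NormedSpace ℝ F] (𝒰 : Ultrafilter ℕ)
    {g : ℕ → X → F} {G : X → F} {G' : X → X →L[ℝ] F} {z0 : X} {r : ℝ}
    (hd : ∀ᶠ j in (𝒰 : Filter ℕ), ∀ z ∈ ball z0 r, DifferentiableAt ℝ (g j) z)
    (h0 : TendstoUniformlyOn g G 𝒰 (ball z0 r))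
    (h1 : TendstoUniformlyOn (fun j => fderiv ℝ (g j)) G' 𝒰 (ball z0 r)) :
    ∀ x ∈ ball z0 r, HasFDerivAt G (G' x) x := by
  intro x hx
  have hb : ball z0 r ∈ 𝓝 x := isOpen_ball.mem_nhds hx
  refine hasFDerivAt_of_tendstoUniformlyOnFilter (l := (𝒰 : Filter ℕ)) (f := g)
    (f' := fun j => fderiv ℝ (g j)) ?_ ?_ (eventually_of_mem hb fun y hy => h0.tendsto_at hy)
  · exact (tendstoUniformlyOn_iff_tendstoUniformlyOnFilter.1 h1).mono_right (le_principal_iff.2 hb)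
  · exact (hd.prod_mk (eventually_of_mem hb fun _ h => h)).mono fun q hq =>
      (hq.1 q.2 hq.2).hasFDerivAt

/-- smooth limits, vector valued -/
theorem sm_lim {F : Type} [NormedAddCommGroup F] [NormedSpace ℝ F] [FiniteDimensional ℝ F]
    (𝒰 : Ultrafilter ℕ) (w : ℕ → X → F) (z0 : X) (r : ℝ)
    (hw : ∀ᶠ j in (𝒰 : Filter ℕ), ContDiffOn ℝ ∞ (w j) (ball z0 r))
    (hb : ∀ k : ℕ, ∃ C : ℝ, ∀ᶠ j in (𝒰 : Filter ℕ), ∀ z ∈ ball z0 r,
      ‖iteratedFDeriv ℝ k (w j) z‖ ≤ C) :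
    ∃ v : X → F, ContDiffOn ℝ ∞ v (ball z0 r) ∧ TendstoUniformlyOn w v 𝒰 (ball z0 r) := by
  choose C hC using hb
  have : ∀ j, FiniteDimensional ℝ (X [×j]→L[ℝ] F) := fun j => finite_cml j F
  have : ∀ j, ProperSpace (X [×j]→L[ℝ] F) := fun j => FiniteDimensional.proper_real _
  have hd : ∀ k, ∀ᶠ j in (𝒰 : Filter ℕ), ∀ z ∈ ball z0 r,
      DifferentiableAt ℝ (iteratedFDeriv ℝ k (w j)) z := fun k => hw.mono fun j hj z hz =>
    ((hj.contDiffAt (isOpen_ball.mem_nhds hz)).iteratedFDeriv_right (m := 1)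
      (by exact_mod_cast le_top)).differentiableAt one_ne_zero
  have h1 : ∀ k, ∃ G : X → X [×k]→L[ℝ] F,
      TendstoUniformlyOn (fun j => iteratedFDeriv ℝ k (w j)) G 𝒰 (ball z0 r) := fun k =>
    lip_lim 𝒰 _ z0 r (C k) (C (k + 1)) (hC k) (by
      filter_upwards [hd k, hC (k + 1)] with j hj hj' z hz y hy
      refine (convex_ball z0 r).norm_image_sub_le_of_norm_fderiv_le hj (fun x hx => ?_) hz hy
      rw [norm_fderiv_iteratedFDeriv]; exact hj' x hx)
  choose G hG using h1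
  have hder : ∀ m, ∀ x ∈ ball z0 r, HasFDerivAt (G m) (G (m + 1) x).curryLeft x := fun m =>
    der_lim 𝒰 (g := fun j => iteratedFDeriv ℝ m (w j)) (G' := fun x => (G (m + 1) x).curryLeft)
      (hd m) (hG m) ((continuousMultilinearCurryLeftEquiv ℝ (fun _ : Fin (m + 1) => X)
        F).isometry.uniformContinuous.comp_tendstoUniformlyOn (hG (m + 1)))
  have hT : HasFTaylorSeriesUpToOn ∞ (fun x => (G 0 x).curry0) (fun x j => G j x) (ball z0 r) :=
    ⟨fun _ _ => rfl, fun m _ x hx => (hder m x hx).hasFDerivWithinAt,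
      fun m _ x hx => (hder m x hx).continuousAt.continuousWithinAt⟩
  refine ⟨fun x => (G 0 x).curry0, hT.contDiffOn, ?_⟩
  exact (continuousMultilinearCurryFin0 ℝ X F).isometry.uniformContinuous.comp_tendstoUniformlyOn
    (hG 0)

omit [FiniteDimensional ℝ X] in
theorem sm_fderiv {F : Type} [NormedAddCommGroup F] [NormedSpace ℝ F] {w : X → F} {z0 : X} {r : ℝ}
    (hw : ContDiffOn ℝ ∞ w (ball z0 r)) : ContDiffOn ℝ ∞ (fderiv ℝ w) (ball z0 r) :=
  hw.fderiv_of_isOpen isOpen_ball (by exact_mod_cast le_top)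

omit [FiniteDimensional ℝ X] in
theorem sm_diff {F : Type} [NormedAddCommGroup F] [NormedSpace ℝ F] {w : X → F} {z0 : X} {r : ℝ}
    (hw : ContDiffOn ℝ ∞ w (ball z0 r)) : ∀ z ∈ ball z0 r, DifferentiableAt ℝ w z := fun _ hz =>
  (hw.contDiffAt (isOpen_ball.mem_nhds hz)).differentiableAt (by simp)

end UL

open UL in
theorem ulim : ULimStmt := by
  intro n 𝒰 w z0 r hw hb
  have hw1 := hw.mono fun j hj => sm_fderiv hj
  have hw2 := hw1.mono fun j hj => sm_fderiv hj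
  have hb1 : ∀ k : ℕ, ∃ C : ℝ, ∀ᶠ j in (𝒰 : Filter ℕ), ∀ z ∈ ball z0 r,
      ‖iteratedFDeriv ℝ k (fderiv ℝ (w j)) z‖ ≤ C := fun k => by
    simpa only [norm_iteratedFDeriv_fderiv] using hb (k + 1)
  have hb2 : ∀ k : ℕ, ∃ C : ℝ, ∀ᶠ j in (𝒰 : Filter ℕ), ∀ z ∈ ball z0 r,
      ‖iteratedFDeriv ℝ k (fderiv ℝ (fderiv ℝ (w j))) z‖ ≤ C := fun k => by
    simpa only [norm_iteratedFDeriv_fderiv] using hb1 (k + 1)
  obtain ⟨v, hv, t0⟩ := sm_lim 𝒰 w z0 r hw hb
  obtain ⟨v1, -, t1⟩ := sm_lim 𝒰 _ z0 r hw1 hb1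
  obtain ⟨v2, -, t2⟩ := sm_lim 𝒰 _ z0 r hw2 hb2
  have e1 : EqOn v1 (fderiv ℝ v) (ball z0 r) := fun x hx =>
    (der_lim 𝒰 (hw.mono fun j hj => sm_diff hj) t0 t1 x hx).fderiv.symm
  have t1' := t1.congr_right e1
  have e2 : EqOn v2 (fderiv ℝ (fderiv ℝ v)) (ball z0 r) := fun x hx =>
    (der_lim 𝒰 (hw1.mono fun j hj => sm_diff hj) t1' t2 x hx).fderiv.symm
  exact ⟨v, hv, t0, t1', t2.congr_right e2⟩

end Crest.Agent.N222

end
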