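import Crest.Agent.N222.B.Box1
import Crest.Agent.N222.B.Box3
import Crest.Agent.N222.B.ULim

/-!
# Row 222, part B, local graphs: assembly (helper10)
-/

set_option autoImplicit false
set_option linter.unusedSectionVars false
open MeasureTheory Set Filter Topology Function Metric
open scoped ContDiff InnerProductSpace RealInnerProductSpace

noncomputable section

namespace Crest.Agent.N222

namespace Bx

variable {m : ℕ} {ι : Type} [Fintype ι] [DecidableEq ι] {X : Type} [TopologicalSpace X]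
  [MeasurableSpace X] {M : Imm (m + 1) ι X} {e : OpenPartialHomeomorph X (E (Fin (m + 1)))}

theorem norm_cons0_lt {a R ρ : ℝ} {y : E (Fin m)} (ha : |a| ≤ R) (hy : ‖y‖ ≤ ρ) (h : ρ < R) :
    cons0 a y ∈ ball (0 : E (Fin (m + 1))) (2 * R) := by
  rw [mem_ball_zero_iff]; linarith [norm_cons0_le a y]

theorem norm_cons0_zero (y : E (Fin m)) : ‖cons0 0 y‖ = ‖y‖ := by
  have := norm_sq_cons0 0 y
  rw [zero_pow two_ne_zero, zero_add] at this
  exact (pow_left_inj₀ (norm_nonneg _) (norm_nonneg _) two_ne_zero).1 this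

/-- the charts of one graph -/
theorem exists_gc {u : X → ℝ} (hu : M.Sm u) (he : IsChart M.x e) {R δ ρ t : ℝ} (hρ : 0 < ρ)
    (hR : 8 * ρ ≤ R) (hδ : ρ < δ) (hsub : closedBall 0 (2 * R) ⊆ e.target)
    (hc : Cone (fun y => u (e.symm y) - t) R δ) {q : X} (hq : q ∈ e.source) (hqρ : ‖e q‖ ≤ ρ)
    (hqt : u q = t) : ∃ cw : OpenPartialHomeomorph X (E (Fin (m + 1))) × (E (Fin (m + 1)) → ℝ),
      GC M u e cw.1 cw.2 t ρ ∧ (∀ z ∈ ball 0 ρ, |cw.2 z| ≤ R / 2) ∧
      ∀ q ∈ e.source, |e q 0| < R → ‖cons0 (u q - t) (tail0 (e q))‖ < ρ →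
        q ∈ cw.1.source ∧ cw.1 q = cons0 (u q - t) (tail0 (e q)) ∧ e q 0 = cw.2 (cw.1 q) := by
  have hs : ball 0 (2 * R) ⊆ e.target := ball_subset_closedBall.trans hsub
  obtain ⟨g, hs1, hs2, hg, hsm, hsm', hb⟩ := exists_graph_chart hρ hR hδ
    (((hu.chart he).mono hs).sub contDiffOn_const) hc hqρ (by simp [e.left_inv hq, hqt])
  have h1 : ∀ z ∈ ball (0 : E (Fin (m + 1))) ρ, u (e.symm (g.symm z)) - t = z 0 ∧
      g.symm z = ps (fun z => g.symm z 0) z := fun z hz => by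
    have h := g.right_inv (hs2 ▸ hz)
    rw [hg] at h
    refine ⟨congrArg (fun y : E (Fin (m + 1)) => y 0) h, ?_⟩
    have h' : tail0 (g.symm z) = tail0 z := (tail0_cons0 _ _).symm.trans (congrArg tail0 h)
    rw [ps, ← h', cons0_tail0]
  have h2 : ∀ z ∈ ball (0 : E (Fin (m + 1))) ρ, g.symm z ∈ ball 0 (2 * R) := fun z hz => by
    rw [(h1 z hz).2]
    exact norm_cons0_lt ((hb z hz).trans (by linarith))
      ((norm_tail0_le z).trans (mem_ball_zero_iff.1 hz).le) (by linarith)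
  refine ⟨(e.trans g, fun z => g.symm z 0), ⟨hu, he, he.trans g hsm (hs2 ▸ hsm'), ?_,
    contDiffOn_euclidean.1 hsm' 0, fun z hz => (h1 z hz).2 ▸ hs (h2 z hz),
    fun z hz => congrArg e.symm (h1 z hz).2, fun z hz => ?_, fun z hz η hη => ?_⟩, hb,
    fun q hq h3 h4 => ?_⟩
  · rw [OpenPartialHomeomorph.trans_target, hs2]
    exact inter_eq_left.2 fun z hz => hs (h2 z hz)
  · exact (eq_add_of_sub_eq' (h1 z hz).1)
  · have := hc _ (h2 z hz) (by
      beta_reduce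
      rw [(h1 z hz).1]; exact (abs_zero_le z).trans_lt ((mem_ball_zero_iff.1 hz).trans hδ)) η hη
    rwa [fderiv_sub_const, (h1 z hz).2] at this
  · have h5 : e q ∈ g.source := by
      rw [hs1]
      refine ⟨h3, (norm_tail0_le (cons0 (u q - t) (tail0 (e q)))).trans_lt h4, ?_⟩
      simpa only [comp_apply, e.left_inv hq] using h4
    refine ⟨⟨hq, h5⟩, ?_, ?_⟩
    · change g (e q) = _
      simp only [hg, comp_apply, e.left_inv hq]
    · change _ = g.symm (g (e q)) 0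
      rw [g.left_inv h5]

/-- estimates of all orders -/
theorem all_bounds (hQ : QRegStmt) (he : IsChart M.x e) {F h : X → ℝ} (hF : M.Sm F) (hh : M.Sm h)
    {R ρ t C : ℝ} (hρ : 0 < ρ) (hR : 8 * ρ ≤ R) (hsub : closedBall 0 (2 * R) ⊆ e.target) (k : ℕ) :
    ∃ B : ℝ, ∀ (u : X → ℝ) c w (l : ℝ × ℝ), GC M u e c w t ρ → (∀ z ∈ ball 0 ρ, |w z| ≤ R / 2) →
      ‖l‖ ≤ 1 → (∀ p, M.hF F u p = l.1 * u p + l.2 - h p) →
      (∀ z ∈ ball 0 ρ, M.a2 u (c.symm z) ≤ C) →
      ∀ z ∈ ball (0 : E (Fin (m + 1))) (ρ / 2), ‖iteratedFDeriv ℝ k w z‖ ≤ B := by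
  let K : Set (Jet m) := closedBall 0 ρ ×ˢ closedBall 0 (R / 2) ×ˢ closedBall 0 2 ×ˢ closedBall 0 1
  have hK : IsCompact K := (isCompact_closedBall _ _).prod ((isCompact_closedBall _ _).prod
    ((isCompact_closedBall _ _).prod (isCompact_closedBall _ _)))
  have hKW : K ⊆ jy ⁻¹' e.target := fun s hs => hsub (ball_subset_closedBall (norm_cons0_lt
    ((mem_closedBall_zero_iff.1 hs.2.1).trans (by linarith))
    ((norm_tail0_le _).trans (mem_closedBall_zero_iff.1 hs.1)) (by linarith)))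
  have hφ : ∀ s : Jet m, jy s ∈ e.target → ContDiffAt ℝ ∞ (M.x ∘ e.symm) (jy s) := fun s hs =>
    he.sm.contDiffAt (e.open_target.mem_nhds hs)
  obtain ⟨B, hB⟩ := hK.exists_bound_of_continuousOn (f := jb (M.x ∘ e.symm) C) fun s hs =>
    (cont_b (hφ s (hKW hs)) (he.inj _ (hKW hs)) C).continuousWithinAt
  obtain ⟨B', hB'⟩ := hQ (m + 1) k (ℝ × ℝ) (fun s => ginv (jJ (M.x ∘ e.symm) s))
    (jc (M.x ∘ e.symm) (F ∘ e.symm) (h ∘ e.symm) t) (jy ⁻¹' e.target) K ρ B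
    (e.open_target.preimage contDiff_jy.continuous) hK hKW
    (fun i k s hs => (cd_a (hφ s hs) (he.inj _ hs) i k).contDiffWithinAt)
    (fun s hs => (cd_c (hφ s hs) (he.inj _ hs)
      ((hF.chart he).contDiffAt (e.open_target.mem_nhds hs))
      ((hh.chart he).contDiffAt (e.open_target.mem_nhds hs)) t).contDiffWithinAt)
    (fun s hs => ginv_posDef (jJ_inj (he.inj _ (hKW hs)))) hρ
  refine ⟨B', fun u c w l H hw hl hE ha => hB' 0 w l H.sm fun z hz => ?_⟩
  have hm : (z, w z, gradient w z, l) ∈ K := ⟨ball_subset_closedBall hz,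
    mem_closedBall_zero_iff.2 (hw z hz), mem_closedBall_zero_iff.2 (H.norm_P hz),
    mem_closedBall_zero_iff.2 hl⟩
  exact ⟨hm, (H.c2 hz l (ha z hz)).trans ((le_abs_self _).trans (hB _ hm)), H.eqn hz l hE⟩

theorem ps_bound {r : ℝ} (k : ℕ) : ∃ C : ℝ, ∀ (w : E (Fin (m + 1)) → ℝ) (B : ℝ),
    ContDiffOn ℝ ∞ w (ball 0 r) → ∀ z ∈ ball (0 : E (Fin (m + 1))) r,
      ‖iteratedFDeriv ℝ k w z‖ ≤ B → ‖iteratedFDeriv ℝ k (ps w) z‖ ≤ B + C := by
  have h0 : ContDiff ℝ ∞ fun z : E (Fin (m + 1)) => cons0 0 (tail0 z) :=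
    (contDiff_cons0_right 0).comp contDiff_tail0
  obtain ⟨C, hC⟩ := (isCompact_closedBall (0 : E (Fin (m + 1))) r).exists_bound_of_continuousOn
    (h0.continuous_iteratedFDeriv (m := k) (by exact_mod_cast le_top)).continuousOn
  refine ⟨C, fun w B hw z hz hB => ?_⟩
  have hwz : ContDiffAt ℝ k w z :=
    (hw.contDiffAt (isOpen_ball.mem_nhds hz)).of_le (by exact_mod_cast le_top)
  have h1 : ps w = (fun z => w z • ee 0) + fun z => cons0 0 (tail0 z) := funext fun z =>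
    cons0_eq _ _
  rw [h1, iteratedFDeriv_add_apply (f := fun z => w z • ee 0) (hwz.smul contDiffAt_const)
    (h0.of_le (by exact_mod_cast le_top)).contDiffAt]
  refine (norm_add_le _ _).trans (add_le_add ?_ (hC z (ball_subset_closedBall hz)))
  have h2 := (ContinuousLinearMap.toSpanSingleton ℝ (ee 0 : E (Fin (m + 1)))).iteratedFDeriv_comp_left
    hwz (i := k) le_rfl
  refine (congrArg norm h2).trans_le ((ContinuousLinearMap.norm_compContinuousMultilinearMap_le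
    _ _).trans ?_)
  simpa [ee] using hB

end Bx

open Bx in
theorem box (hCyl : CylStmt) (hMon2 : Mon2Stmt) (hSh : SheetStmt) (hQ : QRegStmt) : BoxStmt := by
  intro m ι _ _ X _ _ _ _ _ _ M F h Λ 𝒰 u τ s hM hF hu p hp t hr
  obtain ⟨e, R, δ, C, he, hpe, he0, hR, hδ, hsub, hev⟩ := exists_cone hCyl hMon2 hSh hM hF hu hp hr
  obtain ⟨hC1, hC2⟩ := hCyl m ι X M F h Λ 𝒰 u τ s hM hF hu
  set ρ := min (R / 8) (δ / 2) with hρdef
  have hρ : 0 < ρ := by positivity
  have hρR : 8 * ρ ≤ R := by have := min_le_left (R / 8) (δ / 2); linarith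
  have hρδ : ρ < δ := by have := min_le_right (R / 8) (δ / 2); linarith
  have hnb : ∀ r > 0, {q | q ∈ e.source ∧ ‖e q‖ < r} ∈ 𝓝 p := fun r hr =>
    inter_mem (e.open_source.mem_nhds hpe)
      ((e.continuousAt hpe).norm.eventually (gt_mem_nhds (by simpa [he0] using hr)))
  have h1 : ∀ᶠ j in (𝒰 : Filter ℕ), ∃ cw : OpenPartialHomeomorph X (E (Fin (m + 1))) ×
      (E (Fin (m + 1)) → ℝ), GC M (u j) e cw.1 cw.2 t ρ ∧ (∀ z ∈ ball 0 ρ, |cw.2 z| ≤ R / 2) ∧
      ∀ q ∈ e.source, |e q 0| < R → ‖cons0 (u j q - t) (tail0 (e q))‖ < ρ →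
        q ∈ cw.1.source ∧ cw.1 q = cons0 (u j q - t) (tail0 (e q)) ∧ e q 0 = cw.2 (cw.1 q) := by
    filter_upwards [hev, hC1 p hp t _ (hnb ρ hρ)] with j hj ⟨q, hq, hqt⟩
    exact exists_gc (hu.adm j).sm he hρ hρR hρδ hsub hj.1 hq.1 hq.2.le hqt
  obtain ⟨cw, hcw⟩ := h1.choice
  have hball : ∀ {a : ℝ} {z : E (Fin (m + 1))}, |a| ≤ R / 2 → z ∈ ball 0 ρ →
      cons0 a (tail0 z) ∈ ball 0 (2 * R) := fun ha hz => norm_cons0_lt (ha.trans (by linarith))
    ((norm_tail0_le _).trans (mem_ball_zero_iff.1 hz).le) (by linarith)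
  have hb2 : ball (0 : E (Fin (m + 1))) (ρ / 2) ⊆ ball 0 ρ := ball_subset_ball (by linarith)
  have hbd : ∀ k : ℕ, ∃ B : ℝ, ∀ᶠ j in (𝒰 : Filter ℕ), ∀ z ∈ ball 0 (ρ / 2),
      ‖iteratedFDeriv ℝ k (cw j).2 z‖ ≤ B := fun k => by
    obtain ⟨B, hB⟩ := all_bounds hQ he hF hu.smh (t := t) (C := C) hρ hρR hsub k
    have hl := (hu.tau.prodMk_nhds hu.sh).norm.eventually (gt_mem_nhds (a := 1) (by simp))
    refine ⟨B, ?_⟩
    filter_upwards [hcw, hev, hl] with j ⟨H, hw, _⟩ hj hl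
    refine hB (u j) _ _ (τ j, s j) H hw hl.le (hu.eq j) fun z hz => ?_
    rw [H.eq z hz]
    refine hj.2 _ (hball (hw z hz) hz) ?_
    rw [← H.eq z hz, H.ht z hz, add_sub_cancel_left]
    exact (abs_zero_le z).trans_lt ((mem_ball_zero_iff.1 hz).trans hρδ)
  obtain ⟨v, hv, hlim⟩ := UL.sm_lim 𝒰 (fun j => (cw j).2) 0 (ρ / 2)
    (hcw.mono fun j hj => hj.1.sm.mono hb2) hbd
  have hvb : ∀ z ∈ ball (0 : E (Fin (m + 1))) (ρ / 2), |v z| ≤ R / 2 := fun z hz =>
    le_of_tendsto (hlim.tendsto_at hz).abs (hcw.mono fun j hj => hj.2.1 z (hb2 hz))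
  have hvt : ∀ z ∈ ball (0 : E (Fin (m + 1))) (ρ / 2), ps v z ∈ e.target := fun z hz =>
    hsub (ball_subset_closedBall (hball (hvb z hz) (hb2 hz)))
  have hconv : ∀ z ∈ ball (0 : E (Fin (m + 1))) (ρ / 2),
      Tendsto (fun j => (cw j).1.symm z) 𝒰 (𝓝 (e.symm (ps v z))) := fun z hz => by
    have h2 : Tendsto (fun j => ps (cw j).2 z) 𝒰 (𝓝 (ps v z)) :=
      (contDiff_cons0.continuous.tendsto (v z, tail0 z)).comp
        ((hlim.tendsto_at hz).prodMk_nhds tendsto_const_nhds)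
    exact ((e.continuousAt_symm (hvt z hz)).tendsto.comp h2).congr'
      (hcw.mono fun j hj => (hj.1.eq z (hb2 hz)).symm)
  have ha : ∀ z ∈ ball (0 : E (Fin (m + 1))) (ρ / 2), e.symm (ps v z) ∈ Sb 𝒰 u := fun z hz => by
    by_contra hn
    obtain ⟨N, hN, hNj⟩ := hC2 _ hn |t + z 0|
    obtain ⟨j, j1, j2, j3⟩ := (hNj.and (hcw.and (hconv z hz hN))).exists
    have := j1 _ j3
    rw [j2.1.ht z (hb2 hz)] at this
    exact lt_irrefl _ this
  have hb : ∀ q ∈ Sb 𝒰 u, q ∈ e.source → |e q 0| < R → ‖tail0 (e q)‖ < ρ / 2 →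
      e q 0 = v (cons0 0 (tail0 (e q))) := fun q hq hqe h2 h3 => by
    refine eq_of_forall_dist_le fun ε hε => ?_
    have c0 : ContinuousAt (fun q => e q 0) q :=
      (EuclideanSpace.proj (𝕜 := ℝ) (0 : Fin (m + 1))).continuous.continuousAt.comp
        (e.continuousAt hqe)
    have c1 : ContinuousAt (fun q => cons0 0 (tail0 (e q))) q :=
      ((contDiff_cons0_right 0).comp contDiff_tail0).continuous.continuousAt.comp
        (e.continuousAt hqe)
    have hmem : cons0 0 (tail0 (e q)) ∈ ball (0 : E (Fin (m + 1))) (ρ / 2) := by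
      rwa [mem_ball_zero_iff, norm_cons0_zero]
    have c2 : ContinuousAt (fun q => v (cons0 0 (tail0 (e q)))) q :=
      ContinuousAt.comp (f := fun q => cons0 0 (tail0 (e q)))
        (hv.continuousOn.continuousAt (isOpen_ball.mem_nhds hmem)) c1
    have hN : ∀ᶠ q' in 𝓝 q, q' ∈ e.source ∧ |e q' 0| < R ∧
        cons0 0 (tail0 (e q')) ∈ ball (0 : E (Fin (m + 1))) (ρ / 2) ∧
        dist (e q' 0) (e q 0) < ε / 3 ∧
        dist (v (cons0 0 (tail0 (e q')))) (v (cons0 0 (tail0 (e q)))) < ε / 3 := by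
      filter_upwards [e.open_source.mem_nhds hqe, c0.abs.eventually (gt_mem_nhds h2),
        c1 (isOpen_ball.mem_nhds hmem), Metric.tendsto_nhds.1 c0 (ε / 3) (by positivity),
        Metric.tendsto_nhds.1 c2 (ε / 3) (by positivity)] with q' a1 a2 a3 a4 a5
      exact ⟨a1, a2, a3, a4, a5⟩
    obtain ⟨j, ⟨q', ⟨a1, a2, a3, a4, a5⟩, a6⟩, j2, j3⟩ := ((hC1 q hq t _ hN).and (hcw.and
      (Metric.tendstoUniformlyOn_iff.1 hlim (ε / 3) (by positivity)))).exists
    obtain ⟨-, b2, b3⟩ := j2.2.2 q' a1 a2 (by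
      rw [a6, sub_self]; exact mem_ball_zero_iff.1 (hb2 a3))
    rw [b2, a6, sub_self] at b3
    have b4 := j3 _ a3
    rw [← b3, dist_comm] at b4
    rw [dist_comm] at a4
    linarith [dist_triangle4 (e q 0) (e q' 0) (v (cons0 0 (tail0 (e q'))))
      (v (cons0 0 (tail0 (e q))))]
  have hc : ∀ z ∈ ball (0 : E (Fin (m + 1))) (ρ / 2), v z = v (cons0 0 (tail0 z)) := fun z hz => by
    have := hb _ (ha z hz) (e.map_target (hvt z hz))
    rw [e.right_inv (hvt z hz)] at this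
    exact this ((hvb z hz).trans_lt (by linarith))
      ((norm_tail0_le z).trans_lt (mem_ball_zero_iff.1 hz))
  obtain ⟨g, g1, g2, g3, g4, g5, g6⟩ := exists_flatten (σ := fun y => v (cons0 0 y)) (ρ := ρ / 2)
    (hv.comp (contDiff_cons0_right 0).contDiffOn fun y hy => by
      rwa [mem_ball_zero_iff, norm_cons0_zero, ← mem_ball_zero_iff])
  have hO : IsOpen {y : E (Fin (m + 1)) | |y 0| < R} := isOpen_lt (by fun_prop) continuous_const
  let e' := e.trans (g.restrOpen _ hO)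
  have he' : IsChart M.x e' := he.trans _ (g5.mono inter_subset_left) (g6.mono inter_subset_left)
  have hs' : ∀ q, q ∈ e'.source ↔ q ∈ e.source ∧ ‖tail0 (e q)‖ < ρ / 2 ∧ |e q 0| < R := fun q => by
    change q ∈ e.source ∧ e q ∈ g.source ∧ _ ↔ _
    rw [g1]; rfl
  have hsl : ∀ q ∈ e'.source, q ∈ Sb 𝒰 u ↔ e' q 0 = 0 := fun q hq => by
    obtain ⟨a1, a2, a3⟩ := (hs' q).1 hq
    change _ ↔ g (e q) 0 = 0
    rw [g3, cons0_zero, sub_eq_zero]
    refine ⟨fun hq => hb q hq a1 a3 a2, fun hq => ?_⟩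
    have := ha (cons0 0 (tail0 (e q))) (by rwa [mem_ball_zero_iff, norm_cons0_zero])
    rwa [ps, ← hq, tail0_cons0, cons0_tail0, e.left_inv a1] at this
  have hpe' : p ∈ e'.source := (hs' p).2 ⟨hpe, by
    rw [he0]; exact (norm_tail0_le _).trans_lt (by simpa using hρ), by simpa [he0] using hR⟩
  have he0' : e' p = 0 := by
    have a1 : tail0 (e' p) = tail0 0 := by
      change tail0 (g (e p)) = _
      rw [g3, tail0_cons0, he0]
    rw [← cons0_tail0 (e' p), (hsl p hpe').1 hp, a1]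
    exact cons0_tail0 0
  obtain ⟨r0, hr0, hr1⟩ := nhds_basis_closedBall.mem_iff.1
    (he0' ▸ e'.open_target.mem_nhds (e'.map_source hpe'))
  set r := min r0 (ρ / 2) with hrdef
  have hr : 0 < r := by positivity
  have hrρ : r ≤ ρ / 2 := min_le_right _ _
  have hb3 : ball (0 : E (Fin (m + 1))) r ⊆ ball 0 (ρ / 2) := ball_subset_ball hrρ
  refine ⟨e', r, fun j => ((cw j).1.symm.restrOpen (ball 0 r) isOpen_ball).symm, he', hpe', he0',
    hr, (closedBall_subset_closedBall (min_le_left _ _)).trans hr1, hsl, ?_,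
    ⟨_, hnb (r / 4) (by positivity), r / 4, by positivity, ?_⟩, fun k _ => ?_⟩
  · filter_upwards [hcw] with j ⟨H, _, _⟩
    refine ⟨⟨H.hc.sm.mono inter_subset_left, fun z hz => H.hc.inj z hz.1⟩, ?_,
      fun z hz => H.ht z (hb2 (hb3 hz))⟩
    change (cw j).1.target ∩ ball 0 r = _
    rw [H.tg]; exact inter_eq_right.2 (hb3.trans hb2)
  · filter_upwards [hcw] with j ⟨_, _, H⟩ q hq hqt
    have a1 : ‖cons0 (u j q - t) (tail0 (e q))‖ < r / 2 := by
      linarith [norm_cons0_le (u j q - t) (tail0 (e q)), norm_tail0_le (e q), hq.2]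
    obtain ⟨a2, a3, -⟩ := H q hq.1 (by linarith [abs_zero_le (e q), hq.2]) (by linarith)
    have a4 : ‖(cw j).1 q‖ < r / 2 := a3 ▸ a1
    exact ⟨⟨a2, mem_ball_zero_iff.2 (by change ‖(cw j).1 q‖ < r; linarith)⟩, a4⟩
  · refine jets_lim 𝒰 (fun j => M.x ∘ (cw j).1.symm) _ 0 r
      (hcw.mono fun j hj => hj.1.hc.sm.mono (hj.1.tg ▸ hb3.trans hb2)) (fun k => ?_)
      (fun z hz => ?_) k
    · obtain ⟨B, hB⟩ := comp_bound e.open_target (isCompact_closedBall _ _) hsub he.sm 𝒰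
        (fun j => ps (cw j).2) 0 r (hcw.mono fun j hj => ⟨fun z hz =>
          (contDiffAt_ps (hj.1.wAt (hb2 (hb3 hz)))).contDiffWithinAt, fun z hz =>
          ball_subset_closedBall (hball (hj.2.1 z (hb2 (hb3 hz))) (hb2 (hb3 hz)))⟩) (fun k => by
          obtain ⟨B, hB⟩ := hbd k
          obtain ⟨C', hC'⟩ := ps_bound (m := m) (r := ρ) k
          refine ⟨B + C', ?_⟩
          filter_upwards [hB, hcw] with j j1 j2 z hz
          exact hC' _ B j2.1.sm z (hb2 (hb3 hz)) (j1 z (hb3 hz))) k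
      refine ⟨B, ?_⟩
      filter_upwards [hB, hcw] with j j1 j2 z hz
      rw [((j2.1.ev (hb2 (hb3 hz)) M.x).iteratedFDeriv ℝ k).self_of_nhds]
      exact j1 z hz
    · have a1 : e'.symm (z - z 0 • ee 0) = e.symm (ps v z) := by
        change e.symm (g.symm _) = _
        have a2 : tail0 (z - z 0 • ee 0) = tail0 z := by ext i; simp [ee]
        have a3 : (z - z 0 • ee 0 : E (Fin (m + 1))) 0 = 0 := by simp [ee]
        rw [g4, a2, a3, zero_add, ← hc z (hb3 hz), ps]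
      rw [a1]
      exact (M.continuous_x.tendsto _).comp (hconv z (hb3 hz))

end Crest.Agent.N222

end
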