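import Crest.Agent.N222.F.Res
import Crest.Agent.N222.B.ULim

/-!
# Row 222, part B, local graphs: the Euclidean core
(statements by helper10, proofs by helper38)
-/

set_option autoImplicit false
open Set Filter Topology Function Metric
open scoped ContDiff

noncomputable section

namespace Crest.Agent.N222.Bx

variable {m n : ℕ}

theorem norm_sq_cons0 (t : ℝ) (z : E (Fin m)) : ‖cons0 t z‖ ^ 2 = t ^ 2 + ‖z‖ ^ 2 := by
  simp [EuclideanSpace.real_norm_sq_eq, Fin.sum_univ_succ]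

theorem norm_tail0_le (z : E (Fin (m + 1))) : ‖tail0 z‖ ≤ ‖z‖ := by
  have := norm_sq_cons0 (z 0) (tail0 z)
  rw [cons0_tail0] at this
  exact abs_le_of_sq_le_sq' (by nlinarith [sq_nonneg (z 0)]) (norm_nonneg _) |>.2

theorem abs_zero_le (z : E (Fin (m + 1))) : |z 0| ≤ ‖z‖ := by
  simpa using PiLp.norm_apply_le z 0

theorem norm_cons0_le (t : ℝ) (z : E (Fin m)) : ‖cons0 t z‖ ≤ |t| + ‖z‖ := by
  refine abs_le_of_sq_le_sq' ?_ (by positivity) |>.2
  rw [norm_sq_cons0, ← sq_abs t]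
  nlinarith [abs_nonneg t, norm_nonneg z]

/-- a function whose derivative is positive at every zero has at most one zero -/
theorem one_zero {g g' : ℝ → ℝ} {a b : ℝ} (hg : ∀ s ∈ Icc a b, HasDerivAt g (g' s) s)
    (h : ∀ s ∈ Icc a b, g s = 0 → 0 < g' s) (ha : g a = 0) (hb : g b = 0) (hab : a ≤ b) :
    a = b := by
  by_contra hne
  have hlt : a < b := lt_of_le_of_ne hab hne
  have h0 : ∀ s ∈ Icc a b, (0 : ℝ) ≤ g s := fun s hs =>
    image_le_of_deriv_right_lt_deriv_boundary' (f := fun _ => (0 : ℝ)) (f' := fun _ => 0)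
      continuousOn_const (fun x _ => hasDerivWithinAt_const _ _ _) ha.ge
      (fun x hx => (hg x hx).continuousAt.continuousWithinAt)
      (fun x hx => (hg x (Ico_subset_Icc_self hx)).hasDerivWithinAt)
      (fun x hx e => h x (Ico_subset_Icc_self hx) e.symm) hs
  have h1 : Tendsto (slope g b) (𝓝[<] b) (𝓝 (g' b)) :=
    (hasDerivAt_iff_tendsto_slope.1 (hg b ⟨hab, le_rfl⟩)).mono_left
      (nhdsWithin_mono _ fun x hx => ne_of_lt hx)
  have h2 : g' b ≤ 0 := by
    refine le_of_tendsto h1 ?_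
    filter_upwards [Ioo_mem_nhdsLT hlt] with s hs
    rw [slope_def_field, hb, sub_zero]
    exact div_nonpos_of_nonneg_of_nonpos (h0 s (Ioo_subset_Icc_self hs)) (by linarith [hs.2])
  exact absurd (h b ⟨hab, le_rfl⟩ hb) (not_lt.2 h2)

/-- climbing through a slab -/
theorem climb {g g' : ℝ → ℝ} {μ : ℝ} (hg : ∀ s ∈ Icc (0 : ℝ) 1, HasDerivAt g (g' s) s)
    (h0 : g 0 = 0) (hμ : 0 ≤ μ) (h : ∀ s ∈ Icc (0 : ℝ) 1, |g s| ≤ μ → μ < g' s) : μ ≤ g 1 := by
  have := image_le_of_deriv_right_lt_deriv_boundary' (f := fun s => μ * s) (f' := fun _ => μ)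
    (a := 0) (b := 1) (B := g) (B' := g') (by fun_prop)
    (fun x _ => by simpa using ((hasDerivAt_id x).const_mul μ).hasDerivWithinAt) (by simp [h0])
    (fun x hx => (hg x hx).continuousAt.continuousWithinAt)
    (fun x hx => (hg x (Ico_subset_Icc_self hx)).hasDerivWithinAt)
    (fun x hx e => h x (Ico_subset_Icc_self hx) (by
      rw [← e, abs_of_nonneg (mul_nonneg hμ hx.1)]
      exact mul_le_of_le_one_right hμ hx.2.le)) (x := 1) ⟨zero_le_one, le_rfl⟩
  simpa using this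

/-- global inverse function theorem for a bijection -/
theorem exists_oph {Φ : E (Fin n) → E (Fin n)} {S T : Set (E (Fin n))} (hS : IsOpen S)
    (hT : IsOpen T) (hb : BijOn Φ S T) (hΦ : ContDiffOn ℝ ∞ Φ S)
    (hd : ∀ z ∈ S, Injective (fderiv ℝ Φ z)) :
    ∃ g : OpenPartialHomeomorph (E (Fin n)) (E (Fin n)), g.source = S ∧ g.target = T ∧
      (∀ z, g z = Φ z) ∧ ContDiffOn ℝ ∞ g.symm T := by
  have hs : ContDiffOn ℝ ∞ (hb.toPartialEquiv Φ S T).symm T := by
    intro y hy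
    obtain ⟨z, hz, rfl⟩ := hb.surjOn hy
    have h1 : ContDiffAt ℝ ∞ Φ z := hΦ.contDiffAt (hS.mem_nhds hz)
    let L : E (Fin n) ≃L[ℝ] E (Fin n) :=
      (LinearEquiv.ofInjectiveEndo (fderiv ℝ Φ z).toLinearMap (hd z hz)).toContinuousLinearEquiv
    have h2 : HasFDerivAt Φ (L : E (Fin n) →L[ℝ] E (Fin n)) z := by
      have : (L : E (Fin n) →L[ℝ] E (Fin n)) = fderiv ℝ Φ z := by ext v; rfl
      rw [this]
      exact (h1.differentiableAt (by simp)).hasFDerivAt
    have h3 := (h1.hasStrictFDerivAt' h2 (by simp)).localInverse_unique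
      (g := (hb.toPartialEquiv Φ S T).symm)
      (eventually_of_mem (hS.mem_nhds hz) fun x hx => (hb.toPartialEquiv Φ S T).left_inv hx)
    exact ((h1.to_localInverse h2 (by simp)).congr_of_eventuallyEq h3).contDiffWithinAt
  exact ⟨{ toPartialEquiv := hb.toPartialEquiv Φ S T
           open_source := hS
           open_target := hT
           continuousOn_toFun := hΦ.continuousOn
           continuousOn_invFun := hs.continuousOn }, rfl, rfl, fun _ => rfl, hs⟩

/-- `U` increases along the cone around the axis `0` inside the slab `|U| < δ` -/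
def Cone (U : E (Fin (m + 1)) → ℝ) (R δ : ℝ) : Prop :=
  ∀ y ∈ ball (0 : E (Fin (m + 1))) (2 * R), |U y| < δ →
    ∀ η : E (Fin (m + 1)), ‖tail0 η‖ ≤ η 0 → η 0 ≤ fderiv ℝ U y η

theorem hasDerivAt_cons0 (z : E (Fin m)) (s : ℝ) :
    HasDerivAt (fun s => cons0 s z) (cons0 1 0) s := by
  have h : (fun s : ℝ => cons0 s z) = fun s => cons0 0 z + s • cons0 1 (0 : E (Fin m)) := by
    funext s
    ext i
    refine Fin.cases ?_ (fun _ => ?_) i <;> simp
  rw [h]
  simpa using ((hasDerivAt_id s).smul_const (cons0 1 (0 : E (Fin m)))).const_add (cons0 0 z)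

/-- climbing along a segment -/
theorem seg {U : E (Fin (m + 1)) → ℝ} {R δ ρ c : ℝ} (hρ : 0 ≤ ρ) (hδ : ρ < δ)
    (hU : ∀ y ∈ ball (0 : E (Fin (m + 1))) (2 * R), DifferentiableAt ℝ U y) (hc : Cone U R δ)
    {a b : E (Fin (m + 1))} (ha : a ∈ ball (0 : E (Fin (m + 1))) (2 * R))
    (hb : b ∈ ball (0 : E (Fin (m + 1))) (2 * R)) (hUa : U a = 0) (h1 : |c| = 1)
    (h2 : ‖tail0 (b - a)‖ ≤ c * (b - a) 0) (h3 : ρ < c * (b - a) 0) : ρ ≤ c * U b := by
  have hm : ∀ s ∈ Icc (0 : ℝ) 1, a + s • (b - a) ∈ ball (0 : E (Fin (m + 1))) (2 * R) :=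
    fun s hs => (convex_ball _ _).add_smul_sub_mem ha hb hs
  have := climb (g := fun s => c * U (a + s • (b - a)))
    (g' := fun s => c * fderiv ℝ U (a + s • (b - a)) (b - a)) (μ := ρ)
    (fun s hs => by
      have h4 : HasDerivAt (fun s : ℝ => a + s • (b - a)) (b - a) s := by
        simpa using ((hasDerivAt_id s).smul_const (b - a)).const_add a
      exact ((hU _ (hm s hs)).hasFDerivAt.comp_hasDerivAt s h4).const_mul c)
    (by simp [hUa]) hρ fun s hs h => by
      rw [abs_mul, h1, one_mul] at h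
      have h5 : tail0 (c • (b - a)) = c • tail0 (b - a) := by ext i; simp
      have := hc _ (hm s hs) (h.trans_lt hδ) (c • (b - a))
        (by rw [h5, norm_smul, Real.norm_eq_abs, h1, one_mul]; exact h2)
      rw [map_smul] at this
      exact h3.trans_le this
  simpa using this

/-- `(U, y')` are coordinates -/
theorem exists_graph_chart {U : E (Fin (m + 1)) → ℝ} {R δ ρ : ℝ} (hρ : 0 < ρ) (hR : 8 * ρ ≤ R)
    (hδ : ρ < δ) (hU : ContDiffOn ℝ ∞ U (ball 0 (2 * R))) (hc : Cone U R δ)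
    {a : E (Fin (m + 1))} (ha : ‖a‖ ≤ ρ) (hUa : U a = 0) :
    ∃ g : OpenPartialHomeomorph (E (Fin (m + 1))) (E (Fin (m + 1))),
      g.source = {y | |y 0| < R ∧ ‖tail0 y‖ < ρ ∧ ‖cons0 (U y) (tail0 y)‖ < ρ} ∧
      g.target = ball 0 ρ ∧ (∀ y, g y = cons0 (U y) (tail0 y)) ∧
      ContDiffOn ℝ ∞ g g.source ∧ ContDiffOn ℝ ∞ g.symm (ball 0 ρ) ∧
      ∀ z ∈ ball (0 : E (Fin (m + 1))) ρ, |g.symm z 0| ≤ R / 2 := by
  have hR0 : 0 < R := by linarith
  set Φ : E (Fin (m + 1)) → E (Fin (m + 1)) := fun y => cons0 (U y) (tail0 y) with hΦ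
  set S : Set (E (Fin (m + 1))) := {y | |y 0| < R ∧ ‖tail0 y‖ < ρ ∧ ‖Φ y‖ < ρ} with hSd
  have hin : ∀ (s : ℝ) (z : E (Fin m)), |s| < R → ‖z‖ < ρ → cons0 s z ∈
      ball (0 : E (Fin (m + 1))) (2 * R) := fun s z hs hz => by
    rw [mem_ball_zero_iff]
    linarith [norm_cons0_le s z]
  have hin' : ∀ y : E (Fin (m + 1)), |y 0| < R → ‖tail0 y‖ < ρ →
      y ∈ ball (0 : E (Fin (m + 1))) (2 * R) := fun y h1 h2 => by
    simpa only [cons0_tail0] using hin _ _ h1 h2
  have hΦs : ContDiffOn ℝ ∞ Φ (ball 0 (2 * R)) :=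
    contDiff_cons0.comp_contDiffOn (hU.prodMk contDiff_tail0.contDiffOn)
  have hsub : S ⊆ ball 0 (2 * R) := fun y hy => hin' y hy.1 hy.2.1
  have hUS : ∀ y ∈ S, |U y| < δ := fun y hy =>
    ((abs_zero_le (Φ y)).trans_lt hy.2.2).trans hδ
  have hdU : ∀ y ∈ ball (0 : E (Fin (m + 1))) (2 * R), DifferentiableAt ℝ U y := fun y hy =>
    (hU.contDiffAt (isOpen_ball.mem_nhds hy)).differentiableAt (by simp)
  have hA : IsOpen {y : E (Fin (m + 1)) | |y 0| < R ∧ ‖tail0 y‖ < ρ} :=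
    IsOpen.and (isOpen_lt (by fun_prop) continuous_const)
      (isOpen_lt contDiff_tail0.continuous.norm continuous_const)
  have hS : IsOpen S := by
    have := (hΦs.continuousOn.mono fun y hy => hin' y hy.1 hy.2).isOpen_inter_preimage hA
      (isOpen_ball (x := 0) (ε := ρ))
    have e : S = {y : E (Fin (m + 1)) | |y 0| < R ∧ ‖tail0 y‖ < ρ} ∩ Φ ⁻¹' ball 0 ρ := by
      ext y
      simp [hSd, and_assoc]
    rwa [e]
  have hsurj : ∀ z ∈ ball (0 : E (Fin (m + 1))) ρ, ∃ y ∈ S, Φ y = z ∧ |y 0| ≤ R / 2 := by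
    intro z hz
    rw [mem_ball_zero_iff] at hz
    have hz' : ‖tail0 z‖ < ρ := (norm_tail0_le z).trans_lt hz
    have hz0 := abs_lt.1 ((abs_zero_le z).trans_lt hz)
    have ha0 := abs_le.1 ((abs_zero_le a).trans ha)
    have haB : a ∈ ball (0 : E (Fin (m + 1))) (2 * R) := by
      rw [mem_ball_zero_iff]; linarith
    have ht : ∀ s : ℝ, ‖tail0 (cons0 s (tail0 z) - a)‖ ≤ 2 * ρ := fun s => by
      have : tail0 (cons0 s (tail0 z) - a) = tail0 z - tail0 a := by ext i; simp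
      rw [this]
      linarith [norm_sub_le (tail0 z) (tail0 a), norm_tail0_le a]
    have u1 := seg hρ.le hδ hdU hc haB (hin (R / 2) _ (by rw [abs_of_pos] <;> linarith) hz') hUa
      (c := 1) (by simp) ((ht _).trans (by simp; linarith)) (by simp; linarith)
    have u2 := seg hρ.le hδ hdU hc haB (hin (-(R / 2)) _ (by rw [abs_neg, abs_of_pos] <;> linarith)
      hz') hUa (c := -1) (by simp) ((ht _).trans (by simp; linarith)) (by simp; linarith)
    have hI : ∀ s ∈ Icc (-(R / 2)) (R / 2), |s| < R := fun s hs =>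
      abs_lt.2 ⟨by linarith [hs.1], by linarith [hs.2]⟩
    have hco : ContinuousOn (fun s => U (cons0 s (tail0 z))) (Icc (-(R / 2)) (R / 2)) :=
      fun s hs => ((hdU _ (hin s _ (hI s hs) hz')).hasFDerivAt.comp_hasDerivAt s
        (hasDerivAt_cons0 _ s)).continuousAt.continuousWithinAt
    obtain ⟨s, hs, hsz⟩ := intermediate_value_Icc (by linarith) hco
      (show z 0 ∈ Icc _ _ from ⟨by linarith, by linarith⟩)
    have he : Φ (cons0 s (tail0 z)) = z := by
      simp only [hΦ, tail0_cons0]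
      rw [show U (cons0 s (tail0 z)) = z 0 from hsz, cons0_tail0]
    exact ⟨cons0 s (tail0 z), ⟨hI s hs, hz', by rwa [he]⟩, he, abs_le.2 hs⟩
  have hinj : ∀ y ∈ S, ∀ y' ∈ S, Φ y = Φ y' → y 0 ≤ y' 0 → y = y' := by
    intro y hy y' hy' e hle
    have e1 : tail0 y = tail0 y' := (congrArg tail0 e :)
    have e2 : U y = U y' := congrArg (fun v : E (Fin (m + 1)) => v 0) e
    have hI : ∀ s ∈ Icc (y 0) (y' 0), cons0 s (tail0 y) ∈ ball (0 : E (Fin (m + 1))) (2 * R) :=
      fun s hs => hin s _ (abs_lt.2 ⟨(abs_lt.1 hy.1).1.trans_le hs.1,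
        hs.2.trans_lt (abs_lt.1 hy'.1).2⟩) hy.2.1
    have e3 : y 0 = y' 0 := one_zero (g := fun s => U (cons0 s (tail0 y)) - U y)
      (g' := fun s => fderiv ℝ U (cons0 s (tail0 y)) (cons0 1 0))
      (fun s hs => ((hdU _ (hI s hs)).hasFDerivAt.comp_hasDerivAt s
        (hasDerivAt_cons0 _ s)).sub_const _)
      (fun s hs h0 => zero_lt_one.trans_le (hc _ (hI s hs)
        (by rw [sub_eq_zero.1 h0]; exact hUS y hy) (cons0 1 0) (by simp)))
      (by simp only [cons0_tail0, sub_self]) (by simp only [e1, cons0_tail0, e2, sub_self]) hle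
    rw [← cons0_tail0 y, ← cons0_tail0 y', e1, e3]
  have hb : BijOn Φ S (ball 0 ρ) :=
    ⟨fun y hy => mem_ball_zero_iff.2 hy.2.2, fun y hy y' hy' e => (le_total (y 0) (y' 0)).elim
      (hinj y hy y' hy' e) fun h => (hinj y' hy' y hy e.symm h).symm,
      fun z hz => let ⟨y, hy, e, _⟩ := hsurj z hz; ⟨y, hy, e⟩⟩
  have hd : ∀ y ∈ S, Injective (fderiv ℝ Φ y) := by
    intro y hy
    have h1 : HasFDerivAt Φ (fderiv ℝ Φ y) y :=
      ((hΦs.contDiffAt (isOpen_ball.mem_nhds (hsub hy))).differentiableAt (by simp)).hasFDerivAt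
    have h2 : fderiv ℝ U y = EuclideanSpace.proj 0 ∘L fderiv ℝ Φ y :=
      ((EuclideanSpace.proj (𝕜 := ℝ) (0 : Fin (m + 1))).hasFDerivAt.comp y h1).fderiv
    have h3 : ∀ i : Fin m, EuclideanSpace.proj i.succ =
        EuclideanSpace.proj i.succ ∘L fderiv ℝ Φ y := fun i =>
      (EuclideanSpace.proj (𝕜 := ℝ) i.succ).hasFDerivAt.unique
        ((EuclideanSpace.proj (𝕜 := ℝ) i.succ).hasFDerivAt.comp y h1 :)
    refine (injective_iff_map_eq_zero _).2 fun η hη => ?_
    have h4 : tail0 η = 0 := by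
      ext i
      simpa [hη] using congrArg (fun T : E (Fin (m + 1)) →L[ℝ] ℝ => T η) (h3 i)
    have h5 : fderiv ℝ U y η = 0 := by simp [h2, hη]
    have h6 : η 0 = 0 := by
      rcases le_total 0 (η 0) with h | h
      · exact le_antisymm (h5 ▸ hc y (hsub hy) (hUS y hy) η (by simpa [h4] using h)) h
      · have h7 : tail0 (-η) = 0 := by
          ext i
          simpa using congrArg (fun v : E (Fin m) => v i) h4
        have := hc y (hsub hy) (hUS y hy) (-η) (by simpa [h7] using h)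
        simp only [map_neg, h5, neg_zero, PiLp.neg_apply] at this
        linarith
    rw [← cons0_tail0 η, h6, h4]
    ext i
    refine Fin.cases rfl (fun _ => rfl) i
  obtain ⟨g, g1, g2, g3, g4⟩ := exists_oph hS isOpen_ball hb (hΦs.mono hsub) hd
  refine ⟨g, g1, g2, g3, ?_, g4, fun z hz => ?_⟩
  · rw [g1, show (g : _ → _) = Φ from funext g3]
    exact hΦs.mono hsub
  · obtain ⟨y, hy, e, h⟩ := hsurj z hz
    rwa [← e, ← g3, g.left_inv (g1 ▸ hy)]

/-- the chart that straightens the graph of `σ` -/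
theorem exists_flatten {σ : E (Fin m) → ℝ} {ρ : ℝ} (hσ : ContDiffOn ℝ ∞ σ (ball 0 ρ)) :
    ∃ g : OpenPartialHomeomorph (E (Fin (m + 1))) (E (Fin (m + 1))),
      g.source = {y | ‖tail0 y‖ < ρ} ∧ g.target = {y | ‖tail0 y‖ < ρ} ∧
      (∀ y, g y = cons0 (y 0 - σ (tail0 y)) (tail0 y)) ∧
      (∀ y, g.symm y = cons0 (y 0 + σ (tail0 y)) (tail0 y)) ∧
      ContDiffOn ℝ ∞ g g.source ∧ ContDiffOn ℝ ∞ g.symm g.target := by
  have hO : IsOpen {y : E (Fin (m + 1)) | ‖tail0 y‖ < ρ} :=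
    isOpen_lt contDiff_tail0.continuous.norm continuous_const
  have h0 : ContDiff ℝ ∞ fun y : E (Fin (m + 1)) => y 0 := contDiff_euclidean.1 contDiff_id 0
  have h1 : ContDiffOn ℝ ∞ (fun y : E (Fin (m + 1)) => σ (tail0 y)) {y | ‖tail0 y‖ < ρ} :=
    hσ.comp contDiff_tail0.contDiffOn fun y hy => mem_ball_zero_iff.2 hy
  have h2 : ContDiffOn ℝ ∞ (fun y : E (Fin (m + 1)) => cons0 (y 0 - σ (tail0 y)) (tail0 y))
      {y | ‖tail0 y‖ < ρ} :=
    contDiff_cons0.comp_contDiffOn ((h0.contDiffOn.sub h1).prodMk contDiff_tail0.contDiffOn)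
  have h3 : ContDiffOn ℝ ∞ (fun y : E (Fin (m + 1)) => cons0 (y 0 + σ (tail0 y)) (tail0 y))
      {y | ‖tail0 y‖ < ρ} :=
    contDiff_cons0.comp_contDiffOn ((h0.contDiffOn.add h1).prodMk contDiff_tail0.contDiffOn)
  exact ⟨{ toFun := fun y => cons0 (y 0 - σ (tail0 y)) (tail0 y)
           invFun := fun y => cons0 (y 0 + σ (tail0 y)) (tail0 y)
           source := {y | ‖tail0 y‖ < ρ}
           target := {y | ‖tail0 y‖ < ρ}
           map_source' := fun _ h => h
           map_target' := fun _ h => h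
           left_inv' := fun y _ => by simp [cons0_tail0]
           right_inv' := fun y _ => by simp [cons0_tail0]
           open_source := hO
           open_target := hO
           continuousOn_toFun := h2.continuousOn
           continuousOn_invFun := h3.continuousOn }, rfl, rfl, fun _ => rfl, fun _ => rfl, h2, h3⟩

/-- smooth limits along an ultrafilter: all jets converge -/
theorem jets_lim {F : Type} [NormedAddCommGroup F] [NormedSpace ℝ F] [FiniteDimensional ℝ F]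
    (𝒰 : Ultrafilter ℕ) (w : ℕ → E (Fin n) → F) (v : E (Fin n) → F) (z0 : E (Fin n)) (r : ℝ)
    (hw : ∀ᶠ j in (𝒰 : Filter ℕ), ContDiffOn ℝ ∞ (w j) (ball z0 r))
    (hb : ∀ k : ℕ, ∃ C : ℝ, ∀ᶠ j in (𝒰 : Filter ℕ), ∀ z ∈ ball z0 r,
      ‖iteratedFDeriv ℝ k (w j) z‖ ≤ C)
    (hv : ∀ z ∈ ball z0 r, Tendsto (fun j => w j z) 𝒰 (𝓝 (v z))) (k : ℕ) :
    TendstoUniformlyOn (fun j => iteratedFDeriv ℝ k (w j)) (iteratedFDeriv ℝ k v) 𝒰
      (ball z0 r) := by
  choose C hC using hb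
  have : ∀ j, FiniteDimensional ℝ (E (Fin n) [×j]→L[ℝ] F) := fun j => UL.finite_cml j F
  have : ∀ j, ProperSpace (E (Fin n) [×j]→L[ℝ] F) := fun j => FiniteDimensional.proper_real _
  have hd : ∀ k, ∀ᶠ j in (𝒰 : Filter ℕ), ∀ z ∈ ball z0 r,
      DifferentiableAt ℝ (iteratedFDeriv ℝ k (w j)) z := fun k => hw.mono fun j hj z hz =>
    ((hj.contDiffAt (isOpen_ball.mem_nhds hz)).iteratedFDeriv_right (m := 1)
      (by exact_mod_cast le_top)).differentiableAt one_ne_zero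
  have h1 : ∀ k, ∃ G : E (Fin n) → E (Fin n) [×k]→L[ℝ] F,
      TendstoUniformlyOn (fun j => iteratedFDeriv ℝ k (w j)) G 𝒰 (ball z0 r) := fun k =>
    UL.lip_lim 𝒰 _ z0 r (C k) (C (k + 1)) (hC k) (by
      filter_upwards [hd k, hC (k + 1)] with j hj hj' z hz y hy
      refine (convex_ball z0 r).norm_image_sub_le_of_norm_fderiv_le hj (fun x hx => ?_) hz hy
      rw [norm_fderiv_iteratedFDeriv]; exact hj' x hx)
  choose G hG using h1
  have hder : ∀ m, ∀ x ∈ ball z0 r, HasFDerivAt (G m) (G (m + 1) x).curryLeft x := fun m =>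
    UL.der_lim 𝒰 (g := fun j => iteratedFDeriv ℝ m (w j)) (G' := fun x => (G (m + 1) x).curryLeft)
      (hd m) (hG m) ((continuousMultilinearCurryLeftEquiv ℝ (fun _ : Fin (m + 1) => E (Fin n))
        F).isometry.uniformContinuous.comp_tendstoUniformlyOn (hG (m + 1)))
  have h0 : TendstoUniformlyOn w (fun x => (G 0 x).curry0) 𝒰 (ball z0 r) :=
    (continuousMultilinearCurryFin0 ℝ (E (Fin n))
      F).isometry.uniformContinuous.comp_tendstoUniformlyOn (hG 0)
  have hT : HasFTaylorSeriesUpToOn ∞ v (fun x j => G j x) (ball z0 r) :=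
    ⟨fun x hx => tendsto_nhds_unique (h0.tendsto_at hx) (hv x hx),
      fun m _ x hx => (hder m x hx).hasFDerivWithinAt,
      fun m _ x hx => (hder m x hx).continuousAt.continuousWithinAt⟩
  refine (hG k).congr_right fun x hx => ?_
  rw [← iteratedFDerivWithin_of_isOpen k isOpen_ball hx]
  exact hT.eq_iteratedFDerivWithin_of_uniqueDiffOn (by exact_mod_cast le_top)
    isOpen_ball.uniqueDiffOn hx

/-- composition of a fixed smooth map with a family that is bounded in every `C^k` -/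
theorem comp_bound {F G : Type} [NormedAddCommGroup F] [NormedSpace ℝ F] [FiniteDimensional ℝ F]
    [NormedAddCommGroup G] [NormedSpace ℝ G] {φ : F → G} {O K : Set F} (hO : IsOpen O)
    (hK : IsCompact K) (hKO : K ⊆ O) (hφ : ContDiffOn ℝ ∞ φ O) (l : Filter ℕ)
    (w : ℕ → E (Fin n) → F) (z0 : E (Fin n)) (r : ℝ)
    (hw : ∀ᶠ j in l, ContDiffOn ℝ ∞ (w j) (ball z0 r) ∧ MapsTo (w j) (ball z0 r) K)
    (hb : ∀ k : ℕ, ∃ C : ℝ, ∀ᶠ j in l, ∀ z ∈ ball z0 r, ‖iteratedFDeriv ℝ k (w j) z‖ ≤ C)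
    (k : ℕ) : ∃ C : ℝ, ∀ᶠ j in l, ∀ z ∈ ball z0 r, ‖iteratedFDeriv ℝ k (φ ∘ w j) z‖ ≤ C := by
  choose B hB using hb
  have h1 : ∀ i : ℕ, ∃ C : ℝ, ∀ y ∈ K, ‖iteratedFDerivWithin ℝ i φ O y‖ ≤ C := fun i =>
    hK.exists_bound_of_continuousOn ((hφ.continuousOn_iteratedFDerivWithin
      (by exact_mod_cast le_top) hO.uniqueDiffOn).mono hKO)
  choose C hC using h1
  have hs : ∀ (A : ℕ → ℝ) (i : ℕ), i ≤ k → A i ≤ ∑ i ∈ Finset.range (k + 1), |A i| :=
    fun A i hi => (le_abs_self _).trans (Finset.single_le_sum (f := fun i => |A i|)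
      (fun _ _ => abs_nonneg _) (Finset.mem_range.2 (Nat.lt_succ_of_le hi)))
  refine ⟨k.factorial * (∑ i ∈ Finset.range (k + 1), |C i|) *
    (1 + ∑ i ∈ Finset.range (k + 1), |B i|) ^ k, ?_⟩
  filter_upwards [hw, (eventually_all_finset (Finset.range (k + 1))).2 fun i _ => hB i]
    with j hj hj' z hz
  rw [← iteratedFDerivWithin_of_isOpen k isOpen_ball hz]
  refine norm_iteratedFDerivWithin_comp_le hφ hj.1 (by exact_mod_cast le_top) hO.uniqueDiffOn
    isOpen_ball.uniqueDiffOn (fun x hx => hKO (hj.2 hx)) hz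
    (fun i hi => (hC i _ (hj.2 hz)).trans (hs C i hi)) fun i h1 hi => ?_
  rw [iteratedFDerivWithin_of_isOpen i isOpen_ball hz]
  have h2 : 0 ≤ ∑ i ∈ Finset.range (k + 1), |B i| := Finset.sum_nonneg fun _ _ => abs_nonneg _
  refine (hj' i (Finset.mem_range.2 (Nat.lt_succ_of_le hi)) z hz).trans ((hs B i hi).trans ?_)
  exact (le_add_of_nonneg_left zero_le_one).trans (le_self_pow₀ (by linarith) (by omega))

end Crest.Agent.N222.Bx

end
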