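import Crest.Agent.N222.B.Box0
import Crest.Agent.N222.B.Defs2
import Crest.Agent.N222.B.E1
import Crest.Agent.N222.F.Lip
import Crest.Agent.N222.F.Ker

/-!
# Row 222, part B, local graphs: the cone condition at a regular point (helper10)
-/

set_option autoImplicit false
set_option linter.unusedSectionVars false
open MeasureTheory Set Filter Topology Function Metric
open scoped ContDiff InnerProductSpace RealInnerProductSpace

noncomputable section

namespace Crest.Agent.N222.Bx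

variable {m d : ℕ} {ι : Type} [Fintype ι] [DecidableEq ι] {X : Type} [TopologicalSpace X]
  [T2Space X] [SecondCountableTopology X] [MeasurableSpace X] [BorelSpace X] [CompactSpace X]

theorem down_nuv (M : Imm d ι X) (u : X → ℝ) (q : X) :
    down (M.nuv u q) = -(M.vv u q • M.grad u q) := by
  ext a; rfl

/-- a point of small tilt in every ball -/
theorem exists_small_v (hMon2 : Mon2Stmt) {M : Imm d ι X} (hM : Injective M.x) {u : X → ℝ}
    (hu : M.Sm u) {C : ℝ} (hC : M.Sheet C u) (q : X) {r ε : ℝ} (hr : 0 < r) (hε : 0 < ε)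
    (h : M.mu.real {q' | |u q'| ≤ |u q| + r} < ε * (cPhi d * Real.exp (-(C * r)) * r ^ d)) :
    ∃ q', ‖M.gx u q' - M.gx u q‖ < r ∧ M.vv u q' < ε := by
  by_contra hn
  push Not at hn
  have h1 := EP.gTh_low hMon2 hM hu hC q hr
  have hc : Continuous fun q' => Phi (‖M.gx u q' - M.gx u q‖ ^ 2 / r ^ 2) := by
    have := (Imm.sm_gx hu).continuous
    fun_prop
  have h2 : ε * ∫ q', Phi (‖M.gx u q' - M.gx u q‖ ^ 2 / r ^ 2) ∂M.gmu u ≤
      M.mu.real {q' | |u q'| ≤ |u q| + r} := by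
    have hs : MeasurableSet {q' | |u q'| ≤ |u q| + r} :=
      (isClosed_le hu.continuous.abs continuous_const).measurableSet
    rw [← integral_const_mul, ← integral_indicator_one hs]
    refine (integral_mono (EP.integrable_gmu hu (continuous_const.mul hc))
      (EP.integrable_gmu hu (hu.vv.continuous.mul hc)) fun q' => ?_).trans ?_
    · by_cases hq : ‖M.gx u q' - M.gx u q‖ < r
      · exact mul_le_mul_of_nonneg_right (hn q' hq) (Phi_nonneg _)
      · simp [Phi_eq_zero_of_le hr (not_lt.1 hq)]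
    · refine (Imm.integral_vv_mul hu _).trans_le ?_
      refine integral_mono (hc.integrable_of_hasCompactSupport (.of_compactSpace _))
        ((integrable_const 1).indicator hs) fun q' => ?_
      by_cases hq : ‖M.gx u q' - M.gx u q‖ < r
      · have : q' ∈ {q' | |u q'| ≤ |u q| + r} := by
          have h3 : |u q' - u q| ≤ _ := Imm.abs_u_sub_le (M := M) u q' (M.gx u q)
          have h4 := abs_sub_abs_le_abs_sub (u q') (u q)
          change |u q'| ≤ |u q| + r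
          linarith
        rw [indicator_of_mem this]; exact Phi_le_one _
      · simp only [Phi_eq_zero_of_le hr (not_lt.1 hq)]
        exact indicator_nonneg (fun _ _ => zero_le_one) _
  rw [Imm.gTh, ← mul_div_assoc, le_div_iff₀ (by positivity)] at h1
  have h3 : cPhi d * Real.exp (-(C * r)) * r ^ d ≤
      ∫ q', Phi (‖M.gx u q' - M.gx u q‖ ^ 2 / r ^ 2) ∂M.gmu u := by
    rw [Real.exp_neg, mul_right_comm, ← div_eq_mul_inv, div_le_iff₀' (Real.exp_pos _)]
    exact h1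
  nlinarith

/-- a chart whose differential at `p` is an isometry with prescribed first axis -/
theorem exists_chart_dir (M : Imm (m + 1) ι X) (p : X) {ξ : E ι} (hξ : ‖ξ‖ = 1)
    (hp : M.PL p ξ = ξ) : ∃ (e : OpenPartialHomeomorph X (E (Fin (m + 1))))
      (L : E (Fin (m + 1)) →ₗᵢ[ℝ] E ι), IsChart M.x e ∧ p ∈ e.source ∧ e p = 0 ∧ L (ee 0) = ξ ∧
      fderiv ℝ (M.x ∘ e.symm) 0 = L.toContinuousLinearMap := by
  obtain ⟨e, L, he, hpe, hL, hq, hD⟩ := M.exists_proj_chart p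
  obtain ⟨v, rfl⟩ := (hL ξ).1 hp
  have hv : ‖(ee 0 : E (Fin (m + 1)))‖ = ‖v‖ := by simpa using hξ.symm
  let O : E (Fin (m + 1)) ≃ₗᵢ[ℝ] E (Fin (m + 1)) := (ℝ ∙ (ee 0 - v))ᗮ.reflection
  have hO : O (ee 0) = v := Submodule.reflection_sub hv
  have he0 : e p = 0 := by simp [hq]
  refine ⟨e.trans O.symm.toHomeomorph.toOpenPartialHomeomorph, L.comp O.toLinearIsometry,
    he.trans _ O.symm.contDiff.contDiffOn O.contDiff.contDiffOn, by simpa using hpe, ?_,
    by simp [hO], ?_⟩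
  · change O.symm (e p) = 0
    rw [he0, map_zero]
  · change fderiv ℝ ((M.x ∘ e.symm) ∘ O) 0 = _
    have hd : DifferentiableAt ℝ (M.x ∘ e.symm) (O 0) := by
      rw [map_zero, ← he0]
      exact (he.sm.contDiffAt (e.open_target.mem_nhds (e.map_source hpe))).differentiableAt
        (by simp)
    rw [fderiv_comp _ hd O.differentiableAt, map_zero, hD, O.fderiv]
    rfl

theorem cone_ineq {Xv ξ : E ι} {J : E (Fin (m + 1)) →L[ℝ] E ι} {L : E (Fin (m + 1)) →ₗᵢ[ℝ] E ι}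
    (hL : L (ee 0) = ξ) (hX : ‖Xv‖ ≤ 1) (hXξ : ‖Xv - ξ‖ ≤ 1 / 5)
    (hJ : ‖J - L.toContinuousLinearMap‖ ≤ 1 / 5) {η : E (Fin (m + 1))} (hη : ‖tail0 η‖ ≤ η 0) :
    η 0 / 5 ≤ ⟪Xv, J η⟫ := by
  have h0 : 0 ≤ η 0 := (norm_nonneg _).trans hη
  have h1 : ‖η‖ ≤ 2 * η 0 := by
    have := norm_cons0_le (η 0) (tail0 η)
    rw [cons0_tail0, abs_of_nonneg h0] at this
    linarith
  have h2 : ⟪ξ, L η⟫ = η 0 := by
    rw [← hL, L.inner_map_map]; simp [ee, EuclideanSpace.inner_single_left]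
  have h3 : |⟪Xv - ξ, L η⟫| ≤ 1 / 5 * ‖η‖ := by
    refine (abs_real_inner_le_norm _ _).trans ?_
    rw [L.norm_map]; gcongr
  have h4 : |⟪Xv, J η - L η⟫| ≤ 1 * (1 / 5 * ‖η‖) := by
    refine (abs_real_inner_le_norm _ _).trans ?_
    have : ‖J η - L η‖ ≤ 1 / 5 * ‖η‖ :=
      ((J - L.toContinuousLinearMap).le_opNorm η).trans (by gcongr)
    gcongr
  rw [inner_sub_left, h2] at h3
  rw [inner_sub_right] at h4
  have := (abs_le.1 h3).1
  have := (abs_le.1 h4).1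
  linarith

theorem exists_cone (hCyl : CylStmt) (hMon2 : Mon2Stmt) (hSh : SheetStmt) {M : Imm (m + 1) ι X}
    {F h : X → ℝ} {Λ : ℝ} {𝒰 : Ultrafilter ℕ} {u : ℕ → X → ℝ} {τ s : ℕ → ℝ} (hM : Injective M.x)
    (hF : M.Sm F) (hu : M.Seq F h Λ 𝒰 u τ s) {p : X} (hp : p ∈ Sb 𝒰 u) {t : ℝ}
    (hr : M.Reg 𝒰 u p t) :
    ∃ (e : OpenPartialHomeomorph X (E (Fin (m + 1)))) (R δ C : ℝ), IsChart M.x e ∧ p ∈ e.source ∧
      e p = 0 ∧ 0 < R ∧ 0 < δ ∧ closedBall 0 (2 * R) ⊆ e.target ∧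
      ∀ᶠ j in (𝒰 : Filter ℕ), Cone (fun y => u j (e.symm y) - t) R δ ∧
        ∀ y ∈ ball (0 : E (Fin (m + 1))) (2 * R), |u j (e.symm y) - t| < δ →
          M.a2 (u j) (e.symm y) ≤ C := by
  obtain ⟨ρ0, C0, hρ0, hreg⟩ := hr
  obtain ⟨C, -, hC⟩ := hSh _ ι X M F hM hF Λ
  obtain ⟨ρ1, hρ1, hP⟩ := (Imm.mem_nhds_iff_ball hM).1
    (M.sm_PL.continuous.continuousAt (x := p) (ball_mem_nhds (M.PL p) (ε := 1 / 100) (by norm_num)))
  set r := min ρ0 ρ1 / 2 with hrdef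
  have hr0 : 0 < r := by positivity
  have hr1 : 2 * r ≤ ρ0 := by have := min_le_left ρ0 ρ1; linarith
  have hr2 : 2 * r ≤ ρ1 := by have := min_le_right ρ0 ρ1; linarith
  have hN : {q | ‖M.x q - M.x p‖ < r} ∈ 𝓝 p := (Imm.mem_nhds_iff_ball hM).2 ⟨r, hr0, fun _ h => h⟩
  have h1 := (hCyl m ι X M F h Λ 𝒰 u τ s hM hF hu).1 p hp t _ hN
  have hpos : 0 < 1 / 100 * (cPhi (m + 1) * Real.exp (-(C * r)) * r ^ (m + 1)) := by
    have := cPhi_pos (m + 1); positivity
  have h2 := (hu.thin (|t| + r)).eventually (gt_mem_nhds hpos)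
  have h3 : ∀ᶠ j in (𝒰 : Filter ℕ), ∃ q', ‖M.gx (u j) q' - up t (M.x p)‖ < 2 * r ∧
      M.vv (u j) q' < 1 / 100 := by
    filter_upwards [h1, h2] with j ⟨q, hq, hqt⟩ hj
    obtain ⟨q', hq', hv⟩ := exists_small_v hMon2 hM (hu.adm j).sm (hC _ (hu.adm j)) q hr0
      (ε := 1 / 100) (by norm_num) (by rw [hqt]; exact hj)
    refine ⟨q', ?_, hv⟩
    have h4 : ‖M.gx (u j) q - up t (M.x p)‖ < r := by
      rw [Imm.gx, hqt, up_sub, sub_self]
      exact (norm_up_le _ _).trans_lt (by simpa using hq)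
    have := norm_sub_le_norm_sub_add_norm_sub (M.gx (u j) q') (M.gx (u j) q) (up t (M.x p))
    linarith
  obtain ⟨q', hq'⟩ := h3.choice
  obtain ⟨n, -, hn⟩ := (isCompact_closedBall (0 : E (Option ι)) 1).ultrafilter_le_nhds
    (𝒰.map fun j => M.nuv (u j) (q' j)) (by
      rw [Ultrafilter.coe_map, le_principal_iff, mem_map]
      exact Eventually.of_forall fun j => by simp [Imm.norm_nuv (hu.adm j).sm])
  have hn' : ∀ᶠ j in (𝒰 : Filter ℕ), ‖M.nuv (u j) (q' j) - n‖ < 1 / 100 := by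
    simpa only [dist_eq_norm] using Metric.tendsto_nhds.1 hn (1 / 100) (by norm_num)
  -- all normals in the box are close to `n`
  have h5 : ∀ᶠ j in (𝒰 : Filter ℕ), ∀ q, ‖M.gx (u j) q - up t (M.x p)‖ < ρ0 →
      M.a2 (u j) q ≤ C0 ∧ M.vv (u j) q ≤ 2 / 100 ∧
        ‖M.vv (u j) q • M.grad (u j) q + down n‖ ≤ 2 / 100 := by
    filter_upwards [hreg, hq', hn'] with j hj hj1 hj2 q hq
    obtain ⟨a1, a2⟩ := hj q (q' j) hq (hj1.1.trans_le hr1)
    refine ⟨a1, ?_, ?_⟩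
    · have : |M.vv (u j) q - M.vv (u j) (q' j)| ≤ _ :=
        abs_none_le (M.nuv (u j) q - M.nuv (u j) (q' j))
      linarith [(abs_le.1 this).2, hj1.2]
    · have := norm_down_le (M.nuv (u j) q - n)
      rw [down_sub, down_nuv, ← neg_add', norm_neg] at this
      linarith [norm_sub_le_norm_sub_add_norm_sub (M.nuv (u j) q) (M.nuv (u j) (q' j)) n]
  have hX1 : ∀ j q, ‖M.vv (u j) q • M.grad (u j) q‖ ≤ 1 := fun j q => by
    have := norm_down_le (M.nuv (u j) q)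
    rwa [down_nuv, norm_neg, Imm.norm_nuv (hu.adm j).sm] at this
  have hX2 : ∀ j q, 1 - M.vv (u j) q ≤ ‖M.vv (u j) q • M.grad (u j) q‖ := fun j q => by
    have := norm_up_le (M.nuv (u j) q none) (down (M.nuv (u j) q))
    rw [up_down, down_nuv, norm_neg, Imm.norm_nuv (hu.adm j).sm] at this
    have h6 : |M.nuv (u j) q none| = M.vv (u j) q := abs_of_pos (M.vv_pos _ _)
    linarith
  set b := M.PL p (-down n) with hb
  have hb1 : ‖b + down n‖ ≤ 5 / 100 ∧ 93 / 100 ≤ ‖b‖ ∧ ‖b‖ ≤ 103 / 100 := by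
    obtain ⟨j, hj1, hj2⟩ := (hq'.and h5).exists
    obtain ⟨-, a1, a2⟩ := hj2 (q' j) (hj1.1.trans_le hr1)
    set Y := M.vv (u j) (q' j) • M.grad (u j) (q' j) with hY
    have hYt : M.PL (q' j) Y = Y := by rw [hY, map_smul, Imm.PL_grad]
    have a3 : ‖M.PL (q' j) - M.PL p‖ < 1 / 100 := by
      have := hP (q' j) ((Imm.norm_x_sub_le (u j) (q' j) (up t (M.x p))).trans_lt
        (hj1.1.trans_le hr2))
      rwa [mem_preimage, mem_ball, dist_eq_norm] at this
    have a4 : ‖Y - M.PL p Y‖ ≤ 1 / 100 := by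
      have := (M.PL (q' j) - M.PL p).le_opNorm Y
      rw [sub_apply, hYt] at this
      nlinarith [hX1 j (q' j), norm_nonneg Y, norm_nonneg (M.PL (q' j) - M.PL p)]
    have a5 : ‖M.PL p Y - b‖ ≤ 2 / 100 := by
      rw [hb, ← map_sub, sub_neg_eq_add]; exact (M.norm_PL_le p _).trans a2
    have a6 : ‖Y - b‖ ≤ 3 / 100 := by linarith [norm_sub_le_norm_sub_add_norm_sub Y (M.PL p Y) b]
    have a7 := hX1 j (q' j)
    have a8 := hX2 j (q' j)
    have a9 := abs_le.1 ((abs_norm_sub_norm_le Y b).trans a6)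
    refine ⟨?_, by linarith [a9.2], by linarith [a9.1]⟩
    have : b + down n = Y + down n - (Y - b) := by abel
    rw [this]; linarith [norm_sub_le (Y + down n) (Y - b)]
  obtain ⟨hb1, hb2, hb3⟩ := hb1
  have hb0 : 0 < ‖b‖ := by linarith
  have hξ : ‖‖b‖⁻¹ • b‖ = 1 := by rw [norm_smul, norm_inv, norm_norm, inv_mul_cancel₀ hb0.ne']
  have hξb : ‖b - ‖b‖⁻¹ • b‖ ≤ 7 / 100 := by
    have : b - ‖b‖⁻¹ • b = (‖b‖ - 1) • ‖b‖⁻¹ • b := by
      rw [sub_smul, one_smul, smul_smul, mul_inv_cancel₀ hb0.ne', one_smul]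
    rw [this, norm_smul, hξ, mul_one, Real.norm_eq_abs, abs_le]
    constructor <;> linarith
  obtain ⟨e, L, he, hpe, he0, hL, hD⟩ := exists_chart_dir M p hξ (by rw [map_smul, hb, M.PL_PL])
  have ht : e.target ∈ 𝓝 (0 : E (Fin (m + 1))) := he0 ▸ e.open_target.mem_nhds (e.map_source hpe)
  have hc := he.sm.contDiffAt ht
  have hs0 : e.symm 0 = p := by rw [← he0, e.left_inv hpe]
  have hev : ∀ᶠ y in 𝓝 (0 : E (Fin (m + 1))), y ∈ e.target ∧ ‖M.x (e.symm y) - M.x p‖ < ρ0 / 2 ∧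
      ‖fderiv ℝ (M.x ∘ e.symm) y - L.toContinuousLinearMap‖ < 1 / 5 := by
    have b1 := Metric.tendsto_nhds.1 hc.continuousAt (ρ0 / 2) (by positivity)
    have b2 := Metric.tendsto_nhds.1 (hc.fderiv_right (m := 0) (by simp)).continuousAt (1 / 5)
      (by norm_num)
    filter_upwards [ht, b1, b2] with y y1 y2 y3
    rw [dist_eq_norm] at y2 y3
    exact ⟨y1, by simpa [hs0] using y2, by rwa [hD] at y3⟩
  obtain ⟨R, hR, hRs⟩ := nhds_basis_closedBall.eventually_iff.1 hev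
  have hR2 : 2 * (R / 2) = R := by ring
  refine ⟨e, R / 2, ρ0 / 2, C0, he, hpe, he0, by positivity, by positivity,
    fun y hy => (hRs (hR2 ▸ hy)).1, ?_⟩
  filter_upwards [h5] with j hj
  have key : ∀ y ∈ ball (0 : E (Fin (m + 1))) (2 * (R / 2)), |u j (e.symm y) - t| < ρ0 / 2 →
      ‖M.gx (u j) (e.symm y) - up t (M.x p)‖ < ρ0 := fun y hy hyt => by
    have := (hRs (ball_subset_closedBall (hR2 ▸ hy))).2.1
    rw [Imm.gx, up_sub]
    linarith [norm_up_le (u j (e.symm y) - t) (M.x (e.symm y) - M.x p)]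
  refine ⟨fun y hy hyt η hη => ?_, fun y hy hyt => (hj _ (key y hy hyt)).1⟩
  obtain ⟨y1, -, y3⟩ := hRs (ball_subset_closedBall (hR2 ▸ hy))
  obtain ⟨-, a1, a2⟩ := hj _ (key y hy hyt)
  have a3 : ‖M.vv (u j) (e.symm y) • M.grad (u j) (e.symm y) - ‖b‖⁻¹ • b‖ ≤ 1 / 5 := by
    set Y := M.vv (u j) (e.symm y) • M.grad (u j) (e.symm y)
    have : Y - ‖b‖⁻¹ • b = Y + down n - (b + down n) + (b - ‖b‖⁻¹ • b) := by abel
    rw [this]
    linarith [norm_add_le (Y + down n - (b + down n)) (b - ‖b‖⁻¹ • b),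
      norm_sub_le (Y + down n) (b + down n)]
  have a4 := cone_ineq hL (hX1 j _) a3 y3.le hη
  have a5 : fderiv ℝ (fun y => u j (e.symm y) - t) y η =
      ⟪M.grad (u j) (e.symm y), fderiv ℝ (M.x ∘ e.symm) y η⟫ := by
    have := Imm.fderiv_chart (u j) he (e.map_target y1)
    rw [e.right_inv y1] at this
    rw [fderiv_sub_const, ← Imm.td_eq_inner]
    exact congrArg (fun T : _ →L[ℝ] ℝ => T η) this
  rw [a5]
  rw [real_inner_smul_left] at a4
  have a6 := M.vv_pos (u j) (e.symm y)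
  have a7 : 0 ≤ η 0 := (norm_nonneg _).trans hη
  by_contra hlt
  push Not at hlt
  nlinarith

end Crest.Agent.N222.Bx

end
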