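import Crest.Agent.N222.B.Box0

/-!
# Row 222, part B, local graphs: jets (helper10)
-/

set_option autoImplicit false
set_option linter.unusedSectionVars false
open Set Filter Topology Function Metric
open scoped ContDiff InnerProductSpace RealInnerProductSpace

noncomputable section

namespace Crest.Agent.N222.Bx

variable {m n : ℕ} {ι : Type} [Fintype ι] [DecidableEq ι]

/-! ### linear algebra -/

/-- inverse Gram matrix -/
def ginv (J : E (Fin n) →L[ℝ] E ι) : Matrix (Fin n) (Fin n) ℝ :=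
  Matrix.gram ℝ fun i => Lam J (ee i)

theorem ginv_apply (J : E (Fin n) →L[ℝ] E ι) (i k : Fin n) :
    ginv J i k = ⟪Lam J (ee i), Lam J (ee k)⟫ := rfl

theorem Lam_inj {J : E (Fin n) →L[ℝ] E ι} (hJ : Injective J) : Injective (Lam J) := by
  refine (injective_iff_map_eq_zero _).2 fun v hv => ?_
  have := adj_Lam_apply hJ v
  rw [← inner_self_eq_zero (𝕜 := ℝ)]
  nth_rw 2 [← this]
  rw [ContinuousLinearMap.adjoint_inner_right, hv, inner_zero_left]

theorem ginv_posDef {J : E (Fin n) →L[ℝ] E ι} (hJ : Injective J) : (ginv J).PosDef := by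
  refine Matrix.posDef_gram_iff_linearIndependent.2 ?_
  have := (EuclideanSpace.basisFun (Fin n) ℝ).toBasis.linearIndependent.map'
    (Lam J).toLinearMap (LinearMap.ker_eq_bot.2 (Lam_inj hJ))
  have h1 : (fun i => Lam J (ee i)) =
      (Lam J).toLinearMap ∘ (EuclideanSpace.basisFun (Fin n) ℝ).toBasis := by
    funext i; simp [ee]
  exact h1 ▸ this

theorem clm_sum {V : Type} [NormedAddCommGroup V] [NormedSpace ℝ V] (J : E (Fin n) →L[ℝ] V)
    (v : E (Fin n)) : J v = ∑ i, v i • J (ee i) := by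
  conv_lhs => rw [eq_sum_ee v]
  simp only [map_sum, map_smul]

theorem adj_apply (J : E (Fin n) →L[ℝ] E ι) (w : E ι) (i : Fin n) :
    ContinuousLinearMap.adjoint J w i = ⟪J (ee i), w⟫ := by
  rw [← ContinuousLinearMap.adjoint_inner_right]
  simp [ee, EuclideanSpace.inner_single_left]

theorem proj_eq {J : E (Fin n) →L[ℝ] E ι} (hJ : Injective J) (a b : ι) :
    J (ContinuousLinearMap.adjoint (Lam J) (ee a)) b =
      ∑ i, ∑ k, ginv J i k * (J (ee k) a * J (ee i) b) := by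
  have h1 : ∀ v, J (ContinuousLinearMap.adjoint (Lam J) (Lam J v)) = Lam J v := fun v =>
    congrArg J (adj_Lam_apply hJ _)
  rw [clm_sum J]
  simp only [WithLp.ofLp_sum, WithLp.ofLp_smul, Finset.sum_apply, Pi.smul_apply, smul_eq_mul]
  refine Finset.sum_congr rfl fun i _ => ?_
  have h2 : ⟪Lam J (ee i), ee a⟫ = Lam J (ee i) a := by
    simp [ee, EuclideanSpace.inner_single_right]
  rw [adj_apply, h2, ← h1 (ee i), clm_sum J]
  simp only [WithLp.ofLp_sum, WithLp.ofLp_smul, Finset.sum_apply, Pi.smul_apply, smul_eq_mul,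
    Finset.sum_mul, adj_apply, ginv_apply]
  exact Finset.sum_congr rfl fun k _ => by rw [real_inner_comm]; ring

theorem abs_form_le (A : ι → ι → ℝ) (v w : E ι) :
    |∑ a, ∑ b, A a b * (v a * w b)| ≤ √(∑ a, ∑ b, A a b * A a b) * (‖v‖ * ‖w‖) := by
  have h := Finset.sum_mul_sq_le_sq_mul_sq Finset.univ (fun q : ι × ι => A q.1 q.2)
    fun q => v q.1 * w q.2
  simp only [Fintype.sum_prod_type, mul_pow] at h
  rw [← Finset.sum_mul_sum, ← EuclideanSpace.real_norm_sq_eq, ← EuclideanSpace.real_norm_sq_eq] at h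
  refine abs_le_of_sq_le_sq' ?_ (by positivity) |> abs_le.2
  rw [mul_pow, Real.sq_sqrt (Finset.sum_nonneg fun _ _ => Finset.sum_nonneg fun _ _ =>
    mul_self_nonneg _), mul_pow]
  simpa only [sq] using h

theorem inner_cons0 (t t' : ℝ) (y y' : E (Fin m)) :
    ⟪cons0 t y, cons0 t' y'⟫ = t * t' + ⟪y, y'⟫ := by
  simp [PiLp.inner_apply, Fin.sum_univ_succ, mul_comm]

theorem inner_split (y y' : E (Fin (m + 1))) : ⟪y, y'⟫ = y 0 * y' 0 + ⟪tail0 y, tail0 y'⟫ := by
  conv_lhs => rw [← cons0_tail0 y, ← cons0_tail0 y', inner_cons0]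

theorem cons0_eq (t : ℝ) (y : E (Fin m)) : cons0 t y = t • ee 0 + cons0 0 y := by
  ext i; refine Fin.cases ?_ (fun k => ?_) i <;> simp [ee]

theorem tail0_ee : tail0 (ee 0 : E (Fin (m + 1))) = 0 := by ext i; simp [ee]

/-! ### graphs over the coordinates `(height, y')` -/

/-- `z ↦ (w z, z')` -/
def ps (w : E (Fin (m + 1)) → ℝ) (z : E (Fin (m + 1))) : E (Fin (m + 1)) := cons0 (w z) (tail0 z)

/-- its differential -/
def jT (P : E (Fin (m + 1))) : E (Fin (m + 1)) →L[ℝ] E (Fin (m + 1)) :=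
  consL m ∘L ((innerSL ℝ P).prod (tailL m))

theorem jT_apply (P v : E (Fin (m + 1))) : jT P v = cons0 ⟪P, v⟫ (tail0 v) := rfl

theorem contDiff_jT : ContDiff ℝ ∞ (jT (m := m)) :=
  contDiff_clm_apply_iff.2 fun _ =>
    contDiff_cons0.comp ((contDiff_id.inner ℝ contDiff_const).prodMk contDiff_const)

theorem inner_gradient (w : E (Fin n) → ℝ) (z v : E (Fin n)) :
    ⟪gradient w z, v⟫ = fderiv ℝ w z v := InnerProductSpace.toDual_symm_apply

theorem hasFDerivAt_ps {w : E (Fin (m + 1)) → ℝ} {z : E (Fin (m + 1))}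
    (hw : DifferentiableAt ℝ w z) : HasFDerivAt (ps w) (jT (gradient w z)) z := by
  have := (consL m).hasFDerivAt.comp z (hw.hasFDerivAt.prodMk (tailL m).hasFDerivAt)
  refine this.congr_fderiv ?_
  ext1 v
  simp [jT_apply]

theorem contDiffAt_ps {w : E (Fin (m + 1)) → ℝ} {z : E (Fin (m + 1))} {k : WithTop ℕ∞}
    (hw : ContDiffAt ℝ k w z) : ContDiffAt ℝ k (ps w) z :=
  (consL m).contDiff.contDiffAt.comp z (hw.prodMk (tailL m).contDiff.contDiffAt)

theorem fderiv2_comp {V : Type} [NormedAddCommGroup V] [NormedSpace ℝ V]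
    {G : E (Fin (m + 1)) → V} {w : E (Fin (m + 1)) → ℝ} {z : E (Fin (m + 1))}
    (hw : ContDiffAt ℝ 2 w z) (hG : ContDiffAt ℝ 2 G (ps w z)) (a b : E (Fin (m + 1))) :
    fderiv ℝ (fderiv ℝ (G ∘ ps w)) z a b =
      fderiv ℝ (fderiv ℝ G) (ps w z) (jT (gradient w z) a) (jT (gradient w z) b) +
        fderiv ℝ (fderiv ℝ w) z a b • fderiv ℝ G (ps w z) (ee 0) := by
  have hw1 := hw.differentiableAt two_ne_zero
  have hw2 := (hw.fderiv_right (m := 1) le_rfl).differentiableAt one_ne_zero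
  have hG2 := (hG.fderiv_right (m := 1) le_rfl).differentiableAt one_ne_zero
  have hc := ((hG.comp z (contDiffAt_ps hw)).fderiv_right (m := 1) le_rfl).differentiableAt
    one_ne_zero
  have h1 : (fun y => fderiv ℝ (G ∘ ps w) y b) =ᶠ[𝓝 z] fun y =>
      fderiv ℝ G (ps w y) (consL m (fderiv ℝ w y b, tail0 b)) := by
    filter_upwards [hw.eventually (by simp), (contDiffAt_ps hw).continuousAt.eventually
      (hG.eventually (by simp))] with y y1 y2
    rw [((y2.differentiableAt two_ne_zero).hasFDerivAt.comp y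
      (hasFDerivAt_ps (y1.differentiableAt two_ne_zero))).fderiv, ← inner_gradient]
    rfl
  have h2 := (hG2.hasFDerivAt.comp z (hasFDerivAt_ps hw1)).clm_apply
    ((consL m).hasFDerivAt.comp z ((Imm.hasFDerivAt_apply_const hw2 b).prodMk
      (hasFDerivAt_const (tail0 b) z)))
  have h3 := congrArg (fun T : E (Fin (m + 1)) →L[ℝ] V => T a)
    ((Imm.hasFDerivAt_apply_const hc b).unique (h2.congr_of_eventuallyEq h1))
  have h4 : ∀ r : ℝ, cons0 r (0 : E (Fin m)) = r • ee 0 := fun r => by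
    ext i; refine Fin.cases ?_ (fun k => ?_) i <;> simp [ee]
  simp only [ContinuousLinearMap.flip_apply, add_apply,
    ContinuousLinearMap.comp_apply, ContinuousLinearMap.prod_apply, comp_apply, consL_apply,
    zero_apply, h4, map_smul] at h3
  rw [h3, add_comm, jT_apply _ b, inner_gradient]

/-! ### jets -/

/-- points, values, gradients, parameters -/
abbrev Jet (m : ℕ) : Type := E (Fin (m + 1)) × ℝ × E (Fin (m + 1)) × (ℝ × ℝ)

variable (φ : E (Fin (m + 1)) → E ι)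

/-- position in the chart of `M` -/
def jy (s : Jet m) : E (Fin (m + 1)) := cons0 s.2.1 (tail0 s.1)

/-- differential of the parametrisation of the graph -/
def jJ (s : Jet m) : E (Fin (m + 1)) →L[ℝ] E (Option ι) :=
  upL ι ∘L ((EuclideanSpace.proj (0 : Fin (m + 1))).prod (fderiv ℝ φ (jy s) ∘L jT s.2.2.1))

/-- horizontal conormal -/
def jxi (s : Jet m) : E ι := Lam (fderiv ℝ φ (jy s)) (cons0 1 (-tail0 s.2.2.1))

/-- length of the conormal -/
def jN (s : Jet m) : ℝ := √(s.2.2.1 0 ^ 2 + ‖jxi φ s‖ ^ 2)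

/-- lower order part of the second fundamental form -/
def jB (s : Jet m) (a b : E (Fin (m + 1))) : ℝ :=
  ⟪jxi φ s, fderiv ℝ (fderiv ℝ φ) (jy s) (jT s.2.2.1 a) (jT s.2.2.1 b)⟫

/-- right hand side -/
def jc (F h : E (Fin (m + 1)) → ℝ) (t : ℝ) (s : Jet m) : ℝ :=
  -(jN φ s * (s.2.2.2.1 * (t + s.1 0) + s.2.2.2.2 - h (jy s))) +
    fderiv ℝ F (jy s) (ContinuousLinearMap.adjoint (Lam (fderiv ℝ φ (jy s))) (jxi φ s)) -
    ∑ i, ∑ k, ginv (jJ φ s) i k * jB φ s (ee i) (ee k)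

/-- bound for the second derivatives -/
def jb (C : ℝ) (s : Jet m) : ℝ := jN φ s * (√C * ‖jJ φ s‖ ^ 2) +
  ‖jxi φ s‖ * (‖fderiv ℝ (fderiv ℝ φ) (jy s)‖ * ‖jT s.2.2.1‖ ^ 2)

theorem jJ_apply (s : Jet m) (v : E (Fin (m + 1))) :
    jJ φ s v = up (v 0) (fderiv ℝ φ (jy s) (jT s.2.2.1 v)) := rfl

theorem contDiff_jy : ContDiff ℝ ∞ (jy (m := m)) :=
  contDiff_cons0.comp (contDiff_snd.fst.prodMk (contDiff_tail0.comp contDiff_fst))

variable {φ} {s : Jet m}

theorem jJ_inj (h : Injective (fderiv ℝ φ (jy s))) : Injective (jJ φ s) := by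
  refine (injective_iff_map_eq_zero _).2 fun v hv => ?_
  have h1 : v 0 = 0 := congrArg (fun y : E (Option ι) => y none) hv
  have h2 : jT s.2.2.1 v = 0 := (injective_iff_map_eq_zero _).1 h _ (congrArg down hv)
  have h3 : tail0 v = 0 := congrArg tail0 h2
  rw [← cons0_tail0 v, h1, h3]
  ext i; exact Fin.cases rfl (fun _ => rfl) i

theorem jxi_ne (h : Injective (fderiv ℝ φ (jy s))) : jxi φ s ≠ 0 := fun h0 => by
  have := congrArg (fun y : E (Fin (m + 1)) => y 0)
    ((injective_iff_map_eq_zero _).1 (Lam_inj h) _ h0)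
  simp at this

theorem jN_pos (h : Injective (fderiv ℝ φ (jy s))) : 0 < jN φ s :=
  Real.sqrt_pos.2 (by have := norm_pos_iff.2 (jxi_ne h); positivity)

variable (hφ : ContDiffAt ℝ ∞ φ (jy s)) (h : Injective (fderiv ℝ φ (jy s)))
include hφ

theorem cd_D : ContDiffAt ℝ ∞ (fun s => fderiv ℝ φ (jy s)) s :=
  (hφ.fderiv_right (m := ∞) le_rfl).comp s contDiff_jy.contDiffAt

theorem cd_D2 : ContDiffAt ℝ ∞ (fun s => fderiv ℝ (fderiv ℝ φ) (jy s)) s :=
  ((hφ.fderiv_right (m := ∞) le_rfl).fderiv_right (m := ∞) le_rfl).comp s contDiff_jy.contDiffAt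

omit hφ in
theorem cd_T : ContDiffAt ℝ ∞ (fun s : Jet m => jT s.2.2.1) s :=
  (contDiff_jT.comp contDiff_snd.snd.fst).contDiffAt

theorem cd_J : ContDiffAt ℝ ∞ (jJ φ) s := by
  have h1 : jJ φ = fun s => upL ι ∘L ((EuclideanSpace.proj (0 : Fin (m + 1))).prod 0) +
      (upL ι ∘L ContinuousLinearMap.inr ℝ ℝ (E ι)) ∘L (fderiv ℝ φ (jy s) ∘L jT s.2.2.1) := by
    funext s; ext1 v
    ext c; cases c <;> simp [jJ_apply]
  rw [h1]
  exact contDiffAt_const.add (contDiffAt_const.clm_comp ((cd_D hφ).clm_comp cd_T))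

include h

theorem cd_Lam : ContDiffAt ℝ ∞ (fun s => Lam (fderiv ℝ φ (jy s))) s :=
  ContDiffAt.comp (g := Lam) (f := fun s => fderiv ℝ φ (jy s)) s (contDiffAt_Lam h) (cd_D hφ)

theorem cd_xi : ContDiffAt ℝ ∞ (jxi φ) s :=
  (cd_Lam hφ h).clm_apply ((contDiff_cons0_right 1).comp
    (contDiff_tail0.comp contDiff_snd.snd.fst).neg).contDiffAt

theorem cd_N : ContDiffAt ℝ ∞ (jN φ) s := by
  refine ContDiffAt.sqrt (ContDiffAt.add (ContDiffAt.pow ?_ 2) ((cd_xi hφ h).norm_sq ℝ)) ?_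
  · exact ((contDiff_euclidean.1 contDiff_snd.snd.fst) 0).contDiffAt
  · exact (Real.sqrt_pos.1 (jN_pos h)).ne'

theorem cd_a (i k : Fin (m + 1)) : ContDiffAt ℝ ∞ (fun s => ginv (jJ φ s) i k) s := by
  have := (contDiffAt_Lam (jJ_inj h)).comp s (cd_J hφ)
  exact (this.clm_apply contDiffAt_const).inner ℝ (this.clm_apply contDiffAt_const)

theorem cd_B (a b : E (Fin (m + 1))) : ContDiffAt ℝ ∞ (fun s => jB φ s a b) s :=
  (cd_xi hφ h).inner ℝ (((cd_D2 hφ).clm_apply (cd_T.clm_apply contDiffAt_const)).clm_apply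
    (cd_T.clm_apply contDiffAt_const))

theorem cd_c {F g : E (Fin (m + 1)) → ℝ} (hF : ContDiffAt ℝ ∞ F (jy s))
    (hg : ContDiffAt ℝ ∞ g (jy s)) (t : ℝ) : ContDiffAt ℝ ∞ (jc φ F g t) s := by
  refine ContDiffAt.sub (ContDiffAt.add (ContDiffAt.neg ((cd_N hφ h).mul ?_)) ?_) ?_
  · refine ContDiffAt.sub (ContDiffAt.add (ContDiffAt.mul ?_ (contDiffAt_const.add ?_)) ?_)
      (hg.comp s contDiff_jy.contDiffAt)
    · exact contDiff_snd.snd.snd.fst.contDiffAt
    · exact ((contDiff_euclidean.1 contDiff_fst) 0).contDiffAt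
    · exact contDiff_snd.snd.snd.snd.contDiffAt
  · exact ((hF.fderiv_right (m := ∞) le_rfl).comp s contDiff_jy.contDiffAt).clm_apply
      (((contDiff_adjoint (ι := ι) (κ := Fin (m + 1))).contDiffAt.comp s (cd_Lam hφ h)).clm_apply
        (cd_xi hφ h))
  · exact ContDiffAt.sum fun i _ => ContDiffAt.sum fun k _ => (cd_a hφ h i k).mul (cd_B hφ h _ _)

theorem cont_b (C : ℝ) : ContinuousAt (jb φ C) s := by
  have h1 := (cd_N hφ h).continuousAt
  have h2 : ContinuousAt (fun s => ‖jJ φ s‖) s := (cd_J hφ).continuousAt.norm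
  have h3 : ContinuousAt (fun s => ‖jxi φ s‖) s := (cd_xi hφ h).continuousAt.norm
  have h4 : ContinuousAt (fun s => ‖fderiv ℝ (fderiv ℝ φ) (jy s)‖) s :=
    ContinuousAt.norm (E := E (Fin (m + 1)) →L[ℝ] E (Fin (m + 1)) →L[ℝ] E ι)
      (cd_D2 hφ).continuousAt
  have h5 : ContinuousAt (fun s : Jet m => ‖jT s.2.2.1‖) s := (cd_T (s := s)).continuousAt.norm
  exact (h1.fun_mul (continuousAt_const.fun_mul (h2.fun_pow 2))).fun_add
    (h3.fun_mul (h4.fun_mul (h5.fun_pow 2)))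

end Crest.Agent.N222.Bx

end
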