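import Crest.Agent.N222.F.Graph
import Crest.Agent.N222.F.Lip
import Crest.Agent.N222.F.Ker

/-!
# Row 222, part B: calibration inequalities and area bounds (helper85)
-/

set_option autoImplicit false
set_option linter.unusedSectionVars false
open MeasureTheory Set Filter Topology Function Metric
open scoped ContDiff InnerProductSpace RealInnerProductSpace

noncomputable section

namespace Crest.Agent.N222

namespace Cl

variable {d : ℕ} {ι : Type} [Fintype ι] [DecidableEq ι] {X : Type} [TopologicalSpace X]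
  [T2Space X] [SecondCountableTopology X] [MeasurableSpace X] [BorelSpace X] [CompactSpace X]
  {M : Imm d ι X} {u : X → ℝ}

theorem intg {f : X → ℝ} (hf : Continuous f) : Integrable f M.mu :=
  hf.integrable_of_hasCompactSupport (HasCompactSupport.of_compactSpace f)

/-- the calibration identity at height zero -/
theorem cal0 (hu : M.Sm u) {f : E (Option ι) → ℝ} (hf : ContDiff ℝ ∞ f) :
    ∫ p, (M.vv u p)⁻¹ * fderiv ℝ f (M.gx u p) (up 1 0) ∂M.mu =
      ∫ p, (fderiv ℝ f (M.gx u p) (M.nuv u p) - f (M.gx u p) * M.pre.dv (M.Xf u) p) ∂M.mu := by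
  have hg : M.Sm fun p => f (M.gx u p) := (Imm.sm_gx hu).comp hf
  have hD : Continuous fun p => fderiv ℝ f (M.gx u p) :=
    (hf.continuous_fderiv (by simp)).comp (Imm.sm_gx hu).continuous
  have h1 := Imm.integral_mul_dv hg.c1 (HasCompactSupport.of_compactSpace _)
    (fun a => (hu.Xf a).c1) (M.tan_Xf u)
  have h2 : ∀ p, (M.vv u p)⁻¹ * fderiv ℝ f (M.gx u p) (up 1 0) =
      fderiv ℝ f (M.gx u p) (M.nuv u p) + M.pre.dir (M.Xf u) (fun p => f (M.gx u p)) p := by
    intro p
    set Xv : E ι := WithLp.toLp 2 fun a => M.Xf u a p with hXv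
    have e1 : M.pre.dir (M.Xf u) (fun p => f (M.gx u p)) p =
        fderiv ℝ f (M.gx u p) (M.td (M.gx u) p Xv) := by
      rw [Imm.dir_apply, ← ContinuousLinearMap.comp_apply,
        ← Imm.td_comp ((Imm.sm_gx hu).diffAt p) (hf.differentiable (by simp) _), Imm.td_apply]
    have e2 : ∀ c, M.td (M.gx u) p Xv c = ∑ a, M.Xf u a p * M.pre.D a (fun q => M.gx u q c) p := by
      intro c
      have := Imm.td_comp ((Imm.sm_gx hu).diffAt p)
        (EuclideanSpace.proj c : E (Option ι) →L[ℝ] ℝ).differentiableAt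
      rw [ContinuousLinearMap.fderiv] at this
      exact (congrArg (fun T : E ι →L[ℝ] ℝ => T Xv) this).symm.trans (Imm.td_apply _ p Xv)
    have hv := (M.vv_pos u p).ne'
    rw [e1, ← map_add, ← smul_eq_mul, ← map_smul]
    congr 1
    ext c
    rw [PiLp.add_apply, e2]
    cases c with
    | none =>
      have h3 := M.sum_Xf_sq u p
      have h4 : ∑ a, M.Xf u a p * M.Xf u a p = M.vv u p * ∑ a, M.Xf u a p * M.pre.D a u p := by
        rw [Finset.mul_sum]
        exact Finset.sum_congr rfl fun a _ => by rw [M.Xf_apply]; ring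
      change (M.vv u p)⁻¹ * 1 = M.vv u p + ∑ a, M.Xf u a p * M.pre.D a u p
      field_simp
      linarith
    | some b =>
      have h3 := congrFun (M.tan_Xf u b) p
      simp only [Finset.sum_apply, Pi.mul_apply] at h3
      change (M.vv u p)⁻¹ * 0 = -M.Xf u b p + ∑ a, M.Xf u a p * M.pre.P a b p
      rw [← h3, mul_zero, eq_neg_add_iff_add_eq, add_zero]
      exact Finset.sum_congr rfl fun a _ => by rw [M.P_symm, mul_comm]
  have i1 := intg (M := M) (hD.clm_apply hu.nuv.continuous)
  simp only [h2]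
  rw [integral_add i1 (intg (Imm.sm_dir hu.Xf hg).continuous),
    integral_sub i1 (intg (hg.mul (Imm.sm_dv hu.Xf)).continuous), h1]
  ring

theorem cal1 (hu : M.Sm u) {C : ℝ} (hC : ∀ p, |M.pre.dv (M.Xf u) p| ≤ C)
    {f : E (Option ι) → ℝ} (hf : ContDiff ℝ ∞ f) (h0 : ∀ y, 0 ≤ f y) (s : ℝ) :
    |∫ p, (M.vv u p)⁻¹ * fderiv ℝ f (up (u p + s) (M.x p)) (up 1 0) ∂M.mu| ≤
      ∫ p, (‖fderiv ℝ f (up (u p + s) (M.x p))‖ + C * f (up (u p + s) (M.x p))) ∂M.mu := by
  have e : ∀ p, M.gx u p + up s 0 = up (u p + s) (M.x p) := fun p => by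
    rw [Imm.gx, up_add, add_zero]
  have h1 := cal0 hu (f := fun y => f (y + up s 0)) (hf.comp (contDiff_id.add contDiff_const))
  simp only [fderiv_comp_add_right, e] at h1
  have hc : Continuous fun p => up (u p + s) (M.x p) := by
    simp only [← e]; exact (Imm.sm_gx hu).continuous.add continuous_const
  rw [h1, ← Real.norm_eq_abs]
  refine norm_integral_le_of_norm_le (intg (((hf.continuous_fderiv (by simp)).comp hc).norm.add
    (continuous_const.mul (hf.continuous.comp hc)))) (Eventually.of_forall fun p => ?_)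
  refine (norm_sub_le _ _).trans (add_le_add ?_ ?_)
  · simpa [Imm.norm_nuv hu] using (fderiv ℝ f (up (u p + s) (M.x p))).le_opNorm (M.nuv u p)
  · rw [norm_mul, Real.norm_of_nonneg (h0 _), mul_comm]
    exact mul_le_mul_of_nonneg_right (hC p) (h0 _)

theorem hcs_up (hu : M.Sm u) {G : Type} [Zero G] {φ : E (Option ι) → G}
    (hφ : HasCompactSupport φ) :
    HasCompactSupport fun z : X × ℝ => φ (up (u z.1 + z.2) (M.x z.1)) := by
  obtain ⟨R, hR⟩ := hφ.isCompact.isBounded.exists_norm_le
  obtain ⟨K, -, hK⟩ := Imm.exists_bound hu.continuous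
  refine HasCompactSupport.intro (isCompact_univ.prod (isCompact_closedBall 0 (R + K)))
    fun z hz => image_eq_zero_of_notMem_tsupport fun h => hz ⟨mem_univ _, ?_⟩
  have h1 := (abs_none_le _).trans (hR _ h)
  have h2 := hK z.1
  rw [up_none] at h1
  rw [mem_closedBall_zero_iff]
  rw [Real.norm_eq_abs] at h2 ⊢
  have := abs_sub (u z.1 + z.2) (u z.1)
  rw [add_sub_cancel_left] at this
  linarith

theorem fub (ν : Measure ℝ) [IsFiniteMeasureOnCompacts ν] [SFinite ν] {a b : X × ℝ → ℝ}
    (ha : Continuous a) (ha' : HasCompactSupport a) (hb : Continuous b) (hb' : HasCompactSupport b)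
    (h : ∀ s, ∫ p, a (p, s) ∂M.mu ≤ ∫ p, b (p, s) ∂M.mu) :
    ∫ p, ∫ s, a (p, s) ∂ν ∂M.mu ≤ ∫ p, ∫ s, b (p, s) ∂ν ∂M.mu := by
  have i1 : Integrable a (M.mu.prod ν) := ha.integrable_of_hasCompactSupport ha'
  have i2 : Integrable b (M.mu.prod ν) := hb.integrable_of_hasCompactSupport hb'
  rw [← integral_prod _ i1, ← integral_prod _ i2, integral_prod_symm _ i1, integral_prod_symm _ i2]
  exact integral_mono i1.integral_prod_right i2.integral_prod_right h

theorem hasDerivAt_up {f : E (Option ι) → ℝ} (hf : ContDiff ℝ ∞ f) (t : ℝ) (y : E ι) (s : ℝ) :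
    HasDerivAt (fun s => f (up (t + s) y)) (fderiv ℝ f (up (t + s) y) (up 1 0)) s := by
  have e : ∀ s : ℝ, up (t + s) y = up t y + s • up 1 (0 : E ι) := fun s => by
    rw [smul_up, up_add]; simp
  simp only [e]
  exact (hf.differentiable (by simp) _).hasFDerivAt.comp_hasDerivAt s
    (by simpa using ((hasDerivAt_id s).smul_const (up 1 (0 : E ι))).const_add (up t y))

theorem cal2 (hu : M.Sm u) {C : ℝ} (hC : ∀ p, |M.pre.dv (M.Xf u) p| ≤ C)
    {f : E (Option ι) → ℝ} (hf : ContDiff ℝ ∞ f) (hc : HasCompactSupport f) (h0 : ∀ y, 0 ≤ f y) :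
    (∫ p, f (M.gx u p) ∂M.gmu u ≤ ∫ p, (∫ t in Iic (u p),
      (‖fderiv ℝ f (up t (M.x p))‖ + C * f (up t (M.x p)))) ∂M.mu) ∧
    (∫ p, f (M.gx u p) ∂M.gmu u ≤ ∫ p, (∫ t in Ioi (u p),
      (‖fderiv ℝ f (up t (M.x p))‖ + C * f (up t (M.x p)))) ∂M.mu) := by
  have hz : Continuous fun z : X × ℝ => up (u z.1 + z.2) (M.x z.1) :=
    contDiff_up.continuous.comp (((hu.continuous.comp continuous_fst).add continuous_snd).prodMk
      (M.continuous_x.comp continuous_fst))
  have hD := (hf.continuous_fderiv (by simp)).comp hz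
  have ha : Continuous fun z : X × ℝ =>
      (M.vv u z.1)⁻¹ * fderiv ℝ f (up (u z.1 + z.2) (M.x z.1)) (up 1 0) :=
    ((hu.vv.continuous.inv₀ fun p => (M.vv_pos u p).ne').comp continuous_fst).mul
      (hD.clm_apply continuous_const)
  have ha' : HasCompactSupport fun z : X × ℝ =>
      (M.vv u z.1)⁻¹ * fderiv ℝ f (up (u z.1 + z.2) (M.x z.1)) (up 1 0) :=
    (hcs_up hu (hc.fderiv_apply ℝ (up 1 0))).mul_left
  have hb : Continuous fun z : X × ℝ => ‖fderiv ℝ f (up (u z.1 + z.2) (M.x z.1))‖ +
      C * f (up (u z.1 + z.2) (M.x z.1)) := hD.norm.add (continuous_const.mul (hf.continuous.comp hz))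
  have hb' : HasCompactSupport fun z : X × ℝ => ‖fderiv ℝ f (up (u z.1 + z.2) (M.x z.1))‖ +
      C * f (up (u z.1 + z.2) (M.x z.1)) :=
    hcs_up hu (φ := fun y => ‖fderiv ℝ f y‖ + C * f y) ((hc.fderiv ℝ).norm.add hc.mul_left)
  have hs : ∀ p, ContDiff ℝ 1 (fun s => f (up (u p + s) (M.x p))) ∧
      HasCompactSupport fun s => f (up (u p + s) (M.x p)) := fun p =>
    ⟨(hf.comp (contDiff_up.comp ((contDiff_const.add contDiff_id).prodMk contDiff_const))).of_le
      (by simp), (hcs_up hu hc).comp_isClosedEmbedding (g := fun s : ℝ => (p, s))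
        ⟨isEmbedding_prodMkRight p, by
          rw [show range (fun s : ℝ => (p, s)) = {p} ×ˢ univ by ext z; simp [Prod.ext_iff, eq_comm]]
          exact isClosed_singleton.prod isClosed_univ⟩⟩
  have hd : ∀ p, deriv (fun s => f (up (u p + s) (M.x p))) =
      fun s => fderiv ℝ f (up (u p + s) (M.x p)) (up 1 0) := fun p =>
    funext fun s => (hasDerivAt_up hf _ _ s).deriv
  have tr : ∀ (G : ℝ → ℝ) (c : ℝ) (S : Set ℝ), ∫ s in (fun s => c + s) ⁻¹' S, G (c + s) =
      ∫ t in S, G t := fun G c S =>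
    (measurePreserving_add_left volume c).setIntegral_preimage_emb (measurableEmbedding_addLeft c) G S
  rw [Imm.integral_gmu hu]
  constructor
  · have := fub (M := M) (volume.restrict (Iic 0)) ha ha' hb hb'
      fun s => (le_abs_self _).trans (cal1 hu hC hf h0 s)
    convert this using 3 with p p
    · dsimp only
      rw [integral_const_mul, ← hd, (hs p).2.integral_Iic_deriv_eq (hs p).1, add_zero]; rfl
    · rw [← tr _ (u p)]; simp
  · have := fub (M := M) (volume.restrict (Ioi 0)) ha.neg ha'.neg hb hb'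
      fun s => by
        simp only [Pi.neg_apply, integral_neg]
        exact (neg_le_abs _).trans (cal1 hu hC hf h0 s)
    convert this using 3 with p p
    · simp only [Pi.neg_apply, integral_neg]
      rw [integral_const_mul, ← hd, (hs p).2.integral_Ioi_deriv_eq (hs p).1, add_zero, mul_neg,
        neg_neg]; rfl
    · rw [← tr _ (u p)]; simp

theorem ball_le : ∃ K : ℝ, 0 ≤ K ∧ ∀ (u : X → ℝ) (C : ℝ), M.Sm u → 0 ≤ C →
    (∀ p, |M.pre.dv (M.Xf u) p| ≤ C) → ∀ (y : E (Option ι)) (R : ℝ), 0 < R →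
    (M.gmu u).real {p | ‖M.gx u p - y‖ ≤ R / 2} ≤
      (K + 2 * C * R) * M.mu.real {p | ‖M.x p - down y‖ ≤ R} := by
  have h1 : ContDiff ℝ ∞ fun z : E (Option ι) => Phi (‖z‖ ^ 2) :=
    contDiff_Phi.comp (contDiff_norm_sq ℝ)
  have h2 : HasCompactSupport fun z : E (Option ι) => Phi (‖z‖ ^ 2) := by
    simpa using hasCompactSupport_Phi (0 : E (Option ι)) one_pos
  obtain ⟨K, hK⟩ := (h1.continuous_fderiv (by simp)).bounded_above_of_compact_support (h2.fderiv ℝ)
  have hK0 : 0 ≤ K := (norm_nonneg _).trans (hK 0)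
  refine ⟨2 * K, by positivity, fun u C hu hC0 hC y R hR => ?_⟩
  set f : E (Option ι) → ℝ := fun z => Phi (‖z - y‖ ^ 2 / R ^ 2) with hfd
  have e : f = (fun z : E (Option ι) => Phi (‖z‖ ^ 2)) ∘ fun z => R⁻¹ • (z - y) := by
    funext z
    simp only [hfd, comp_apply, norm_smul, mul_pow, norm_inv, inv_pow, Real.norm_eq_abs, sq_abs,
      div_eq_inv_mul]
  have hf : ContDiff ℝ ∞ f := e ▸ h1.comp (by fun_prop)
  have hb : ∀ z, ‖fderiv ℝ f z‖ + C * f z ≤ K / R + C := by
    intro z
    refine add_le_add ?_ (mul_le_of_le_one_right hC0 (Phi_le_one _))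
    have h3 : HasFDerivAt (fun z : E (Option ι) => R⁻¹ • (z - y))
        (R⁻¹ • ContinuousLinearMap.id ℝ _) z := ((hasFDerivAt_id z).sub_const y).const_smul R⁻¹
    rw [e, ((h1.differentiable (by simp) _).hasFDerivAt.comp z h3).fderiv]
    refine (ContinuousLinearMap.opNorm_comp_le _ _).trans ?_
    rw [div_eq_mul_inv]
    refine mul_le_mul (hK _) ?_ (norm_nonneg _) hK0
    rw [norm_smul, norm_inv, Real.norm_of_nonneg hR.le]
    exact mul_le_of_le_one_right (by positivity) ContinuousLinearMap.norm_id_le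
  have hz : ∀ z, R < ‖z - y‖ → ‖fderiv ℝ f z‖ + C * f z = 0 := by
    intro z h
    have h3 : f =ᶠ[𝓝 z] fun _ => 0 := by
      filter_upwards [(isOpen_lt continuous_const (by fun_prop :
        Continuous fun w : E (Option ι) => ‖w - y‖)).mem_nhds h] with w hw
      exact Phi_eq_zero_of_le hR (le_of_lt hw)
    rw [h3.fderiv_eq, h3.self_of_nhds]; simp
  have hn : ∀ z, 0 ≤ ‖fderiv ℝ f z‖ + C * f z := fun z =>
    add_nonneg (norm_nonneg _) (mul_nonneg hC0 (Phi_nonneg _))
  have := Imm.isFiniteMeasure_gmu hu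
  have m1 : MeasurableSet {p | ‖M.gx u p - y‖ ≤ R / 2} := (isClosed_le
    ((Imm.sm_gx hu).continuous.sub continuous_const).norm continuous_const).measurableSet
  have m2 : MeasurableSet {p | ‖M.x p - down y‖ ≤ R} := (isClosed_le
    (M.continuous_x.sub continuous_const).norm continuous_const).measurableSet
  calc (M.gmu u).real {p | ‖M.gx u p - y‖ ≤ R / 2} ≤ ∫ p, f (M.gx u p) ∂M.gmu u := by
        rw [← integral_indicator_one m1]
        refine integral_mono ((integrable_const 1).indicator m1)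
          ((hf.continuous.comp (Imm.sm_gx hu).continuous).integrable_of_hasCompactSupport
            (HasCompactSupport.of_compactSpace _)) fun p => ?_
        refine indicator_apply_le' (fun hp => ?_) fun _ => Phi_nonneg _
        exact (Phi_eq_one_of_le hR (norm_nonneg _) hp).ge
    _ ≤ _ := (cal2 hu hC hf (hasCompactSupport_Phi y hR) fun _ => Phi_nonneg _).1
    _ ≤ ∫ p, {p | ‖M.x p - down y‖ ≤ R}.indicator (fun _ => 2 * K + 2 * C * R) p ∂M.mu := by
        refine integral_mono_of_nonneg (Eventually.of_forall fun p => integral_nonneg fun t => hn _)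
          ((integrable_const _).indicator m2) (Eventually.of_forall fun p => ?_)
        refine le_indicator_apply (fun _ => ?_) fun hp => le_of_eq ?_
        · have i1 : Integrable ((closedBall (y none) R).indicator fun _ : ℝ => K / R + C) :=
            (integrable_indicator_iff measurableSet_closedBall).2
              (integrableOn_const measure_closedBall_lt_top.ne)
          refine (integral_mono_of_nonneg (Eventually.of_forall fun t => hn _) i1.integrableOn
            (Eventually.of_forall fun t => ?_)).trans ((setIntegral_le_integral i1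
              (Eventually.of_forall fun t => indicator_nonneg (fun _ _ => by positivity) t)).trans
                (le_of_eq ?_))
          · refine le_indicator_apply (fun _ => hb _) fun ht => le_of_eq (hz _ ?_)
            exact lt_of_lt_of_le (not_le.1 ht) (abs_none_le (up t (M.x p) - y))
          · rw [integral_indicator_const _ measurableSet_closedBall, Real.volume_real_closedBall hR.le,
              smul_eq_mul]
            field_simp
        · refine integral_eq_zero_of_ae (Eventually.of_forall fun t => hz _ ?_)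
          exact lt_of_lt_of_le (not_le.1 hp) (norm_down_le (up t (M.x p) - y))
    _ = _ := by rw [integral_indicator_const _ m2, smul_eq_mul, mul_comm]

end Cl

open Cl in
theorem cal : CalStmt := by
  intro d ι _ _ X _ _ _ _ _ _ M F hi hF Λ
  obtain ⟨B, hB0, hB⟩ := Imm.exists_bound hF.grad.continuous
  obtain ⟨K, hK0, hK⟩ := ball_le (M := M)
  obtain ⟨A, hA0, hA⟩ := Imm.exists_mu_ball_le hi
  obtain ⟨L, hL0, hL⟩ := Imm.exists_bound M.continuous_x
  set C := |Λ| + B with hC
  have hC0 : 0 ≤ C := by positivity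
  have hm : 0 ≤ M.mu.real univ := measureReal_nonneg
  have hdv : ∀ u, M.Adm F Λ u → ∀ p, |M.pre.dv (M.Xf u) p| ≤ C := by
    intro u hu p
    have h1 : M.pre.dv (M.Xf u) p = M.hF F u p - M.pre.dir (M.Xf u) F p := by
      rw [Imm.hF_apply]; ring
    set Xv : E ι := WithLp.toLp 2 fun a => M.Xf u a p with hXv
    have h2 : M.pre.dir (M.Xf u) F p = ⟪M.grad F p, Xv⟫ := by
      rw [Imm.dir_apply, ← Imm.td_eq_inner, Imm.td_apply]
    have h3 : ‖Xv‖ ≤ 1 := by
      have := norm_down_le (M.nuv u p)
      rw [Imm.norm_nuv hu.sm] at this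
      rw [← norm_neg]
      exact this
    rw [h1, h2]
    refine (abs_sub _ _).trans (add_le_add ((hu.h p).trans (le_abs_self _)) ?_)
    exact (abs_real_inner_le_norm _ _).trans ((mul_le_of_le_one_right (norm_nonneg _) h3).trans (hB p))
  set C1 := (K + 4 * C) * A * 2 ^ d with hC1
  set C2 := (K + 4 * C * (1 + L)) * M.mu.real univ with hC2
  have hC10 : 0 ≤ C1 := by positivity
  have hC20 : 0 ≤ C2 := by positivity
  refine ⟨C + C1 + C2, by positivity, fun u hu => ⟨fun f hf hc h0 =>
    cal2 hu.sm (fun p => (hdv u hu p).trans (by linarith)) hf hc h0, fun y r hr hr1 => ?_,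
    fun T hT => ?_⟩⟩
  · have h1 := hK u C hu.sm hC0 (hdv u hu) y (2 * r) (by positivity)
    rw [mul_div_cancel_left₀ _ two_ne_zero] at h1
    calc _ ≤ _ := h1
      _ ≤ (K + 4 * C) * (A * (2 * r) ^ d) :=
        mul_le_mul (by nlinarith) (hA _ _ (by positivity)) measureReal_nonneg (by positivity)
      _ = C1 * r ^ d := by rw [hC1, mul_pow]; ring
      _ ≤ _ := mul_le_mul_of_nonneg_right (by linarith) (by positivity)
  · have h1 := hK u C hu.sm hC0 (hdv u hu) 0 (2 * (T + L)) (by positivity)
    rw [mul_div_cancel_left₀ _ two_ne_zero] at h1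
    have := Imm.isFiniteMeasure_gmu hu.sm
    calc _ ≤ (M.gmu u).real {p | ‖M.gx u p - 0‖ ≤ T + L} := measureReal_mono fun p hp => by
          rw [mem_ofPred_eq, sub_zero]
          exact (norm_up_le _ _).trans (add_le_add hp (hL p))
      _ ≤ _ := h1
      _ ≤ (K + 4 * C * (1 + L)) * (1 + T) * M.mu.real univ :=
        mul_le_mul (by nlinarith [mul_nonneg hC0 hT, mul_nonneg (mul_nonneg hC0 hT) hL0.le])
          (measureReal_mono (subset_univ _)) measureReal_nonneg (by positivity)
      _ = C2 * (1 + T) := by rw [hC2]; ring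
      _ ≤ _ := mul_le_mul_of_nonneg_right (by linarith) (by positivity)

end Crest.Agent.N222
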