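import Crest.Agent.N222.B.Defs2
import Crest.Agent.N222.F.Meas
import Crest.Agent.N222.F.Hess

/-!
# Row 222, part B: the Picone inequality and the drift form (helper31)
-/

set_option autoImplicit false
set_option linter.unusedSectionVars false
open MeasureTheory Set Filter Topology Function Metric
open scoped ContDiff InnerProductSpace RealInnerProductSpace

noncomputable section

namespace Crest.Agent.N222

namespace Pc

variable {d : ℕ} {ι : Type} [Fintype ι] [DecidableEq ι] {X : Type} [TopologicalSpace X]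
  {M : Imm d ι X} {z y : X → ℝ}

theorem D_sq (hz : M.Sm z) (a : ι) (p : X) :
    M.pre.D a (fun q => z q ^ 2) p = 2 * z p * M.pre.D a z p := by
  have := Imm.D_comp (hz.diffAt p) (hasDerivAt_pow 2 (z p)) a
  rw [this]
  simp

theorem D_sq_div (hz : M.Sm z) (hy : M.Sm y) (h0 : ∀ p, y p ≠ 0) (a : ι) (p : X) :
    M.pre.D a (fun q => z q ^ 2 * (y q)⁻¹) p =
      2 * z p * M.pre.D a z p / y p - z p ^ 2 * M.pre.D a y p / y p ^ 2 := by
  rw [Imm.D_mul ((hz.pow 2).diffAt p) ((hy.inv h0).diffAt p), D_sq hz,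
    Imm.D_comp (hy.diffAt p) (hasDerivAt_inv (h0 p))]
  have := h0 p
  field_simp
  ring

theorem gam_eq_zero (f : X → ℝ) {p : X} (hp : p ∉ tsupport z) : M.pre.gam z f p = 0 := by
  simp [Imm.gam_apply, Imm.D_eq_zero_of_notMem hp]

theorem hcs_sq_mul [T2Space X] (hz : HasCompactSupport z) (f : X → ℝ) :
    HasCompactSupport fun q => z q ^ 2 * f q :=
  HasCompactSupport.intro hz fun p hp => by simp [image_eq_zero_of_notMem_tsupport hp]

end Pc

open Pc in
/-- Picone inequality -/
theorem pic : PicStmt := by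
  intro d ι _ _ X _ _ _ _ _ M F y z hF hy h0 hz
  have hne : ∀ p, y p ≠ 0 := fun p => (h0 p).ne'
  have hf : M.Sm fun q => z q ^ 2 * (y q)⁻¹ := (hz.sm.pow 2).mul (hy.inv hne)
  have hc := hcs_sq_mul hz.cs fun q => (y q)⁻¹
  have e := Imm.integral_mul_lapF hf.c1 hc hy hF
  have e1 : ∫ p, -M.pre.lapF F y p / y p * z p ^ 2 * Real.exp (F p) ∂M.mu =
      ∫ p, M.pre.gam (fun q => z q ^ 2 * (y q)⁻¹) y p * Real.exp (F p) ∂M.mu := by
    rw [← neg_inj, ← e, ← integral_neg]
    congr 1
    funext p
    ring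
  rw [e1]
  refine integral_mono (Imm.integrable_of_support hc ((hf.gam hy).mul hF.exp).continuous
    fun p hp => by rw [gam_eq_zero y hp, zero_mul])
    (Imm.integrable_of_support hz.cs ((hz.sm.gam hz.sm).mul hF.exp).continuous
    fun p hp => by rw [gam_eq_zero z hp, zero_mul]) fun p => ?_
  refine mul_le_mul_of_nonneg_right ?_ (Real.exp_pos _).le
  rw [Imm.gam_apply, Imm.gam_apply]
  refine Finset.sum_le_sum fun a _ => ?_
  rw [D_sq_div hz.sm hy hne]
  have h1 := sq_nonneg (M.pre.D a z p - z p * M.pre.D a y p / y p)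
  have h2 : (M.pre.D a z p - z p * M.pre.D a y p / y p) ^ 2 = M.pre.D a z p * M.pre.D a z p -
      (2 * z p * M.pre.D a z p / y p - z p ^ 2 * M.pre.D a y p / y p ^ 2) * M.pre.D a y p := by
    have := hne p
    field_simp
    ring
  linarith

open Pc in
/-- the drift form of the hypothesis gives the form inequality -/
theorem drift : DriftStmt := by
  intro d ι _ _ X _ _ _ _ _ M b V hb ht hV z hz hle
  have hz2 : M.Sm fun q => z q ^ 2 := hz.sm.pow 2
  have hc : HasCompactSupport fun q => z q ^ 2 := by simpa using hcs_sq_mul hz.cs fun _ => 1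
  have e := Imm.integral_mul_dv hz2.c1 hc (fun a => (hb a).c1) ht
  have z0 : ∀ p, p ∉ tsupport z → z p = 0 := fun p hp => image_eq_zero_of_notMem_tsupport hp
  have i1 : Integrable (fun p => z p ^ 2 * M.pre.dv b p) M.mu :=
    Imm.integrable_of_support hz.cs (hz2.mul (Imm.sm_dv hb)).continuous fun p hp => by
      simp [z0 p hp]
  have i2 : Integrable (M.pre.dir b fun q => z q ^ 2) M.mu :=
    Imm.integrable_of_support hz.cs (Imm.sm_dir hb hz2).continuous fun p hp => by
      simp [Imm.dir_apply, D_sq hz.sm, z0 p hp]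
  have e2 : ∫ p, 2 * (z p ^ 2 * M.pre.dv b p + M.pre.dir b (fun q => z q ^ 2) p) ∂M.mu = 0 := by
    rw [integral_const_mul, integral_add i1 i2, e]
    simp
  rw [← e2]
  refine integral_mono ((i1.add i2).const_mul 2) (Imm.integrable_of_support hz.cs
    (((Imm.sm_const 4).mul (hz.sm.gam hz.sm)).add ((M.sm_scal.sub hV).mul hz2)).continuous
    fun p hp => by simp [z0 p hp, gam_eq_zero z hp]) fun p => ?_
  by_cases hp : p ∈ tsupport z
  · have h1 := hle p hp
    have h2 : M.pre.Eb b p = M.pre.scal p - 2 * M.pre.dv b p - ∑ a, b a p * b a p := by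
      simp [Pre.Eb, Finset.sum_apply]
    have h3 : 0 ≤ ∑ a, (2 * M.pre.D a z p - z p * b a p) ^ 2 :=
      Finset.sum_nonneg fun a _ => sq_nonneg _
    have h4 : ∑ a, (2 * M.pre.D a z p - z p * b a p) ^ 2 = 4 * M.pre.gam z z p -
        2 * M.pre.dir b (fun q => z q ^ 2) p + (∑ a, b a p * b a p) * z p ^ 2 := by
      simp only [Imm.gam_apply, Imm.dir_apply, D_sq hz.sm, Finset.mul_sum, Finset.sum_mul,
        ← Finset.sum_sub_distrib, ← Finset.sum_add_distrib]
      exact Finset.sum_congr rfl fun a _ => by ring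
    have h5 := mul_le_mul_of_nonneg_right h1 (sq_nonneg (z p))
    rw [h2] at h5
    simp only
    nlinarith
  · simp [z0 p hp, gam_eq_zero z hp, Imm.dir_apply, D_sq hz.sm]

end Crest.Agent.N222

end
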