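import Crest.Agent.N222.B.Emb
import Crest.Agent.N222.B.Pic
import Crest.Agent.N222.F.Res

/-!
# Row 222, part B: CLOSE (form class to pointwise class on a compact manifold) (helper67)
-/

set_option autoImplicit false
set_option linter.unusedSectionVars false
open MeasureTheory Set Filter Topology Function Metric
open scoped ContDiff InnerProductSpace RealInnerProductSpace

noncomputable section

namespace Crest.Agent.N222

namespace Cl

open Imm

variable {d : ℕ} {κ : Type} [Fintype κ] [DecidableEq κ] {X Y : Type}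
  [TopologicalSpace X] [T2Space X] [SecondCountableTopology X] [MeasurableSpace X] [BorelSpace X]
  [TopologicalSpace Y] [T2Space Y] [SecondCountableTopology Y] [MeasurableSpace Y] [BorelSpace Y]
  [CompactSpace Y] {M : Imm d κ X} {N : Imm d κ Y} {e : OpenPartialHomeomorph X Y}

theorem hcs (f : Y → ℝ) : HasCompactSupport f := (isClosed_tsupport f).isCompact

theorem int {f : Y → ℝ} (hf : N.Sm f) : Integrable f N.mu :=
  hf.continuous.integrable_of_hasCompactSupport (hcs f)

theorem gam_mul {w z : Y → ℝ} (hw : N.Sm w) (hz : N.Sm z) (y : Y) :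
    N.pre.gam (fun q => w q * z q) (fun q => w q * z q) y = w y ^ 2 * N.pre.gam z z y +
      N.pre.gam (fun q => z q ^ 2) (fun q => w q ^ 2) y / 2 + z y ^ 2 * N.pre.gam w w y := by
  simp only [gam_apply, D_mul (hw.diffAt y) (hz.diffAt y), Pc.D_sq hw, Pc.D_sq hz, Finset.mul_sum,
    Finset.sum_div, ← Finset.sum_add_distrib]
  exact Finset.sum_congr rfl fun a _ => by ring

/-- the potential on the compact manifold -/
def q0 (N : Imm d κ Y) (w V1 : Y → ℝ) (y : Y) : ℝ :=
  (w y ^ 2 * N.pre.scal y - V1 y) / 4 + N.pre.gam w w y - N.pre.lap (fun q => w q ^ 2) y / 2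

theorem sm_q0 {w V1 : Y → ℝ} (hw : N.Sm w) (hV : N.Sm V1) : N.Sm (q0 N w V1) :=
  (((((hw.pow 2).mul N.sm_scal).sub hV).div (sm_const 4) fun _ => by norm_num).add
    (hw.gam hw)).sub ((hw.pow 2).lap.div (sm_const 2) fun _ => by norm_num)

/-- the form inequality on the compact manifold -/
theorem form_Y {w V1 z : Y → ℝ} (hw : N.Sm w) (hV : N.Sm V1) (hz : N.Sm z)
    (hw1 : ∀ y, w y ^ 2 ≤ 1) (h : 0 ≤ ∫ y, (4 * N.pre.gam (fun q => w q * z q)
      (fun q => w q * z q) y + (w y ^ 2 * N.pre.scal y - V1 y) * z y ^ 2) ∂N.mu) :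
    0 ≤ ∫ y, (N.pre.gam z z y + q0 N w V1 y * z y ^ 2) ∂N.mu := by
  have hA : N.Sm fun y => w y ^ 2 * N.pre.gam z z y + q0 N w V1 y * z y ^ 2 :=
    ((hw.pow 2).mul (hz.gam hz)).add ((sm_q0 hw hV).mul (hz.pow 2))
  have hB : N.Sm fun y => z y ^ 2 * N.pre.lap (fun q => w q ^ 2) y :=
    (hz.pow 2).mul (hw.pow 2).lap
  have hC : N.Sm (N.pre.gam (fun q => z q ^ 2) fun q => w q ^ 2) := (hz.pow 2).gam (hw.pow 2)
  have h1 : ∀ y, 4 * N.pre.gam (fun q => w q * z q) (fun q => w q * z q) y +
      (w y ^ 2 * N.pre.scal y - V1 y) * z y ^ 2 =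
      4 * (w y ^ 2 * N.pre.gam z z y + q0 N w V1 y * z y ^ 2) +
        2 * (z y ^ 2 * N.pre.lap (fun q => w q ^ 2) y +
          N.pre.gam (fun q => z q ^ 2) (fun q => w q ^ 2) y) := fun y => by
    rw [gam_mul hw hz, q0]; ring
  have h2 := integral_mul_lap (hz.pow 2).c1 (hcs _) (hw.pow 2)
  simp only [h1] at h
  rw [integral_add ((int hA).const_mul 4) ((int (hB.add hC)).const_mul 2),
    integral_const_mul, integral_const_mul, integral_add (int hB) (int hC), h2] at h
  have h3 : 0 ≤ ∫ y, (w y ^ 2 * N.pre.gam z z y + q0 N w V1 y * z y ^ 2) ∂N.mu := by linarith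
  refine h3.trans (integral_mono (int hA) (int ((hz.gam hz).add ((sm_q0 hw hV).mul (hz.pow 2))))
    fun y => ?_)
  have := mul_le_of_le_one_left (gam_self_nonneg (M := N) z y) (hw1 y)
  simp only
  linarith

/-- transfer of the form along the open embedding -/
theorem transfer (hx : ∀ p ∈ e.source, N.x (e p) = M.x p) {V χ : X → ℝ} (hV : M.Form V)
    (hχ : M.Tst χ) (hs : tsupport χ ⊆ e.source) {z : Y → ℝ} (hz : N.Sm z) :
    0 ≤ ∫ y, (4 * N.pre.gam (fun q => push e χ q * z q) (fun q => push e χ q * z q) y +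
      (push e χ y ^ 2 * N.pre.scal y - push e (fun p => χ p ^ 2 * V p) y) * z y ^ 2) ∂N.mu := by
  have hζ : M.Tst fun p => χ p * z (e p) :=
    ⟨SmOn.smul_sm (f := fun p => z (e p)) (U := e.source)
      (fun p hp => (loc_of_mem hx hp).contDiffAt hz) hχ.sm hs, hχ.cs.mul_right⟩
  refine (hV _ hζ).trans_eq ?_
  rw [← setIntegral_eq_integral_of_forall_compl_eq_zero (s := e.source),
    ← setIntegral_eq_integral_of_forall_compl_eq_zero (s := e.target), setIntegral_iso hx]
  · refine setIntegral_congr_fun e.open_source.measurableSet fun p hp => ?_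
    have hl := loc_of_mem hx hp
    have h1 : (fun p => χ p * z (e p)) =ᶠ[𝓝 p] fun p => push e χ (e p) * z (e p) := by
      filter_upwards [e.open_source.mem_nhds hp] with q hq
      rw [push_apply χ hq]
    rw [← hl.gam_iso, ← hl.scal_iso, push_apply _ hp, push_apply _ hp, gam_congr h1 h1]
    ring
  · intro y hy
    have h1 : y ∉ tsupport fun q => push e χ q * z q := fun h => hy <| by
      have := tsupport_mul_subset_left h
      rw [tsupport_push hχ.cs hs] at this
      obtain ⟨p, hp, rfl⟩ := this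
      exact e.map_source (hs hp)
    rw [Pc.gam_eq_zero _ h1]
    simp [push, indicator_of_notMem hy]
  · intro p hp
    have h0 : p ∉ tsupport χ := fun h => hp (hs h)
    have h1 : p ∉ tsupport fun p => χ p * z (e p) := fun h => h0 (tsupport_mul_subset_left h)
    rw [Pc.gam_eq_zero _ h1, image_eq_zero_of_notMem_tsupport h0]
    simp

/-- `E(2 log y)` -/
theorem EF_log {y : Y → ℝ} (hy : N.Sm y) (h0 : ∀ p, 0 < y p) (p : Y) :
    N.pre.EF (fun q => 2 * Real.log (y q)) p = N.pre.scal p - 4 * (N.pre.lap y p / y p) := by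
  have hl : N.Sm fun q => Real.log (y q) := hy.log fun q => (h0 q).ne'
  have h1 := lap_comp (p := p) hy (φ := Real.log) (Real.contDiffAt_log.2 (h0 p).ne')
  have h2 : ∀ a, N.pre.D a (fun q => 2 * Real.log (y q)) p = 2 * ((y p)⁻¹ * N.pre.D a y p) :=
    fun a => by
      rw [D_const_mul 2 (hl.diffAt p), D_comp (hy.diffAt p) (Real.hasDerivAt_log (h0 p).ne')]
  have h3 : N.pre.gam (fun q => 2 * Real.log (y q)) (fun q => 2 * Real.log (y q)) p =
      4 * ((y p)⁻¹ ^ 2 * N.pre.gam y y p) := by
    simp only [gam_apply, h2, Finset.mul_sum]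
    exact Finset.sum_congr rfl fun a _ => by ring
  rw [EF_apply, lap_const_mul 2 hl, h1, h3, Real.deriv_log', deriv_inv]
  have := (h0 p).ne'
  field_simp
  ring

theorem core (hL : LinAStmt) (h4 : Ess4Stmt) (hx : ∀ p ∈ e.source, N.x (e p) = M.x p)
    {V om : X → ℝ} {a : Fin d → X → ℝ} (h : M.FormData V om a) (hK : tsupport om ⊆ e.source) :
    ∃ F om' a', N.PtData F om' a' := by
  obtain ⟨χ, hχ, hs, h01, h1⟩ := M.exists_bump h.smo.cs e.open_source hK
  obtain ⟨s, hs0, hI⟩ := h.ineq
  have hw := hχ.push hx hs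
  have tst : ∀ {f : X → ℝ}, M.Sm f → N.Tst (push e fun p => χ p * f p) := fun hf =>
    Tst.push hx ⟨hχ.sm.mul hf, hχ.cs.mul_right⟩ (tsupport_mul_subset_left.trans hs)
  have hV1 : N.Sm (push e fun p => χ p ^ 2 * V p) := by
    have := (tst (hχ.sm.mul h.smV)).sm
    simpa only [← mul_assoc, ← sq] using this
  have ho := h.smo.push hx hK
  obtain ⟨B, hB, hb⟩ := Em.exists_pos_le (f := fun y => push e om y ^ 4) (ho.sm.continuous.pow 4)
  have hw1 : ∀ y, push e χ y ^ 2 ≤ 1 := fun y => by
    by_cases hy : y ∈ e.target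
    · rw [push, indicator_of_mem hy]
      exact pow_le_one₀ (h01 _).1 (h01 _).2
    · simp [push, indicator_of_notMem hy]
  set q := q0 N (push e χ) (push e fun p => χ p ^ 2 * V p) with hq
  have hqs : N.Sm q := sm_q0 hw.sm hV1
  set δ := s / (8 * B) with hδ
  have hδ0 : 0 < δ := by positivity
  obtain ⟨y, hy, hyq, hy0⟩ := hL d κ Y N inferInstance (fun p => q p + δ) δ
    (hqs.add (sm_const δ)) hδ0 (fun z hz => by
      have h2 := form_Y hw.sm hV1 hz hw1 (transfer hx h.form hχ hs hz)
      have h3 : ∀ p, N.pre.gam z z p + (q p + δ) * z p ^ 2 =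
          (N.pre.gam z z p + q p * z p ^ 2) + δ * z p ^ 2 := fun p => by ring
      simp only [h3]
      rw [integral_add (int ((hz.gam hz).add (hqs.mul (hz.pow 2))))
        ((int (hz.pow 2)).const_mul δ), integral_const_mul]
      linarith) (fun _ => 1) (sm_const 1)
  have hy0 := hy0 fun _ => one_pos
  refine ⟨fun p => 2 * Real.log (y p), push e om, fun i => push e fun p => χ p * a i p,
    (sm_const 2).mul (hy.log fun p => (hy0 p).ne'), ho.sm, fun i => (tst (h.sma i)).sm,
    ⟨s / 2, by positivity, fun y' hy' => ?_⟩, ?_⟩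
  · have ht : y' ∈ e.target := by
      by_contra ht
      exact hy' (indicator_of_notMem ht _)
    obtain ⟨p, hp, rfl⟩ : ∃ p ∈ e.source, e p = y' := ⟨_, e.map_target ht, e.right_inv ht⟩
    rw [push_apply _ hp] at hy'
    have hl := loc_of_mem hx hp
    have hp1 : ∀ᶠ p' in 𝓝 p, χ p' = 1 :=
      eventually_nhdsSet_iff_forall.1 h1 p (subset_tsupport _ hy')
    have hχp : χ p = 1 := hp1.self_of_nhds
    have hsrc := e.open_source.mem_nhds hp
    -- the cost
    have hc : ∀ i, N.cost (push e om) (push e fun p => χ p * a i p) (e p) = M.cost om (a i) p := by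
      intro i
      have e1 : (fun p' => push e om (e p') ^ 2) =ᶠ[𝓝 p] fun p' => om p' ^ 2 := by
        filter_upwards [hsrc] with p' hp'
        rw [push_apply _ hp']
      have e2 : (fun p' => push e (fun p => χ p * a i p) (e p')) =ᶠ[𝓝 p] a i := by
        filter_upwards [hsrc, hp1] with p' hp' h1'
        rw [push_apply _ hp', h1', one_mul]
      rw [← hl.cost_iso]
      simp only [Imm.cost, D_congr e1, D_congr e2, push_apply _ hp, hχp, one_mul]
    -- the potential
    have hqp : q (e p) = (N.pre.scal (e p) - V p) / 4 := by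
      have e1 : (fun p' => push e χ (e p')) =ᶠ[𝓝 p] fun _ => 1 := by
        filter_upwards [hsrc, hp1] with p' hp' h1'
        rw [push_apply _ hp', h1']
      have e2 : (fun p' => push e χ (e p') ^ 2) =ᶠ[𝓝 p] fun _ => 1 :=
        e1.mono fun p' h' => by simp only at h' ⊢; rw [h', one_pow]
      rw [hq, q0, ← hl.gam_iso, ← hl.lap_iso, gam_congr e1 e1, lap_congr e2, lap_const,
        push_apply _ hp, push_apply _ hp, hχp]
      simp [gam_apply, D_const]
    have hE : V p - 4 * δ ≤ N.pre.EF (fun p => 2 * Real.log (y p)) (e p) := by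
      have h2 := hyq (e p)
      have h3 : N.pre.lap y (e p) / y (e p) ≤ q (e p) + δ := by
        rw [div_le_iff₀ (hy0 _)]
        linarith
      rw [EF_log hy hy0]
      linarith
    have h2 := hI p hy'
    have h3 := hb (e p)
    have h5 : 4 * δ * B = s / 2 := by rw [hδ]; field_simp; norm_num
    simp only [hc, push_apply _ hp, hχp, one_mul] at h3 ⊢
    have h6 := mul_le_mul_of_nonneg_right hE (by positivity : 0 ≤ om p ^ 4)
    have h7 := mul_le_mul_of_nonneg_left h3 (by positivity : 0 ≤ 4 * δ)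
    nlinarith
  · refine h4 X Y d (e.restrOpen (interior {p | χ p = 1}) isOpen_interior) om a _ _ h.smo.cs
      (fun p hp => ⟨hK hp, mem_interior_iff_mem_nhds.2 (eventually_nhdsSet_iff_forall.1 h1 p hp)⟩)
      (fun i => (h.sma i).continuous) (fun p hp => ?_) h.ess
    have hp1 : χ p = 1 := interior_subset (s := {p | χ p = 1}) hp.2
    refine ⟨push_apply _ hp.1, fun i => (push_apply _ hp.1).trans ?_⟩
    rw [hp1, one_mul]

end Cl

theorem close (hD : DblStmt) (hL : LinAStmt) (h4 : Ess4Stmt) : CloseStmt := by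
  intro d ι _ _ X _ _ _ _ _ M V om a h
  obtain ⟨Y, _, _, _, _, _, _, N, e, c, hK, hx⟩ := hD d ι X M _ h.smo.cs
  have h' : (M.pad c).FormData V om a := by
    refine ⟨h.smV, ⟨h.smo.sm, h.smo.cs⟩, h.sma, fun z hz => ?_, ?_, h.ess⟩
    · rw [M.pad_gam, M.pad_scal, M.pad_mu]
      exact h.form z ⟨hz.sm, hz.cs⟩
    · simpa only [Imm.Ineq, M.pad_cost] using h.ineq
  exact ⟨Option ι, _, _, Y, _, inferInstance, inferInstance, _, inferInstance, N, inferInstance,
    Cl.core hL h4 (M := M.pad c) hx h' hK⟩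

end Crest.Agent.N222

end
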