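import Crest.Agent.N222.B.Defs

/-!
# Row 222, part B, ε-regularity block (helper16): basic facts
kernel `Phi`, splitting `ℝ^(d+1) = ℝ n ⊕ n^⊥`, supports and integrability for `LimV`.
-/

set_option autoImplicit false
set_option linter.unusedSectionVars false
open MeasureTheory Set Filter Topology Function Metric
open scoped ContDiff InnerProductSpace RealInnerProductSpace

noncomputable section

namespace Crest.Agent.N222.EP

/-! ### the kernel -/

theorem Phi_nonneg (s : ℝ) : 0 ≤ Phi s := Real.smoothTransition.nonneg _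
theorem Phi_le_one (s : ℝ) : Phi s ≤ 1 := Real.smoothTransition.le_one _
theorem Phi_anti : Antitone Phi := fun _ _ h => Real.smoothTransition.monotone (by linarith)
theorem Phi_of_le {s : ℝ} (h : s ≤ 1 / 2) : Phi s = 1 :=
  Real.smoothTransition.one_of_one_le (by linarith)
theorem Phi_of_ge {s : ℝ} (h : 1 ≤ s) : Phi s = 0 :=
  Real.smoothTransition.zero_of_nonpos (by linarith)
theorem Phi_pos {s : ℝ} (h : s < 1) : 0 < Phi s := Real.smoothTransition.pos_of_pos (by linarith)
@[fun_prop] theorem contDiff_Phi {n : ℕ∞} : ContDiff ℝ n Phi :=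
  Real.smoothTransition.contDiff.comp (contDiff_const.mul (contDiff_const.sub contDiff_id))
@[fun_prop] theorem continuous_Phi : Continuous Phi := (contDiff_Phi (n := 0)).continuous

section
variable {F : Type} [NormedAddCommGroup F]

theorem Phi_ball_zero {y c : F} {r : ℝ} (hr : 0 < r) (h : r ≤ ‖y - c‖) :
    Phi (‖y - c‖ ^ 2 / r ^ 2) = 0 :=
  Phi_of_ge ((one_le_div (by positivity)).2 (pow_le_pow_left₀ hr.le h 2))

theorem Phi_ball_one {y c : F} {r : ℝ} (hr : 0 < r) (h : ‖y - c‖ ≤ r / 2) :
    Phi (‖y - c‖ ^ 2 / r ^ 2) = 1 :=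
  Phi_of_le (by
    rw [div_le_iff₀ (by positivity)]
    nlinarith [pow_le_pow_left₀ (norm_nonneg _) h 2])

theorem hcs_of_norm [ProperSpace F] {G : Type} [Zero G] {f : F → G} (R : ℝ)
    (h : ∀ y, R < ‖y‖ → f y = 0) : HasCompactSupport f :=
  HasCompactSupport.intro (isCompact_closedBall 0 R) fun y hy =>
    h y (by simpa using hy)

theorem exists_norm_of_hcs {G : Type} [Zero G] {f : F → G} (h : HasCompactSupport f) :
    ∃ R : ℝ, 0 < R ∧ ∀ y, R ≤ ‖y‖ → f y = 0 := by
  obtain ⟨R, hR, h1⟩ := h.isCompact.isBounded.exists_pos_norm_lt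
  exact ⟨R, hR, fun y hy => image_eq_zero_of_notMem_tsupport fun h2 => (h1 y h2).not_ge hy⟩

theorem hcs_Phi [ProperSpace F] (c : F) {r : ℝ} (hr : 0 < r) :
    HasCompactSupport fun y => Phi (‖y - c‖ ^ 2 / r ^ 2) :=
  hcs_of_norm (r + ‖c‖) fun y hy => Phi_ball_zero hr (by linarith [norm_sub_norm_le y c])

end

theorem contDiff_Phi_ball {F : Type} [NormedAddCommGroup F] [InnerProductSpace ℝ F] (c : F)
    (r : ℝ) : ContDiff ℝ ∞ fun y => Phi (‖y - c‖ ^ 2 / r ^ 2) :=
  contDiff_Phi.comp (((contDiff_id.sub contDiff_const).norm_sq ℝ).div_const _)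

theorem cPhi_pos (d : ℕ) : 0 < cPhi d := by
  have h : HasCompactSupport fun z : E (Fin d) => Phi (‖z‖ ^ 2) := by
    simpa using hcs_Phi (0 : E (Fin d)) one_pos
  refine Continuous.integral_pos_of_hasCompactSupport_nonneg_nonzero (x := 0) (by fun_prop) h
    (fun _ => Phi_nonneg _) ?_
  rw [Phi_of_le (by simp)]; exact one_ne_zero

/-! ### splitting -/

variable {d : ℕ}

/-- the ambient space of a blow-up limit -/
abbrev Y (d : ℕ) : Type := E (Fin (d + 1))

/-- a unit vector and an isometric parametrisation of its orthogonal complement -/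
structure Split (n : Y d) (J : E (Fin d) →ₗᵢ[ℝ] Y d) : Prop where
  unit : ‖n‖ = 1
  orth : ∀ z, ⟪n, J z⟫ = 0

theorem exists_split {n : Y d} (hn : ‖n‖ = 1) : ∃ J, Split n J := by
  have : Fact (Module.finrank ℝ (Y d) = d + 1) := ⟨by simp⟩
  have h0 : n ≠ 0 := fun h => by simp [h] at hn
  refine ⟨(Submodule.orthogonal (ℝ ∙ n)).subtypeₗᵢ.comp
    (OrthonormalBasis.fromOrthogonalSpanSingleton d h0).repr.symm.toLinearIsometry, hn,
    fun z => ?_⟩
  exact Submodule.mem_orthogonal_singleton_iff_inner_right.1 (Subtype.property _)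

namespace Split
variable {n : Y d} {J : E (Fin d) →ₗᵢ[ℝ] Y d} (h : Split n J)
include h

theorem inner_self : ⟪n, n⟫ = 1 := by rw [real_inner_self_eq_norm_sq, h.unit, one_pow]

theorem inner_apply (s : ℝ) (z : E (Fin d)) : ⟪n, s • n + J z⟫ = s := by
  rw [inner_add_right, inner_smul_right, h.inner_self, h.orth, mul_one, add_zero]

theorem norm_sq (s : ℝ) (z : E (Fin d)) : ‖s • n + J z‖ ^ 2 = s ^ 2 + ‖z‖ ^ 2 := by
  rw [norm_add_sq_real, inner_smul_left, h.orth, norm_smul, h.unit, J.norm_map]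
  simp

/-- the isometry `ℝ × ℝ^d ≃ ℝ^(d+1)` -/
def eqv : WithLp 2 (ℝ × E (Fin d)) ≃ₗᵢ[ℝ] Y d :=
  LinearIsometry.toLinearIsometryEquiv
    { toFun p := p.fst • n + J p.snd
      map_add' p q := by simp only [WithLp.add_fst, WithLp.add_snd, add_smul, map_add]; abel
      map_smul' c p := by
        simp only [WithLp.smul_fst, WithLp.smul_snd, smul_eq_mul, mul_smul, map_smul, smul_add,
          RingHom.id_apply]
      norm_map' p := by
        refine (sq_eq_sq₀ (norm_nonneg _) (norm_nonneg _)).1 ?_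
        rw [WithLp.prod_norm_sq_eq_of_L2, Real.norm_eq_abs, sq_abs]
        exact h.norm_sq _ _ }
    (by rw [(WithLp.linearEquiv 2 ℝ (ℝ × E (Fin d))).finrank_eq]; simp [add_comm])

theorem surj (y : Y d) : ∃ z, y = ⟪n, y⟫ • n + J z := by
  obtain ⟨p, rfl⟩ := h.eqv.surjective y
  refine ⟨p.snd, ?_⟩
  change p.fst • n + J p.snd = ⟪n, p.fst • n + J p.snd⟫ • n + J p.snd
  rw [h.inner_apply]

theorem mem_range {y : Y d} (hy : ⟪n, y⟫ = 0) : ∃ z, J z = y := by
  obtain ⟨z, hz⟩ := h.surj y
  exact ⟨z, by rw [hz, hy, zero_smul, zero_add]⟩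

theorem mp : MeasurePreserving (fun p : ℝ × E (Fin d) => p.1 • n + J p.2) (volume.prod volume)
    volume := h.eqv.measurePreserving.comp (WithLp.volume_preserving_toLp ℝ (E (Fin d)))

theorem integral_prod (f : Y d → ℝ) :
    ∫ y, f y = ∫ p : ℝ × E (Fin d), f (p.1 • n + J p.2) ∂volume.prod volume :=
  (h.mp.integral_comp (h.eqv.toMeasurableEquiv.measurableEmbedding.comp
    (MeasurableEquiv.toLp 2 (ℝ × E (Fin d))).measurableEmbedding) f).symm

theorem integrable_prod {f : Y d → ℝ} (hf : Integrable f) :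
    Integrable (fun p : ℝ × E (Fin d) => f (p.1 • n + J p.2)) (volume.prod volume) :=
  (h.mp.integrable_comp hf.1).2 hf

/-- Fubini along the normal -/
theorem integral_eq {f : Y d → ℝ} (hf : Integrable f) :
    ∫ y, f y = ∫ s : ℝ, ∫ z, f (s • n + J z) := by
  rw [h.integral_prod, MeasureTheory.integral_prod _ (h.integrable_prod hf)]

theorem integral_eq' {f : Y d → ℝ} (hf : Integrable f) :
    ∫ y, f y = ∫ z, ∫ s : ℝ, f (s • n + J z) := by
  rw [h.integral_prod, integral_prod_symm _ (h.integrable_prod hf)]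

end Split

/-- restriction to a plane has compact support -/
theorem hcs_plane {f : Y d → ℝ} (hf : HasCompactSupport f) (y : Y d)
    (J : E (Fin d) →ₗᵢ[ℝ] Y d) : HasCompactSupport fun z => f (y + J z) := by
  obtain ⟨R, -, h⟩ := exists_norm_of_hcs hf
  refine hcs_of_norm (R + ‖y‖) fun z hz => h _ ?_
  have := norm_sub_norm_le (J z) (-y)
  rw [J.norm_map, norm_neg, sub_neg_eq_add, add_comm (J z)] at this
  linarith

/-- affine hyperplanes are null -/
theorem ae_inner_ne {F : Type} [NormedAddCommGroup F] [InnerProductSpace ℝ F]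
    [FiniteDimensional ℝ F] [MeasurableSpace F] [BorelSpace F] {w : F} {c : ℝ}
    (h : w ≠ 0 ∨ c ≠ 0) : ∀ᵐ z : F, ⟪w, z⟫ ≠ c := by
  by_cases hw : w = 0
  · exact .of_forall fun z => by simpa [hw, eq_comm] using h
  · have h1 := Measure.addHaar_affineSubspace (volume : Measure F)
      (AffineSubspace.mk' ((c / ‖w‖ ^ 2) • w) (ℝ ∙ w)ᗮ) fun h1 => by
        have h2 := congrArg AffineSubspace.direction h1
        rw [AffineSubspace.direction_mk', AffineSubspace.direction_top] at h2
        have h3 : w ∈ (ℝ ∙ w)ᗮ := h2 ▸ Submodule.mem_top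
        exact hw (inner_self_eq_zero.1 (Submodule.mem_orthogonal_singleton_iff_inner_right.1 h3))
    refine measure_mono_null (fun z hz => ?_) h1
    have hz' : ⟪w, z⟫ = c := not_not.1 hz
    rw [SetLike.mem_coe, AffineSubspace.mem_mk', Submodule.mem_orthogonal_singleton_iff_inner_right,
      vsub_eq_sub, inner_sub_right, inner_smul_right, real_inner_self_eq_norm_sq, hz',
      div_mul_cancel₀ _ (pow_pos (norm_pos_iff.2 hw) 2).ne', sub_self]

/-! ### supports -/

section Supp
variable {F : Type} [NormedAddCommGroup F] [MeasurableSpace F] [BorelSpace F]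
  [SecondCountableTopology F] {V : Measure (F × F)}

theorem inSupp_iff {y : F} : InSupp V y ↔ y ∈ (V.map Prod.fst).support := by
  rw [Metric.nhds_basis_ball.mem_measureSupport]
  refine forall₂_congr fun ε _ => ?_
  rw [Measure.map_apply measurable_fst measurableSet_ball, prod_univ]

theorem ae_inSupp (V : Measure (F × F)) : ∀ᵐ q ∂V, InSupp V q.1 := by
  simp only [inSupp_iff]
  exact ae_of_ae_map measurable_fst.aemeasurable Measure.support_mem_ae

theorem inSupp_of_mem_support {q : F × F} (h : q ∈ V.support) : InSupp V q.1 := fun _ hε =>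
  (Measure.mem_support_iff_forall q).1 h _ (prod_mem_nhds (ball_mem_nhds _ hε) univ_mem)

end Supp

variable {V : Measure (Y d × Y d)}

/-- continuous functions with bounded support in the position are integrable -/
theorem _root_.Crest.Agent.N222.LimV.integrable (H : LimV d V) {g : Y d × Y d → ℝ} (hg : Continuous g) (R : ℝ)
    (h0 : ∀ q, R < ‖q.1‖ → g q = 0) : Integrable g V := by
  obtain ⟨K, hK⟩ := H.fin
  obtain ⟨C, hC⟩ := ((isCompact_closedBall (0 : Y d) (|R| + 1)).prod
    (isCompact_closedBall (0 : Y d) 1)).exists_bound_of_continuousOn hg.continuousOn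
  have hm : MeasurableSet (closedBall (0 : Y d) (|R| + 1) ×ˢ (univ : Set (Y d))) :=
    measurableSet_closedBall.prod .univ
  refine Integrable.mono' ((integrable_indicator_iff hm).2 (integrableOn_const
    ((hK 0 _ (by positivity)).trans_lt ENNReal.ofReal_lt_top).ne (C := C)))
    hg.aestronglyMeasurable ?_
  filter_upwards [H.unit] with q hq
  by_cases h1 : q.1 ∈ closedBall (0 : Y d) (|R| + 1)
  · rw [indicator_of_mem (mk_mem_prod h1 (mem_univ _))]
    exact hC q ⟨h1, by simp [hq]⟩
  · rw [indicator_of_notMem fun h => h1 h.1, h0 q, norm_zero]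
    rw [mem_closedBall_zero_iff, not_le] at h1
    linarith [le_abs_self R]

theorem _root_.Crest.Agent.N222.LimV.integrable_fst (H : LimV d V) {f : Y d → ℝ} (hf : Continuous f)
    (hc : HasCompactSupport f) : Integrable (fun q => f q.1) V := by
  obtain ⟨R, -, h⟩ := exists_norm_of_hcs hc
  exact H.integrable (hf.comp continuous_fst) R fun q hq => h _ hq.le

end Crest.Agent.N222.EP

end
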