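import Crest.Agent.N222.B.E1

/-!
# Row 222, part B, ε-regularity block (helper16): projections, moving test functions,
the kernel `Psi`, derivatives on graphs, mean value inequality on graphs
-/

set_option autoImplicit false
set_option linter.unusedSectionVars false
open MeasureTheory Set Filter Topology Function Metric
open scoped ContDiff InnerProductSpace RealInnerProductSpace

noncomputable section

namespace Crest.Agent.N222.EP

variable {d : ℕ} {ι : Type} [Fintype ι] [DecidableEq ι] {X : Type} [TopologicalSpace X]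
  [T2Space X] [SecondCountableTopology X] [MeasurableSpace X] [BorelSpace X] [CompactSpace X]
  {M : Imm d ι X} {u : X → ℝ} {C : ℝ}

/-! ### the projection `PbL` -/

theorem inner_eq_up (w w' : E (Option ι)) : ⟪w, w'⟫ = w none * w' none + ⟪down w, down w'⟫ := by
  rw [← inner_up, up_down, up_down]

theorem PbL_symm (p : X) (w w' : E (Option ι)) : ⟪M.PbL p w, w'⟫ = ⟪w, M.PbL p w'⟫ := by
  rw [inner_eq_up, inner_eq_up w]
  exact congrArg _ (M.PL_symm p (down w) (down w'))

theorem PbL_PbL (p : X) (w : E (Option ι)) : M.PbL p (M.PbL p w) = M.PbL p w :=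
  congrArg (up (w none)) (M.PL_PL p (down w))

theorem continuous_PbL (M : Imm d ι X) :
    Continuous fun s : X × E (Option ι) => M.PbL s.1 s.2 :=
  contDiff_up.continuous.comp₂ (by fun_prop) ((M.sm_PL.continuous.comp continuous_fst).clm_apply
    (contDiff_down.continuous.comp continuous_snd))

/-! ### the adjoint of an isometry -/

section Adj
variable {F G : Type} [NormedAddCommGroup F] [InnerProductSpace ℝ F] [FiniteDimensional ℝ F]
  [NormedAddCommGroup G] [InnerProductSpace ℝ G] [FiniteDimensional ℝ G]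

/-- the adjoint -/
def Ls (L : F →ₗᵢ[ℝ] G) : G →L[ℝ] F :=
  LinearMap.toContinuousLinearMap (LinearMap.adjoint L.toLinearMap)

variable (L : F →ₗᵢ[ℝ] G)

theorem inner_Ls (y : G) (z : F) : ⟪Ls L y, z⟫ = ⟪y, L z⟫ :=
  LinearMap.adjoint_inner_left L.toLinearMap z y

theorem Ls_L (z : F) : Ls L (L z) = z :=
  ext_inner_right ℝ fun v => by rw [inner_Ls, L.inner_map_map]

theorem norm_Ls_le (y : G) : ‖Ls L y‖ ≤ ‖y‖ := by
  have h := (inner_Ls L y (Ls L y)).trans_le (real_inner_le_norm _ _)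
  rw [real_inner_self_eq_norm_mul_norm, L.norm_map] at h
  rcases (norm_nonneg (Ls L y)).eq_or_lt with h0 | h0
  · rw [← h0]; exact norm_nonneg _
  · exact le_of_mul_le_mul_right h h0

/-- transversal cut-off, `1` on the range of `L` -/
def cut (y : G) : ℝ := Phi (‖y - L (Ls L y)‖ ^ 2)

theorem cut_L (z : F) : cut L (L z) = 1 := by
  rw [cut, Ls_L, sub_self, norm_zero]; exact Phi_of_le (by norm_num)

theorem contDiff_cut : ContDiff ℝ ∞ (cut L) :=
  contDiff_Phi.comp ((contDiff_id.sub (L.toContinuousLinearMap.contDiff.comp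
    (Ls L).contDiff)).norm_sq ℝ)

theorem cut_nonneg (y : G) : 0 ≤ cut L y := Phi_nonneg _

theorem norm_le_of_cut {y : G} (h : cut L y ≠ 0) : ‖y‖ ≤ ‖Ls L y‖ + 1 := by
  have h1 : ‖y - L (Ls L y)‖ ≤ 1 := by
    by_contra h1
    exact h (Phi_of_ge (one_le_pow₀ (not_le.1 h1).le))
  have h2 := norm_sub_norm_le y (L (Ls L y))
  rw [L.norm_map] at h2
  linarith

end Adj

/-! ### moving test functions -/

theorem ev_unif {Z S : Type} [TopologicalSpace Z] [TopologicalSpace S] {G : Z × S → ℝ}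
    (hG : Continuous G) {K : Set S} (hK : IsCompact K) (z0 : Z) {ε : ℝ} (hε : 0 < ε) :
    ∀ᶠ z in 𝓝 z0, ∀ s ∈ K, |G (z, s) - G (z0, s)| ≤ ε :=
  hK.eventually_forall_of_forall_eventually fun s _ => by
    have h3 : Continuous fun t : Z × S => |G (t.1, t.2) - G (z0, t.2)| := by fun_prop
    exact (h3.tendsto (z0, s)).eventually_le_const (by simpa using hε)

section Seq
variable {α : Type} {l : Filter α} {u : α → X → ℝ} {p : α → X} {r : α → ℝ}

theorem tendsto_bl_move (hu : ∀ j, M.Sm (u j)) (hA : ∀ j, Area M C (u j))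
    (hr : Tendsto r l (𝓝[>] 0)) {Z : Type} [TopologicalSpace Z]
    {G : Z × E (Option ι) × E (Option ι) → ℝ} (hG : Continuous G) {z : α → Z} {z0 : Z}
    (hz : Tendsto z l (𝓝 z0)) (R : ℝ) (h0 : ∀ᶠ j in l, ∀ s, R < ‖s.1‖ → G (z j, s) = 0)
    (h1 : ∀ s, R < ‖s.1‖ → G (z0, s) = 0) :
    Tendsto (fun j => bl M (u j) (r j) (fun q => G (z j, ry M (u j) (p j) (r j) q, M.nuv (u j) q))
      - bl M (u j) (r j) fun q => G (z0, ry M (u j) (p j) (r j) q, M.nuv (u j) q)) l (𝓝 0) := by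
  have hc : ∀ j z, Continuous fun q => G (z, ry M (u j) (p j) (r j) q, M.nuv (u j) q) :=
    fun j z => hG.comp (continuous_const.prodMk
      ((continuous_ry (hu j) _ _).prodMk (hu j).nuv.continuous))
  simp only [← bl_sub (hu _) (hc _ _) (hc _ _)]
  refine tendsto_bl_zero (p := p) hu hA hr R (fun ε hε => ?_) ?_
  · have hK : IsCompact (closedBall (0 : E (Option ι)) R ×ˢ closedBall (0 : E (Option ι)) 1) :=
      (isCompact_closedBall _ _).prod (isCompact_closedBall _ _)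
    filter_upwards [hz.eventually (ev_unif hG hK z0 hε)] with j hj q hq
    exact hj _ ⟨mem_closedBall_zero_iff.2 hq,
      mem_closedBall_zero_iff.2 (Imm.norm_nuv (hu j) q).le⟩
  · filter_upwards [h0] with j hj q hq
    rw [hj (ry M (u j) (p j) (r j) q, _) hq, h1 (ry M (u j) (p j) (r j) q, _) hq, sub_zero]

end Seq

namespace Out
variable {𝒰 : Ultrafilter ℕ} {u : ℕ → X → ℝ} {p : ℕ → X} {r : ℕ → ℝ} {p0 : X}
  {L : Y d →ₗᵢ[ℝ] E (Option ι)} {V : Measure (Y d × Y d)} (O : Out M 𝒰 u p r p0 L V)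
include O

theorem move (hu : ∀ j, M.Sm (u j)) (hA : ∀ j, Area M C (u j))
    (hr : Tendsto r 𝒰 (𝓝[>] 0)) {Z : Type} [TopologicalSpace Z]
    {G : Z × E (Option ι) × E (Option ι) → ℝ} (hG : Continuous G) {z : ℕ → Z} {z0 : Z}
    (hz : Tendsto z 𝒰 (𝓝 z0)) (R : ℝ)
    (h0 : ∀ᶠ j in (𝒰 : Filter ℕ), ∀ s, R < ‖s.1‖ → G (z j, s) = 0)
    (h1 : ∀ s, R < ‖s.1‖ → G (z0, s) = 0) :
    Tendsto (fun j => bl M (u j) (r j) fun q => G (z j, ry M (u j) (p j) (r j) q, M.nuv (u j) q))
      𝒰 (𝓝 (∫ q, G (z0, L q.1, L q.2) ∂V)) := by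
  have := (tendsto_bl_move (p := p) hu hA hr hG hz R h0 h1).add
    (O.conv (fun s => G (z0, s)) R (by fun_prop) h1)
  simpa using this

theorem PbL_L (y : Y d) : M.PbL p0 (L y) = L y := (O.ran _).2 ⟨y, rfl⟩

theorem tendsto_gTh (hr : Tendsto r 𝒰 (𝓝[>] 0)) :
    Tendsto (fun j => M.gTh (u j) (M.gx (u j) (p j)) (r j)) 𝒰 (𝓝 (∫ q, Phi (‖q.1‖ ^ 2) ∂V)) := by
  have h := O.conv (fun s => Phi (‖s.1‖ ^ 2)) 1 (by fun_prop)
    fun s hs => Phi_of_ge (one_le_pow₀ hs.le)
  simp only [L.norm_map] at h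
  refine h.congr' ?_
  filter_upwards [ev_pos hr] with j hj
  simp only [Imm.gTh, bl, norm_ry hj, div_pow]

/-- the end of the proofs of FL and FL2 -/
theorem no_plane (h1 : LV1Stmt) (hr : Tendsto r 𝒰 (𝓝[>] 0)) {ε : ℝ} (hε : 0 < ε)
    (h : ∀ j, (1 + ε) * cPhi d < M.gTh (u j) (M.gx (u j) (p j)) (r j)) {n : Y d} (hn : n ≠ 0)
    (hs : ∀ y, InSupp V y → ⟪n, y⟫ = 0) : False := by
  have h2 := (ge_of_tendsto' (O.tendsto_gTh hr) fun j => (h j).le).trans (h1 d V O.lim n hn hs)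
  nlinarith [cPhi_pos d]

end Out

/-! ### the kernel `Psi` -/

theorem hasDerivAt_Psi (s : ℝ) : HasDerivAt Psi (-Phi s) s :=
  intervalIntegral.integral_hasDerivAt_left (continuous_Phi.intervalIntegrable _ _)
    (continuous_Phi.stronglyMeasurableAtFilter _ _) continuous_Phi.continuousAt

theorem contDiff_Psi : ContDiff ℝ 1 Psi :=
  contDiff_one_iff_deriv.2 ⟨fun s => (hasDerivAt_Psi s).differentiableAt, by
    rw [show deriv Psi = fun s => -Phi s from funext fun s => (hasDerivAt_Psi s).deriv]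
    exact continuous_Phi.neg⟩

theorem Psi_of_ge {s : ℝ} (h : 1 ≤ s) : Psi s = 0 := by
  rw [Psi, intervalIntegral.integral_congr (g := fun _ => 0), intervalIntegral.integral_zero]
  intro t ht
  rw [uIcc_of_ge h] at ht
  exact Phi_of_ge ht.1

theorem Psi_nonneg (s : ℝ) : 0 ≤ Psi s := by
  rcases le_total 1 s with h | h
  · exact (Psi_of_ge h).ge
  · exact intervalIntegral.integral_nonneg h fun t _ => Phi_nonneg t

theorem Psi_le_Phi {s : ℝ} (hs : 0 ≤ s) : Psi s ≤ Phi s := by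
  rcases le_total 1 s with h | h
  · rw [Psi_of_ge h]; exact Phi_nonneg s
  · have := intervalIntegral.integral_mono_on h (continuous_Phi.intervalIntegrable _ _)
      (intervalIntegrable_const (c := Phi s) (μ := volume)) fun t ht => Phi_anti ht.1
    rw [intervalIntegral.integral_const, smul_eq_mul] at this
    exact this.trans (by nlinarith [Phi_nonneg s])

/-! ### calculus on the graph -/

variable {f v : X → ℝ} {p q : X} {r t : ℝ}

theorem g_diffAt (hu : M.Sm u) (hf : M.Sm f) (q : X) : (M.graph u hu).DiffAt f q :=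
  ((Imm.graph_sm hu).2 hf).diffAt q

theorem sm_gD (hu : M.Sm u) (hf : M.Sm f) (a : Option ι) : M.Sm ((M.gS u).D a f) := by
  rw [← Imm.graph_pre hu]; exact ((Imm.graph_sm hu).2 hf).D a

theorem sm_gdv (hu : M.Sm u) {Z : Option ι → X → ℝ} (hZ : ∀ a, M.Sm (Z a)) :
    M.Sm ((M.gS u).dv Z) := by
  rw [← Imm.graph_pre hu]; exact Imm.sm_dv (M := M.graph u hu) hZ

/-- integration by parts on the graph, tangential fields -/
theorem g_ibp (hu : M.Sm u) (hf : (M.graph u hu).C1 f) {Z : Option ι → X → ℝ}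
    (hZ : ∀ a, M.Sm (Z a)) (ht : (M.gS u).Tan Z) :
    ∫ q, f q * (M.gS u).dv Z q ∂M.gmu u = -∫ q, ∑ a, Z a q * (M.gS u).D a f q ∂M.gmu u := by
  rw [← Imm.graph_pre hu] at ht ⊢
  rw [← Imm.graph_mu hu, Imm.integral_mul_dv hf (HasCompactSupport.of_compactSpace f)
    (fun a => Imm.Sm.c1 (M := M.graph u hu) (hZ a)) ht]
  simp only [Imm.dir_apply]

/-- first variation on the graph -/
theorem g_first_var (hu : M.Sm u) (hf : M.Sm f) (w : E (Option ι)) :
    ∫ q, (M.graph u hu).td f q w ∂M.gmu u = -∫ q, ⟪(M.graph u hu).Hv q, w⟫ * f q ∂M.gmu u := by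
  have hf' : (M.graph u hu).Sm f := hf
  have h := fun a => Imm.integral_D hf'.c1 (HasCompactSupport.of_compactSpace f) a
  rw [Imm.graph_mu hu] at h
  simp only [Imm.td_apply]
  rw [integral_finsetSum (f := fun a q => w a * (M.graph u hu).pre.D a f q) _ fun a _ =>
    integrable_gmu hu (continuous_const.mul (hf'.D a).continuous)]
  simp only [integral_const_mul, h, mul_neg, Finset.sum_neg_distrib]
  simp only [← integral_const_mul]
  rw [← integral_finsetSum (f := fun a q => w a * ((M.graph u hu).pre.H a q * f q)) _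
    fun a _ => integrable_gmu hu
    (continuous_const.mul (((M.graph u hu).sm_H a).continuous.mul hf.continuous))]
  congr 2
  funext q
  rw [real_inner_comm, PiLp.inner_apply, Finset.sum_mul]
  refine Finset.sum_congr rfl fun a _ => ?_
  simp only [Imm.Hv, RCLike.inner_apply, conj_trivial]
  ring

theorem td_ry (hu : M.Sm u) (p : X) (r : ℝ) (q : X) (w : E (Option ι)) :
    (M.graph u hu).td (ry M u p r) q w = r⁻¹ • (M.graph u hu).PL q w := by
  have h := Imm.td_comp (M := M.graph u hu) (p := q) ((M.graph u hu).sm_x.diffAt q)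
    (g := fun y => r⁻¹ • (y - M.gx u p)) (by fun_prop)
  have h2 : HasFDerivAt (fun y : E (Option ι) => r⁻¹ • (y - M.gx u p))
      (r⁻¹ • ContinuousLinearMap.id ℝ _) ((M.graph u hu).x q) :=
    ((hasFDerivAt_id _).sub_const _).const_smul r⁻¹
  rw [h2.fderiv] at h
  exact congrArg (fun T : _ →L[ℝ] _ => T w) h

/-- derivative of a function of the rescaled position -/
theorem abs_D_ry_le (hu : M.Sm u) (hr : 0 < r) {φ : E (Option ι) → ℝ}
    (hφ : DifferentiableAt ℝ φ (ry M u p r q)) (a : Option ι) :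
    |(M.gS u).D a (fun q => φ (ry M u p r q)) q| ≤ ‖fderiv ℝ φ (ry M u p r q)‖ / r := by
  rw [← Imm.graph_pre hu]
  change |(M.graph u hu).td _ q (ee a)| ≤ _
  rw [Imm.td_comp (((Imm.graph_sm hu).2 (sm_ry hu p r)).diffAt q) hφ,
    ContinuousLinearMap.comp_apply, td_ry, div_eq_mul_inv]
  refine ((fderiv ℝ φ (ry M u p r q)).le_opNorm _).trans (mul_le_mul_of_nonneg_left ?_
    (norm_nonneg _))
  rw [norm_smul, Real.norm_of_nonneg (inv_pos.2 hr).le]
  refine mul_le_of_le_one_right (inv_pos.2 hr).le ((Imm.norm_PL_le _ _ _).trans_eq ?_)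
  simp

theorem abs_A_le (a c : Option ι) (q : X) : |M.A u a c q| ≤ √(M.a2 u q) := by
  refine Real.abs_le_sqrt ?_
  rw [Imm.a2_apply, sq]
  exact (Finset.single_le_sum (f := fun b => M.A u a b q * M.A u a b q)
    (fun _ _ => mul_self_nonneg _) (Finset.mem_univ c)).trans
    (Finset.single_le_sum (f := fun a => ∑ b, M.A u a b q * M.A u a b q)
      (fun _ _ => Finset.sum_nonneg fun _ _ => mul_self_nonneg _) (Finset.mem_univ a))

theorem abs_D_nu_le (h : M.Sheet C u) (a c : Option ι) (q : X) :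
    |(M.gS u).D a (M.nu u c) q| ≤ √(M.a2 u q) + C := by
  have h1 := abs_sub ((M.gS u).D a (M.nu u c) q + M.A u a c q) (M.A u a c q)
  rw [add_sub_cancel_right] at h1
  linarith [h.dnu a c q, abs_A_le (M := M) (u := u) a c q]

theorem inner_nuv (n : E (Option ι)) (q : X) : ⟪M.nuv u q, n⟫ = ∑ c, n c * M.nu u c q := by
  simp only [Imm.nuv, PiLp.inner_apply, RCLike.inner_apply, conj_trivial]

theorem sm_inner_nuv (hu : M.Sm u) (n : E (Option ι)) : M.Sm fun q => ⟪M.nuv u q, n⟫ :=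
  hu.nuv.comp (g := fun y => ⟪y, n⟫) (contDiff_id.inner ℝ contDiff_const)

theorem D_inner_nuv (hu : M.Sm u) (n : E (Option ι)) (a : Option ι) (q : X) :
    (M.gS u).D a (fun q => ⟪M.nuv u q, n⟫) q = ∑ c, n c * (M.gS u).D a (M.nu u c) q := by
  simp only [inner_nuv]
  rw [← Imm.graph_pre hu, Imm.D_sum _ fun c _ => g_diffAt hu ((Imm.sm_const _).mul (hu.nu c)) q]
  exact Finset.sum_congr rfl fun c _ => Imm.D_const_mul _ (g_diffAt hu (hu.nu c) q) a

/-- the kernels at centre `y` and scale `t` -/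
abbrev ph (M : Imm d ι X) (u : X → ℝ) (y : E (Option ι)) (t : ℝ) (q : X) : ℝ :=
  Phi (‖M.gx u q - y‖ ^ 2 / t ^ 2)

/-- the kernels at centre `y` and scale `t` -/
abbrev ps (M : Imm d ι X) (u : X → ℝ) (y : E (Option ι)) (t : ℝ) (q : X) : ℝ :=
  Psi (‖M.gx u q - y‖ ^ 2 / t ^ 2)

variable {y : E (Option ι)}

theorem sm_ph (hu : M.Sm u) (y : E (Option ι)) (t : ℝ) : M.Sm (ph M u y t) :=
  (Imm.sm_gx hu).comp (contDiff_Phi_ball y t)

theorem c1_ps (hu : M.Sm u) (y : E (Option ι)) (t : ℝ) : (M.graph u hu).C1 (ps M u y t) :=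
  ((Imm.graph_sm hu).2 (Imm.sm_gx hu)).c1_comp (φ := fun z => Psi (‖z - y‖ ^ 2 / t ^ 2))
    (contDiff_Psi.comp (((contDiff_id.sub contDiff_const).norm_sq ℝ).div_const _))

theorem integral_ph (ht : 0 < t) : ∫ q, ph M u y t q ∂M.gmu u = M.gTh u y t * t ^ d := by
  rw [Imm.gTh, div_mul_cancel₀ _ (pow_pos ht d).ne']

theorem lt_of_ph_ne (ht : 0 < t) (h : ph M u y t q ≠ 0) : ‖M.gx u q - y‖ < t :=
  not_le.1 fun h' => h (Phi_ball_zero ht h')

/-- a pointwise bound on the ball gives a bound against the weight -/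
theorem mul_ph_le (ht : 0 < t) {a b : ℝ} (h : ‖M.gx u q - y‖ < t → a ≤ b) :
    a * ph M u y t q ≤ b * ph M u y t q := by
  by_cases h0 : ph M u y t q = 0
  · rw [h0, mul_zero, mul_zero]
  · exact mul_le_mul_of_nonneg_right (h (lt_of_ph_ne ht h0)) (Phi_nonneg _)

theorem abs_D_ps_le (hu : M.Sm u) (ht : 0 < t) (a : Option ι) (q : X) :
    |(M.gS u).D a (ps M u y t) q| ≤ 2 / t * ph M u y t q := by
  have h1 : M.Sm fun q => ‖M.gx u q - y‖ ^ 2 :=
    (Imm.sm_gx hu).comp ((contDiff_id.sub contDiff_const).norm_sq ℝ)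
  have h2 := Imm.D_comp (g_diffAt hu h1 q) (g := fun s => Psi (s / t ^ 2))
    ((hasDerivAt_Psi _).comp _ ((hasDerivAt_id _).div_const (t ^ 2))) a
  have h3 := Imm.D_normSq (M := M.graph u hu) y a q
  rw [Imm.graph_x] at h3
  rw [h3, Imm.graph_pre] at h2
  have h4 : |(M.graph u hu).PL q (M.gx u q - y) a| ≤ ‖M.gx u q - y‖ :=
    (PiLp.norm_apply_le _ a).trans (Imm.norm_PL_le _ _ _)
  refine h2 ▸ ?_
  rw [abs_mul, abs_mul, abs_neg, abs_of_nonneg (Phi_nonneg _), abs_mul, abs_two,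
    abs_of_pos (by positivity : 0 < 1 / t ^ 2)]
  refine le_of_eq_of_le (by ring) (mul_ph_le (a := 1 / t ^ 2 * (2 *
    |(M.graph u hu).PL q (M.gx u q - y) a|)) ht fun h => ?_)
  calc _ ≤ 1 / t ^ 2 * (2 * t) := by gcongr; exact h4.trans h.le
    _ = 2 / t := by field_simp

/-- a bounded field against the gradient of the kernel -/
theorem abs_int_D_ps_le (hu : M.Sm u) (ht : 0 < t) {Z : Option ι → X → ℝ} {B : ℝ}
    (h : ∀ q, ‖M.gx u q - y‖ < t → ∀ a, |Z a q| ≤ B) :
    |∫ q, ∑ a, Z a q * (M.gS u).D a (ps M u y t) q ∂M.gmu u| ≤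
      Fintype.card (Option ι) * B * (2 / t) * (M.gTh u y t * t ^ d) := by
  rw [← integral_ph ht, ← integral_const_mul]
  refine norm_integral_le_of_norm_le (f := fun q => ∑ a, Z a q * (M.gS u).D a (ps M u y t) q)
    (integrable_gmu hu (continuous_const.mul (sm_ph hu y t).continuous)) (.of_forall fun q => ?_)
  refine (Finset.abs_sum_le_sum_abs _ _).trans ((Finset.sum_le_card_nsmul _ _
    (B * (2 / t) * ph M u y t q) fun a _ => ?_).trans_eq ?_)
  · rw [abs_mul]
    refine (mul_le_mul_of_nonneg_left (abs_D_ps_le hu ht a q) (abs_nonneg _)).trans ?_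
    rw [← mul_assoc]
    exact mul_ph_le ht fun hq => mul_le_mul_of_nonneg_right (h q hq a) (by positivity)
  · rw [nsmul_eq_mul, Finset.card_univ]; ring

/-- **mean value inequality on a graph** -/
theorem g_mean_value (hMon : MonStmt) (hMon2 : Mon2Stmt) (hM : Injective M.x) (hu : M.Sm u)
    (hS : M.Sheet C u) (hv : M.Sm v) (h0 : ∀ q, 0 ≤ v q) (p : X) {ρ B K Θ : ℝ} (hρ : 0 < ρ)
    (hK : 0 ≤ K) (hB : ∀ q, ‖M.gx u q - M.gx u p‖ < ρ → v q ≤ B)
    (hΘ : ∀ t, 0 < t → t ≤ ρ → M.gTh u (M.gx u p) t ≤ Θ)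
    (h : ∀ t, 0 < t → t ≤ ρ → ∫ q, ∑ a, (M.gS u).D a v q * (M.gS u).D a (ps M u (M.gx u p) t) q
      ∂M.gmu u ≤ K * (2 / t) * (M.gTh u (M.gx u p) t * t ^ d)) :
    cPhi d * v p - (K + B * C) * Θ * ρ ≤ bl M u ρ fun q => v q * ph M u (M.gx u p) ρ q := by
  have hC : 0 ≤ C := (norm_nonneg _).trans (hS.H p)
  have hB0 : 0 ≤ B := (h0 p).trans (hB p (by simpa using hρ))
  have := mean_value (N := M.graph u hu) hMon hMon2 (Imm.gx_injective hM u) hv h0 p
    (K := (K + B * C) * Θ) hρ fun t ht htρ => by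
      simp only [Imm.gam_apply]
      rw [Imm.graph_mu, Imm.graph_pre, Imm.graph_x]
      have h1 := h t ht htρ
      have h2 : -(B * C * t) * (M.gTh u (M.gx u p) t * t ^ d) ≤ ∫ q, v q * ph M u (M.gx u p) t q *
          ⟪M.gx u q - M.gx u p, (M.graph u hu).Hv q⟫ ∂M.gmu u := by
        rw [← integral_ph ht, ← integral_const_mul]
        refine integral_mono (integrable_gmu hu (continuous_const.mul (sm_ph hu _ t).continuous))
          (integrable_gmu hu ((hv.continuous.mul (sm_ph hu _ t).continuous).mul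
            (((Imm.sm_gx hu).continuous.sub continuous_const).inner
            (Imm.Sm.continuous (Imm.sm_euclid.2 (M.graph u hu).sm_H))))) fun q => ?_
        refine (mul_ph_le (b := v q * ⟪M.gx u q - M.gx u p, (M.graph u hu).Hv q⟫) ht
          fun hq => ?_).trans_eq (by ring)
        have h3 := (abs_real_inner_le_norm _ _).trans
          (mul_le_mul hq.le (graph_Hv_le hu hS q) (norm_nonneg _) ht.le)
        have h4 := mul_le_mul (hB q (hq.trans_le htρ)) h3 (abs_nonneg _) hB0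
        have h5 := mul_le_mul_of_nonneg_left
          (neg_abs_le ⟪M.gx u q - M.gx u p, (M.graph u hu).Hv q⟫) (h0 q)
        linarith
      have h3 := mul_le_mul_of_nonneg_left h1 (by positivity : 0 ≤ t ^ 2 / 2)
      have h4 : t ^ 2 / 2 * (K * (2 / t) * (M.gTh u (M.gx u p) t * t ^ d)) =
        K * t * (M.gTh u (M.gx u p) t * t ^ d) := by field_simp
      have h5 := mul_le_mul_of_nonneg_left (hΘ t ht htρ)
        (by positivity : 0 ≤ (K + B * C) * t ^ (d + 1))
      rw [pow_succ] at h5 ⊢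
      linarith
  rwa [Imm.Th, Imm.graph_mu] at this

end Crest.Agent.N222.EP

end
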