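import Crest.Agent.N222.B.Defs2
import Crest.Agent.N222.F.Graph
import Crest.Agent.N222.F.Bump

/-!
# Row 222, part B: EMB (immersed to embedded) (helper67)

Small graphs over finitely many separating functions keep the pointwise class.
-/

set_option autoImplicit false
set_option linter.unusedSectionVars false
open MeasureTheory Set Filter Topology Function Metric
open scoped ContDiff InnerProductSpace RealInnerProductSpace

noncomputable section

namespace Crest.Agent.N222

namespace Em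

open Imm

variable {d : ℕ} {ι : Type} [Fintype ι] [DecidableEq ι] {X : Type} [TopologicalSpace X]
  [MeasurableSpace X] {M : Imm d ι X} {u y F : X → ℝ}

theorem exists_pos_le [CompactSpace X] {f : X → ℝ} (hf : Continuous f) :
    ∃ C : ℝ, 0 < C ∧ ∀ p, f p ≤ C := by
  obtain ⟨C, hC⟩ := (isCompact_range hf).bddAbove
  exact ⟨max C 1, lt_max_of_lt_right one_pos, fun p => (hC (mem_range_self p)).trans (le_max_left _ _)⟩

/-- the cost does not increase on a graph -/
theorem cost_le (hu : M.Sm u) (om a : X → ℝ) (p : X) :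
    (M.graph u hu).cost om a p ≤ M.cost om a p := by
  unfold Imm.cost
  rw [graph_pre hu]
  refine mul_le_mul_of_nonneg_left (Real.sqrt_le_sqrt ?_) (by norm_num)
  set ψ : X → ℝ := fun q => om q ^ 2 with hψ
  set W : ι → ℝ := fun c => om p ^ 2 * M.pre.D c a p - a p * M.pre.D c ψ p with hW
  set T : ℝ := ∑ c, M.Xf u c p * W c with hT
  have hT' : om p ^ 2 * M.pre.dir (M.Xf u) a p - a p * M.pre.dir (M.Xf u) ψ p = T := by
    rw [dir_apply, dir_apply, Finset.mul_sum, Finset.mul_sum, ← Finset.sum_sub_distrib]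
    exact Finset.sum_congr rfl fun c _ => by simp only [hW]; ring
  have h0 : (om p ^ 2 * (M.gS u).D none a p - a p * (M.gS u).D none ψ p) ^ 2 =
      M.vv u p ^ 2 * T ^ 2 := by
    simp only [gS_D_apply, Option.elim, nu_none, ← hT']; ring
  have h1 : ∀ c, (om p ^ 2 * (M.gS u).D (some c) a p - a p * (M.gS u).D (some c) ψ p) ^ 2 =
      W c ^ 2 - 2 * T * (M.Xf u c p * W c) + T ^ 2 * (M.Xf u c p * M.Xf u c p) := fun c => by
    have : om p ^ 2 * (M.gS u).D (some c) a p - a p * (M.gS u).D (some c) ψ p =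
        W c - M.Xf u c p * T := by
      simp only [gS_D_apply, Option.elim, nu_some, ← hT', hW]; ring
    rw [this]; ring
  rw [Fintype.sum_option, h0, Finset.sum_congr rfl fun c _ => h1 c, Finset.sum_add_distrib,
    Finset.sum_sub_distrib, ← Finset.mul_sum, ← Finset.mul_sum, sum_Xf_sq, ← hT]
  nlinarith [sq_nonneg T]

theorem hess_const_mul (hy : M.Sm y) (ε : ℝ) (a b : ι) (p : X) :
    M.pre.hess (fun q => ε * y q) a b p = ε * M.pre.hess y a b p := by
  rw [hess_apply, hess_apply, Finset.mul_sum]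
  refine Finset.sum_congr rfl fun c _ => ?_
  have : M.pre.D c (fun q => ε * y q) = fun q => ε * M.pre.D c y q :=
    funext fun q => D_const_mul ε (hy.diffAt q) c
  rw [this, D_const_mul ε ((hy.D c).diffAt p)]; ring

theorem sm_mul (hy : M.Sm y) (ε : ℝ) : M.Sm fun q => ε * y q := (sm_const ε).mul hy

theorem abs_A_le (hy : M.Sm y) {ε : ℝ} (hε : 0 ≤ ε) (a b : Option ι) (p : X) :
    |M.A (fun q => ε * y q) a b p| ≤ ε * ∑ c, ∑ e, |M.pre.hess y c e p| := by
  have hu := sm_mul hy ε
  have hP : ∀ a b, |(M.gS fun q => ε * y q).P a b p| ≤ 1 := fun a b => by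
    rw [← graph_pre hu]; exact abs_P_le _ a b p
  rw [A_eq hu, abs_mul, abs_of_pos (vv_pos _ _ _)]
  refine (mul_le_of_le_one_left (abs_nonneg _) (vv_le_one _ _ _)).trans ?_
  rw [Finset.mul_sum]
  refine (Finset.abs_sum_le_sum_abs _ _).trans (Finset.sum_le_sum fun c _ => ?_)
  rw [Finset.mul_sum]
  refine (Finset.abs_sum_le_sum_abs _ _).trans (Finset.sum_le_sum fun e _ => ?_)
  rw [hess_const_mul hy, abs_mul, abs_mul, abs_mul, abs_of_nonneg hε]
  exact mul_le_of_le_one_left (by positivity)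
    (mul_le_one₀ (hP _ _) (abs_nonneg _) (hP _ _))

theorem abs_Xf_le (hy : M.Sm y) {ε : ℝ} (hε : 0 ≤ ε) (a : ι) (p : X) :
    |M.Xf (fun q => ε * y q) a p| ≤ ε * |M.pre.D a y p| := by
  rw [Xf_apply, D_const_mul ε (hy.diffAt p), abs_mul, abs_mul, abs_of_nonneg hε,
    abs_of_pos (vv_pos _ _ _)]
  exact mul_le_of_le_one_left (by positivity) (vv_le_one _ _ _)

/-- the error of the Gauss equation -/
def err (M : Imm d ι X) (F y : X → ℝ) (p : X) : ℝ :=
  (∑ _a : Option ι, ∑ _b : Option ι, (∑ c, ∑ e, |M.pre.hess y c e p|) ^ 2) +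
    2 * ∑ a, ∑ b, |M.pre.Ric a b p - M.pre.hess F a b p| * (|M.pre.D a y p| * |M.pre.D b y p|)

theorem continuous_err (hF : M.Sm F) (hy : M.Sm y) : Continuous (err M F y) := by
  have h1 := fun c e => (hy.hess c e).continuous
  have h2 := fun c e => (hF.hess c e).continuous
  have h3 := fun c e => (M.sm_Ric c e).continuous
  have h4 := fun c => (hy.D c).continuous
  unfold err
  fun_prop

theorem EF_ge (hF : M.Sm F) (hy : M.Sm y) {ε : ℝ} (hε : 0 ≤ ε) (p : X) :
    M.pre.EF F p - ε ^ 2 * err M F y p ≤ (M.graph _ (sm_mul hy ε)).pre.EF F p := by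
  have hu := sm_mul hy ε
  rw [graph_pre hu, gauss hu hF]
  have h1 : M.a2 (fun q => ε * y q) p ≤
      ε ^ 2 * ∑ _a : Option ι, ∑ _b : Option ι, (∑ c, ∑ e, |M.pre.hess y c e p|) ^ 2 := by
    rw [a2_apply, Finset.mul_sum]
    refine Finset.sum_le_sum fun a _ => ?_
    rw [Finset.mul_sum]
    refine Finset.sum_le_sum fun b _ => ?_
    rw [← mul_pow, ← sq, ← sq_abs]
    exact pow_le_pow_left₀ (abs_nonneg _) (abs_A_le hy hε a b p) 2
  have h2 : M.pre.RicF F (M.Xf fun q => ε * y q) p ≤ ε ^ 2 *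
      ∑ a, ∑ b, |M.pre.Ric a b p - M.pre.hess F a b p| * (|M.pre.D a y p| * |M.pre.D b y p|) := by
    simp only [Pre.RicF, Finset.sum_apply, Pi.mul_apply, Pi.sub_apply]
    rw [Finset.mul_sum]
    refine Finset.sum_le_sum fun a _ => ?_
    rw [Finset.mul_sum]
    refine Finset.sum_le_sum fun b _ => ?_
    refine (le_abs_self _).trans ?_
    rw [abs_mul, abs_mul, mul_left_comm (ε ^ 2)]
    refine mul_le_mul_of_nonneg_left ?_ (abs_nonneg _)
    calc _ ≤ (ε * |M.pre.D a y p|) * (ε * |M.pre.D b y p|) :=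
          mul_le_mul (abs_Xf_le hy hε a p) (abs_Xf_le hy hε b p) (abs_nonneg _) (by positivity)
      _ = _ := by ring
  unfold err
  nlinarith [sq_nonneg (M.hF F (fun q => ε * y q) p)]

/-- one small graph -/
theorem step [CompactSpace X] {om : X → ℝ} {a : Fin d → X → ℝ} (h : M.PtData F om a)
    (hy : M.Sm y) : ∃ ε : ℝ, 0 < ε ∧ (M.graph _ (sm_mul hy ε)).PtData F om a := by
  obtain ⟨s, hs, hI⟩ := h.ineq
  obtain ⟨C, hC, hb⟩ := exists_pos_le (f := fun p => err M F y p * om p ^ 4)
    ((continuous_err h.smF hy).mul (h.smo.continuous.pow 4))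
  set ε := min 1 (s / (2 * C)) with hε
  have hε0 : 0 < ε := lt_min one_pos (by positivity)
  have hε1 : ε ≤ 1 := min_le_left _ _
  have hε2 : ε * C ≤ s / 2 := by
    have : ε ≤ s / (2 * C) := min_le_right _ _
    rw [le_div_iff₀ (by positivity)] at this
    linarith
  refine ⟨ε, hε0, h.smF, h.smo, h.sma, ⟨s / 2, by positivity, fun p hp => ?_⟩, h.ess⟩
  have h1 := hI p hp
  have h2 : ∑ i, (M.graph _ (sm_mul hy ε)).cost om (a i) p ≤ ∑ i, M.cost om (a i) p :=
    Finset.sum_le_sum fun i _ => cost_le _ _ _ _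
  have h3 := mul_le_mul_of_nonneg_right (EF_ge h.smF hy hε0.le p) (by positivity : 0 ≤ om p ^ 4)
  have h4 : ε ^ 2 * (err M F y p * om p ^ 4) ≤ ε ^ 2 * C :=
    mul_le_mul_of_nonneg_left (hb p) (by positivity)
  have h5 : ε ^ 2 * C ≤ ε * C :=
    mul_le_mul_of_nonneg_right (by nlinarith) hC.le
  nlinarith

end Em

theorem emb : EmbStmt := by
  intro d ι _ _ X _ _ _ _ _ M hX F om a h
  obtain ⟨n, y, hy, hsep⟩ := M.exists_separating
  have key : ∀ s : Finset (Fin n), ∃ (κ : Type) (_ : Fintype κ) (_ : DecidableEq κ)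
      (N : Imm d κ X), N.ch = M.ch ∧ N.PtData F om a ∧
        ∀ p q, N.x p = N.x q → ∀ j ∈ s, y j p = y j q := by
    intro s
    induction s using Finset.induction_on with
    | empty => exact ⟨ι, inferInstance, inferInstance, M, rfl, h, fun _ _ _ _ hj => by simp at hj⟩
    | insert j s _ ih =>
      obtain ⟨κ, _, _, N, hch, hN, hs⟩ := ih
      have hyN : N.Sm (y j) := by
        change SmA N.ch (y j)
        rw [hch]; exact hy j
      obtain ⟨ε, hε, hP⟩ := Em.step hN hyN
      refine ⟨Option κ, inferInstance, inferInstance, _, hch, hP, fun p q hpq i hi => ?_⟩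
      rcases Finset.mem_insert.1 hi with rfl | hi
      · exact mul_left_cancel₀ hε.ne' (congrArg (fun w : E (Option κ) => w none) hpq)
      · exact hs p q (congrArg down hpq) i hi
  obtain ⟨κ, _, _, N, -, hN, hs⟩ := key Finset.univ
  exact ⟨κ, _, _, X, _, inferInstance, inferInstance, _, inferInstance, N, hX,
    fun p q hpq => hsep p q fun k => hs p q hpq k (Finset.mem_univ _), F, om, a, hN⟩

end Crest.Agent.N222

end
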