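import Crest.Agent.N222.B.Defs2

/-! # Row 222, part B: essential maps (E1-E4) -/

set_option autoImplicit false
open Set Filter Topology Function Metric

noncomputable section

namespace Crest.Agent.N222

theorem ess1 : Ess1Stmt := by
  intro X _ k om a a' hom hK ha ha' hs hE b hb hba
  by_contra hne
  push Not at hne
  have hC : IsCompact ((tsupport om ×ˢ Icc (0 : ℝ) 1) ∩
      {q : X × ℝ | ∀ i, b i q.1 + q.2 * (a i q.1 - a' i q.1) = 0}) := by
    refine (hK.isCompact.prod isCompact_Icc).inter_right ?_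
    simp only [ofPred_forall]
    exact isClosed_iInter fun i => isClosed_eq (by fun_prop) continuous_const
  obtain ⟨δ, hδ, hle⟩ := hC.exists_forall_le' (f := fun q => |om q.1|) (a := 0) (by fun_prop) (by
    rintro ⟨p, s⟩ ⟨⟨hp, hs0, hs1⟩, h0⟩
    refine abs_pos.2 fun hz => ?_
    obtain ⟨i, hi⟩ := hs p hp hz (1 - s) ⟨by linarith, by linarith⟩
    have := h0 i
    simp only [hba p hz i] at this
    exact hi (by linarith))
  obtain ⟨p, hp, h0⟩ := hE (fun i p => b i p + max 0 (1 - |om p| / δ) * (a i p - a' i p))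
    (fun i => by fun_prop) (fun p hp i => by simp [hp, hba p hp i])
  have h1 : δ ≤ |om p| := hle (p, max 0 (1 - |om p| / δ))
    ⟨⟨subset_tsupport _ hp, le_max_left _ _, max_le zero_le_one (sub_le_self _ (by positivity))⟩, h0⟩
  have h2 : max 0 (1 - |om p| / δ) = 0 := max_eq_left (sub_nonpos.2 ((one_le_div hδ).2 h1))
  obtain ⟨i, hi⟩ := hne p hp
  exact hi (by simpa [h2] using h0 i)

theorem Ess.exists_pos {X : Type} [TopologicalSpace X] [T2Space X] [SecondCountableTopology X]
    [CompactSpace X] {U : Set X} (hU : IsOpen U) :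
    ∃ f : X → ℝ, Continuous f ∧ (∀ p ∈ U, 0 < f p) ∧ ∀ p, p ∉ U → f p = 0 := by
  let _ := TopologicalSpace.metrizableSpaceMetric X
  rcases eq_empty_or_nonempty Uᶜ with h | h
  · exact ⟨fun _ => 1, continuous_const, fun _ _ => one_pos, fun p hp => (h ▸ hp : p ∈ (∅ : Set X)).elim⟩
  · exact ⟨fun p => infDist p Uᶜ, continuous_infDist_pt _,
      fun p hp => (hU.isClosed_compl.notMem_iff_infDist_pos h).1 fun h' => h' hp,
      fun p hp => infDist_zero_of_mem hp⟩

theorem ess2 : Ess2Stmt := by
  classical
  intro X _ _ _ _ k om a U U' hom ha hU hU' hd hs hE b hb hba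
  have hS : IsClosed (U ∪ U')ᶜ := (hU.union hU').isClosed_compl
  have hZ : IsClosed {p | om p = 0} := isClosed_eq hom continuous_const
  obtain ⟨f, hf, hf1, hf0⟩ := Ess.exists_pos hU
  obtain ⟨f', hf', hf1', hf0'⟩ := Ess.exists_pos hU'
  let G : X → Fin k → ℝ := fun p i => if h : p ∈ (U ∪ U')ᶜ then b i ⟨p, h⟩ else a i.succ p
  have hG0 : ∀ p, om p = 0 → ∀ i, G p i = a i.succ p := fun p hp i => by
    by_cases h : p ∈ (U ∪ U')ᶜ
    · simp only [G, dif_pos h]; exact hba ⟨p, h⟩ hp i
    · simp only [G, dif_neg h]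
  have hG : ContinuousOn G ((U ∪ U')ᶜ ∪ {p | om p = 0}) := by
    refine ContinuousOn.union_of_isClosed ?_ ?_ hS hZ
    · rw [continuousOn_iff_continuous_domRestrict]
      refine (continuous_pi hb).congr fun q => ?_
      funext i
      simp only [G, domRestrict_apply, dif_pos q.2]
    · exact (continuous_pi fun i => ha (Fin.succ i)).continuousOn.congr fun p hp =>
        funext (hG0 p hp)
  obtain ⟨g, hg⟩ := ContinuousMap.exists_restrict_eq (hS.union hZ)
    ⟨_, continuousOn_iff_continuous_domRestrict.1 hG⟩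
  have hg' : ∀ p ∈ (U ∪ U')ᶜ ∪ {p | om p = 0}, g p = G p := fun p hp =>
    DFunLike.congr_fun hg ⟨p, hp⟩
  let c : Fin (k + 1) → X → ℝ := Fin.cons (fun p => f p - f' p) fun i p => g p i
  have hc : ∀ i, Continuous (c i) := fun i => by
    refine Fin.cases ?_ (fun i => ?_) i
    · exact hf.sub hf'
    · exact (continuous_apply i).comp g.continuous
  have hEc : Ess om c := by
    refine ess1 X _ om a c hom (HasCompactSupport.of_compactSpace _) ha hc (fun p hp h0 s hs' => ?_) hE
    by_cases hz : ∀ i : Fin k, a i.succ p = 0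
    · refine ⟨0, ?_⟩
      change (1 - s) * a 0 p + s * (f p - f' p) ≠ 0
      obtain ⟨hs0, hs1⟩ := hs'
      rcases hs p hp h0 hz with ⟨h1, h2⟩ | ⟨h1, h2⟩
      · have h3 := hf1 p h2
        rw [hf0' p (disjoint_left.1 hd h2), sub_zero]
        rcases eq_or_lt_of_le hs0 with rfl | h4
        · simpa using h1.ne'
        · exact (add_pos_of_nonneg_of_pos (mul_nonneg (by linarith) h1.le) (mul_pos h4 h3)).ne'
      · have h3 := hf1' p h2
        rw [hf0 p (disjoint_right.1 hd h2), zero_sub]
        rcases eq_or_lt_of_le hs0 with rfl | h4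
        · simpa using h1.ne
        · exact (add_neg_of_nonpos_of_neg (mul_nonpos_of_nonneg_of_nonpos (by linarith) h1.le)
            (mul_neg_of_pos_of_neg h4 (by linarith))).ne
    · push Not at hz
      obtain ⟨i, hi⟩ := hz
      refine ⟨i.succ, ?_⟩
      change (1 - s) * a i.succ p + s * g p i ≠ 0
      rw [hg' p (Or.inr h0), hG0 p h0]
      intro h
      exact hi (by linarith)
  obtain ⟨p, hp, h0⟩ := hEc c hc fun _ _ _ => rfl
  have h1 : f p - f' p = 0 := h0 0
  have hpS : p ∈ (U ∪ U')ᶜ := by
    rintro (h | h)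
    · have := hf1 p h
      rw [hf0' p (disjoint_left.1 hd h)] at h1
      linarith
    · have := hf1' p h
      rw [hf0 p (disjoint_right.1 hd h)] at h1
      linarith
  refine ⟨⟨p, hpS⟩, hp, fun i => ?_⟩
  have h2 : g p i = 0 := h0 i.succ
  rw [hg' p (Or.inl hpS)] at h2
  simpa only [G, dif_pos hpS] using h2

theorem ess3 : Ess3Stmt := by
  classical
  intro X _ _ k om χ a S B hom hχ ha hd hne hE b hb hba
  let c : Fin k → S → ℝ := fun i q => if h : (q : X) ∉ B then b i ⟨q, q.2, h⟩ else a i q
  have hc0 : ∀ q : S, om q * χ q = 0 → ∀ i, c i q = a i q := fun q hq i => by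
    by_cases h : (q : X) ∉ B
    · simp only [c, dif_pos h]; exact hba ⟨q, q.2, h⟩ hq i
    · simp only [c, dif_neg h]
  have hc : ∀ i, Continuous (c i) := fun i => by
    rw [← continuousOn_univ]
    have hu : (univ : Set S) = Subtype.val ⁻¹' tsupport χ ∪ {q : S | χ q = 0} := by
      refine (eq_univ_of_forall fun q => ?_).symm
      by_cases h : χ q = 0
      · exact Or.inr h
      · exact Or.inl (subset_tsupport _ h)
    rw [hu]
    refine ContinuousOn.union_of_isClosed ?_ ?_
      ((isClosed_tsupport χ).preimage continuous_subtype_val)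
      (isClosed_eq (hχ.comp continuous_subtype_val) continuous_const)
    · rw [continuousOn_iff_continuous_domRestrict]
      have h1 : Continuous fun q : ↥(Subtype.val ⁻¹' tsupport χ : Set S) =>
          (⟨q.1.1, q.1.2, disjoint_left.1 hd q.2⟩ : ↥(S \ B)) :=
        (continuous_subtype_val.comp continuous_subtype_val).subtype_mk _
      refine ((hb i).comp h1).congr fun q => ?_
      simp only [c, domRestrict_apply, dif_pos (disjoint_left.1 hd q.2), comp_apply]
    · exact ((ha i).comp continuous_subtype_val).continuousOn.congr fun q hq =>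
        hc0 q (by rw [show χ q = 0 from hq, mul_zero]) i
  obtain ⟨q, hq, h0⟩ := hE c hc fun q hq i => hc0 q (by rw [show om q = 0 from hq, zero_mul]) i
  have h1 : χ q ≠ 0 := fun h => by
    obtain ⟨i, hi⟩ := hne q q.2 hq h
    exact hi (by rw [← hc0 q (by rw [h, mul_zero]) i]; exact h0 i)
  have h2 : (q : X) ∉ B := disjoint_left.1 hd (subset_tsupport _ h1)
  refine ⟨⟨q, q.2, h2⟩, mul_ne_zero hq h1, fun i => ?_⟩
  simpa only [c, dif_pos h2] using h0 i

theorem ess4 : Ess4Stmt := by
  classical
  intro X Y _ _ _ k e om a om' a' _ hs ha he hE b hb hba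
  let c : Fin k → X → ℝ := fun i p => if p ∈ e.source then b i (e p) else a i p
  have hc0 : ∀ p, om p = 0 → ∀ i, c i p = a i p := fun p hp i => by
    by_cases h : p ∈ e.source
    · simp only [c, if_pos h]
      rw [hba _ ((he p h).1.trans hp), (he p h).2]
    · simp only [c, if_neg h]
  have hc : ∀ i, Continuous (c i) := fun i => continuous_iff_continuousAt.2 fun p => by
    by_cases h : p ∈ e.source
    · refine (((hb i).continuousAt).comp (e.continuousAt h)).congr ?_
      filter_upwards [e.open_source.mem_nhds h] with q hq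
      simp only [c, if_pos hq, comp_apply]
    · refine (ha i).continuousAt.congr ?_
      filter_upwards [(isClosed_tsupport om).isOpen_compl.mem_nhds fun h' => h (hs h')] with q hq
      exact (hc0 q (image_eq_zero_of_notMem_tsupport hq) i).symm
  obtain ⟨p, hp, h0⟩ := hE c hc hc0
  have h1 : p ∈ e.source := hs (subset_tsupport _ hp)
  refine ⟨e p, by rw [(he p h1).1]; exact hp, fun i => ?_⟩
  simpa only [c, if_pos h1] using h0 i

end Crest.Agent.N222

end
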