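import Crest.Agent.N222.B.E2

/-!
# Row 222, part B, ε-regularity block: FL (small curvature energy gives density almost one)
-/

set_option autoImplicit false
set_option linter.unusedSectionVars false
open MeasureTheory Set Filter Topology Function Metric
open scoped ContDiff InnerProductSpace RealInnerProductSpace

noncomputable section

namespace Crest.Agent.N222
open EP

variable {d : ℕ} {ι : Type} [Fintype ι] [DecidableEq ι] {X : Type} [TopologicalSpace X]
  [T2Space X] [SecondCountableTopology X] [MeasurableSpace X] [BorelSpace X] [CompactSpace X]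
  {M : Imm d ι X}

namespace FLa

variable {u f : X → ℝ} {p : X} {r R R' C C' K a b η δ : ℝ}

theorem norm_le_sum {κ : Type} [Fintype κ] [DecidableEq κ] (w : E κ) : ‖w‖ ≤ ∑ a, |w a| := by
  conv_lhs => rw [eq_sum_ee w]
  refine (norm_sum_le _ _).trans (Finset.sum_le_sum fun a _ => ?_)
  simp [norm_smul]

theorem abs_bl_le_energy (hu : M.Sm u) (hA : Area M C u) (hr : 0 < r) (hR : 0 < R)
    (h1 : R * r ≤ 1) (ha : 0 ≤ a) (hb : 0 ≤ b) (hRR : R ≤ R')
    (h : ∀ q, ‖ry M u p r q‖ ≤ R → |f q| ≤ a + b * (r ^ 2 * M.a2 u q))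
    (h0 : ∀ q, R < ‖ry M u p r q‖ → f q = 0)
    (he : r ^ 2 * ∫ q in {q | ‖M.gx u q - M.gx u p‖ ≤ R' * r}, M.a2 u q ∂M.gmu u ≤ η * r ^ d) :
    |bl M u r f| ≤ a * (C * R ^ d) + b * η := by
  have := Imm.isFiniteMeasure_gmu hu
  have hm : MeasurableSet {q | ‖M.gx u q - M.gx u p‖ ≤ R * r} :=
    (isClosed_le ((Imm.sm_gx hu).continuous.sub continuous_const).norm
      continuous_const).measurableSet
  have i2 := integrable_gmu hu hu.a2.continuous
  rw [bl, abs_div, abs_of_pos (pow_pos hr d), div_le_iff₀ (pow_pos hr d),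
    ← setIntegral_eq_integral_of_forall_compl_eq_zero (s := {q | ‖M.gx u q - M.gx u p‖ ≤ R * r})
      fun q hq => h0 q (not_le.1 fun h => hq ((norm_ry_le hr).1 h))]
  refine (norm_integral_le_of_norm_le (f := f) (g := fun q => a + b * (r ^ 2 * M.a2 u q))
    ((integrable_const a).add ((i2.restrict.const_mul _).const_mul _))
    (ae_restrict_of_forall_mem hm fun q hq => h q ((norm_ry_le hr).2 hq))).trans ?_
  rw [integral_add (integrable_const a) ((i2.restrict.const_mul _).const_mul _), integral_const_mul,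
    integral_const_mul, setIntegral_const, smul_eq_mul]
  have h2 := mul_le_mul_of_nonneg_left (hA (M.gx u p) _ (by positivity) h1) ha
  have h3 : ∫ q in {q | ‖M.gx u q - M.gx u p‖ ≤ R * r}, M.a2 u q ∂M.gmu u ≤
      ∫ q in {q | ‖M.gx u q - M.gx u p‖ ≤ R' * r}, M.a2 u q ∂M.gmu u :=
    setIntegral_mono_set i2.integrableOn (ae_of_all _ (M.a2_nonneg u))
      (LE.le.eventuallyLE fun q hq =>
        le_trans hq (mul_le_mul_of_nonneg_right hRR hr.le))
  have h4 := mul_le_mul_of_nonneg_left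
    ((mul_le_mul_of_nonneg_left h3 (sq_nonneg r)).trans he) hb
  rw [mul_pow] at h2
  linarith

theorem norm_td_nuv (hu : M.Sm u) (hS : M.Sheet C u) (q : X) (W : E (Option ι)) :
    ‖(M.graph u hu).td (M.nuv u) q W‖ ≤
      Fintype.card (Option ι) * (∑ a, |W a|) * (√(M.a2 u q) + C) := by
  refine (norm_le_sum _).trans ((Finset.sum_le_card_nsmul _ _
    ((∑ a, |W a|) * (√(M.a2 u q) + C)) fun c _ => ?_).trans_eq ?_)
  · rw [Imm.td_coord (((Imm.graph_sm hu).2 hu.nuv).diffAt q), Imm.td_apply, Imm.graph_pre,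
      Finset.sum_mul]
    refine (Finset.abs_sum_le_sum_abs _ _).trans (Finset.sum_le_sum fun a _ => ?_)
    rw [abs_mul]
    exact mul_le_mul_of_nonneg_left (abs_D_nu_le hS a c q) (abs_nonneg _)
  · rw [nsmul_eq_mul, Finset.card_univ, mul_assoc]

theorem key (hu : M.Sm u) (hS : M.Sheet C u) (hA : Area M C' u)
    {G : E (Option ι) × E (Option ι) → ℝ} (hG : ContDiff ℝ ∞ G) (hr : 0 < r) (hR : 0 < R)
    (h1 : R * r ≤ 1) (hδ : 0 < δ) (hRR : R ≤ R') (W : E (Option ι))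
    (hG0 : ∀ s, R < ‖s.1‖ → G s = 0 ∧ fderiv ℝ G s = 0) (hK0 : 0 ≤ K)
    (hK : ∀ s, ‖s.1‖ ≤ R → ‖s.2‖ ≤ 1 → |G s| ≤ K ∧ ‖fderiv ℝ G s‖ ≤ K)
    (hP : ∀ q, ‖ry M u p r q‖ ≤ R → ‖W - M.PbL q W‖ ≤ δ) (hC : C * r ≤ δ)
    (he : r ^ 2 * ∫ q in {q | ‖M.gx u q - M.gx u p‖ ≤ R' * r}, M.a2 u q ∂M.gmu u ≤ η * r ^ d)
    {K1 : ℝ} (hK1 : K1 = Fintype.card (Option ι) * ∑ a, |W a|) :
    |bl M u r fun q => fderiv ℝ G (ry M u p r q, M.nuv u q) (W - ⟪M.nuv u q, W⟫ • M.nuv u q, 0)|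
      ≤ δ * (K * (1 + 2 * K1 + ‖W‖)) * (C' * R ^ d) + K * K1 / δ * η := by
  have hK10 : 0 ≤ K1 := by rw [hK1]; positivity
  have hs : M.Sm fun q => (ry M u p r q, M.nuv u q) := (sm_ry hu p r).prodMk hu.nuv
  have hf : M.Sm fun q => G (ry M u p r q, M.nuv u q) := hs.comp hG
  have c0 : Continuous fun q =>
      fderiv ℝ G (ry M u p r q, M.nuv u q) (W - ⟪M.nuv u q, W⟫ • M.nuv u q, 0) :=
    ((hG.continuous_fderiv (by simp)).comp hs.continuous).clm_apply
      (by have := hu.nuv.continuous; fun_prop)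
  have c1 : Continuous fun q => (M.graph u hu).td (fun q => G (ry M u p r q, M.nuv u q)) q W :=
    ((Imm.graph_sm hu).2 hf).td.continuous.clm_apply continuous_const
  have c2 : Continuous fun q => ⟪(M.graph u hu).Hv q, W⟫ * G (ry M u p r q, M.nuv u q) :=
    ((Imm.Sm.continuous (Imm.sm_euclid.2 (M.graph u hu).sm_H)).inner continuous_const).mul
      hf.continuous
  have e0 : bl M u r (fun q => r * ((M.graph u hu).td (fun q => G (ry M u p r q, M.nuv u q)) q W
      + ⟪(M.graph u hu).Hv q, W⟫ * G (ry M u p r q, M.nuv u q))) = 0 := by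
    rw [bl_const_mul, bl_add hu c1 c2, bl, bl, g_first_var hu hf, neg_div, neg_add_cancel, mul_zero]
  have e1 : ∀ q, r * (M.graph u hu).td (fun q => G (ry M u p r q, M.nuv u q)) q W =
      fderiv ℝ G (ry M u p r q, M.nuv u q) (M.PbL q W - ⟪M.nuv u q, W⟫ • M.nuv u q,
        r • (M.graph u hu).td (M.nuv u) q W) := fun q => by
    rw [Imm.td_comp (((Imm.graph_sm hu).2 hs).diffAt q) (hG.differentiable (by simp) _),
      Imm.td_prodMk (((Imm.graph_sm hu).2 (sm_ry hu p r)).diffAt q)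
        (((Imm.graph_sm hu).2 hu.nuv).diffAt q), ContinuousLinearMap.comp_apply,
      ContinuousLinearMap.prod_apply, td_ry, Imm.graph_PL, ← smul_eq_mul, ← map_smul,
      Prod.smul_mk, smul_inv_smul₀ hr.ne']
  have c3 : Continuous fun q => r * ((M.graph u hu).td (fun q => G (ry M u p r q, M.nuv u q)) q W
      + ⟪(M.graph u hu).Hv q, W⟫ * G (ry M u p r q, M.nuv u q)) := continuous_const.mul (c1.add c2)
  rw [← sub_zero (bl M u r _), ← e0, ← bl_sub hu c0 c3]
  refine abs_bl_le_energy hu hA hr hR h1 (by positivity) (by positivity) hRR (fun q hq => ?_)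
    (fun q hq => ?_) he
  · obtain ⟨k1, k2⟩ := hK (ry M u p r q, M.nuv u q) hq (Imm.norm_nuv hu q).le
    rw [mul_add, e1, ← sub_sub, ← map_sub, Prod.mk_sub_mk, sub_sub_sub_cancel_right, zero_sub]
    have b1 := norm_td_nuv hu hS q W
    rw [← hK1] at b1
    have b2 : r * √(M.a2 u q) ≤ δ + r ^ 2 * M.a2 u q / δ := by
      rw [← sub_le_iff_le_add', le_div_iff₀ hδ]
      conv_rhs => rw [← Real.sq_sqrt (M.a2_nonneg u q)]
      nlinarith [sq_nonneg (r * √(M.a2 u q) - δ), sq_nonneg (r * √(M.a2 u q))]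
    have b3 : ‖(W - M.PbL q W, -(r • (M.graph u hu).td (M.nuv u) q W))‖ ≤
        δ + K1 * (2 * δ + r ^ 2 * M.a2 u q / δ) := by
      have h3 : 0 ≤ K1 * (2 * δ + r ^ 2 * M.a2 u q / δ) := by
        have := M.a2_nonneg u q; positivity
      refine norm_prod_le_iff.2 ⟨(hP q hq).trans (by linarith), ?_⟩
      simp only [norm_neg, norm_smul, Real.norm_of_nonneg hr.le]
      have h4 := mul_le_mul_of_nonneg_left b1 hr.le
      have h5 := mul_le_mul_of_nonneg_left (add_le_add b2 hC) hK10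
      linarith
    have b4 := ((fderiv ℝ G (ry M u p r q, M.nuv u q)).le_opNorm _).trans
      (mul_le_mul k2 b3 (norm_nonneg _) hK0)
    have b5 : |r * (⟪(M.graph u hu).Hv q, W⟫ * G (ry M u p r q, M.nuv u q))| ≤ δ * ‖W‖ * K := by
      rw [← mul_assoc, abs_mul, abs_mul, abs_of_pos hr]
      refine mul_le_mul ?_ k1 (abs_nonneg _) (by positivity)
      have := (abs_real_inner_le_norm _ W).trans
        (mul_le_mul_of_nonneg_right (graph_Hv_le hu hS q) (norm_nonneg _))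
      nlinarith [norm_nonneg W]
    refine (abs_sub _ _).trans ((add_le_add b4 b5).trans_eq ?_)
    ring
  · obtain ⟨k1, k2⟩ := hG0 (ry M u p r q, M.nuv u q) hq
    rw [mul_add, e1, k1, k2]
    simp

end FLa

theorem fl (hS : SheetStmt) (hCal : CalStmt) (hB : BlowStmt) (h1 : LV1Stmt) (h2 : LV2Stmt) :
    FLStmt := by
  intro d ι _ _ X _ _ _ _ _ _ M F hM hF Λ ε hε
  by_contra hc
  push Not at hc
  choose u hu p r h0 hr he hg using fun j : ℕ =>
    hc ((j : ℝ) + 1) (1 / ((j : ℝ) + 1)) (by linarith [j.cast_nonneg (α := ℝ)]) (by positivity)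
  have hr' := tendsto_hyper h0 hr
  obtain ⟨p0, L, V, O⟩ := exists_out hB hM hF (hyperfilter ℕ) p hu hr'
  obtain ⟨C, -, hC⟩ := hS d ι X M F hM hF Λ
  obtain ⟨C', hC0, hC'⟩ := hCal d ι X M F hM hF Λ
  suffices H : ∃ n : Y d, n ≠ 0 ∧ ∀ y, InSupp V y → ⟪n, y⟫ = 0 by
    obtain ⟨n, hn, hs⟩ := H
    exact O.no_plane h1 hr' hε hg hn hs
  refine h2 d V O.lim fun w g hg hcs => ?_
  let G : E (Option ι) × E (Option ι) → ℝ := fun s => g (Ls L s.1, Ls L s.2) * cut L s.1
  have hG : ContDiff ℝ ∞ G :=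
    (hg.comp (((Ls L).contDiff.comp contDiff_fst).prodMk ((Ls L).contDiff.comp contDiff_snd))).mul
      ((contDiff_cut L).comp contDiff_fst)
  obtain ⟨R0, hR0, hz⟩ := exists_norm_of_hcs hcs
  have hG0 : ∀ s : E (Option ι) × E (Option ι), R0 + 1 < ‖s.1‖ → G s = 0 := fun s hs => by
    by_contra h
    have h3 := norm_le_of_cut L (right_ne_zero_of_mul h)
    exact left_ne_zero_of_mul h (hz _ (le_trans (by linarith) (norm_fst_le (Ls L s.1, Ls L s.2))))
  have hG1 : ∀ s : E (Option ι) × E (Option ι), R0 + 1 < ‖s.1‖ → fderiv ℝ G s = 0 := fun s hs => by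
    have : G =ᶠ[𝓝 s] fun _ => 0 :=
      ((isOpen_lt continuous_const continuous_fst.norm).eventually_mem hs).mono hG0
    rw [this.fderiv_eq, fderiv_fun_const, Pi.zero_apply]
  obtain ⟨K, hK⟩ := ((isCompact_closedBall (0 : E (Option ι)) (R0 + 1)).prod
    (isCompact_closedBall (0 : E (Option ι)) 1)).exists_bound_of_continuousOn
    (hG.continuous.prodMk (hG.continuous_fderiv (by simp))).continuousOn
  have hK0 : 0 ≤ K := (norm_nonneg _).trans (hK 0 ⟨mem_closedBall_self (by positivity),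
    mem_closedBall_self zero_le_one⟩)
  have hcv := O.conv (fun s => fderiv ℝ G s (L w - ⟪s.2, L w⟫ • s.2, 0)) (R0 + 1)
    ((hG.continuous_fderiv (by simp)).clm_apply (by fun_prop)) fun s hs => by
      rw [hG1 s hs]; rfl
  have e : ∀ q : Y d × Y d, fderiv ℝ G (L q.1, L q.2) (L w - ⟪L q.2, L w⟫ • L q.2, 0)
      = fderiv ℝ g q (w - ⟪q.2, w⟫ • q.2, 0) := fun q => by
    have e1 : g = G ∘ (L.toContinuousLinearMap.prodMap L.toContinuousLinearMap) := by
      funext q; simp [G, Ls_L, cut_L]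
    rw [e1, fderiv_comp _ (hG.differentiable (by simp) _) (ContinuousLinearMap.differentiableAt _),
      ContinuousLinearMap.fderiv]
    simp [Prod.map]
  simp only [e] at hcv
  refine tendsto_nhds_unique hcv (Metric.tendsto_nhds.2 fun ε hε => ?_)
  obtain ⟨K1, hK1⟩ : ∃ K1 : ℝ, K1 = Fintype.card (Option ι) * ∑ a, |L w a| := ⟨_, rfl⟩
  have hK10 : 0 ≤ K1 := by rw [hK1]; positivity
  obtain ⟨δ, hδ, hδ'⟩ : ∃ δ > 0, δ * (K * (1 + 2 * K1 + ‖L w‖)) * (C' * (R0 + 1) ^ d) ≤ ε / 2 := by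
    have hB : 0 ≤ K * (1 + 2 * K1 + ‖L w‖) * (C' * (R0 + 1) ^ d) := by positivity
    refine ⟨ε / 2 / (K * (1 + 2 * K1 + ‖L w‖) * (C' * (R0 + 1) ^ d) + 1), by positivity, ?_⟩
    rw [mul_assoc, div_mul_eq_mul_div, div_le_iff₀ (by positivity)]
    nlinarith
  have hle : (hyperfilter ℕ : Filter ℕ) ≤ atTop := Nat.cofinite_eq_atTop ▸ hyperfilter_le_cofinite
  have hN : {q | ‖L w - M.PbL q (L w)‖ ≤ δ} ∈ 𝓝 p0 :=
    ((continuous_const.sub ((continuous_PbL M).comp
      (continuous_id.prodMk continuous_const))).norm.tendsto p0).eventually_le_const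
      (by simpa [O.PbL_L] using hδ)
  filter_upwards [ev_near (u := u) hM O.tp hr' (R0 + 1) hN, ev_mul_le hr' (R0 + 1) one_pos,
    ev_mul_le hr' C hδ, ((tendsto_natCast_atTop_atTop (R := ℝ)).mono_left hle).eventually_ge_atTop R0,
    (((tendsto_one_div_add_atTop_nhds_zero_nat (𝕜 := ℝ)).mono_left hle).const_mul
      (K * K1 / δ)).eventually_lt_const (u := ε / 2) (by simpa using hε)] with j j1 j2 j3 j4 j5
  have := FLa.key (hu j).sm (hC _ (hu j)) (hC' _ (hu j)).2.1 hG (h0 j) (by positivity) j2 hδ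
    (by linarith : R0 + 1 ≤ (j : ℝ) + 1) (L w) (fun s hs => ⟨hG0 s hs, hG1 s hs⟩) hK0
    (fun s s1 s2 => norm_prod_le_iff.1
      (hK s ⟨mem_closedBall_zero_iff.2 s1, mem_closedBall_zero_iff.2 s2⟩)) j1 j3 (he j) hK1
  rw [Real.dist_eq, sub_zero]
  linarith

end Crest.Agent.N222

end
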