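import Crest.Agent.N222.B.E2

/-!
# Row 222, part B, ε-regularity block (helper16): FL2 (close to a hyperplane gives density almost one)
-/

set_option autoImplicit false
set_option linter.unusedSectionVars false
open MeasureTheory Set Filter Topology Function Metric
open scoped ContDiff InnerProductSpace RealInnerProductSpace

noncomputable section

namespace Crest.Agent.N222
open EP

theorem fl2 (hB : BlowStmt) (h1 : LV1Stmt) : FL2Stmt := by
  intro d ι _ _ X _ _ _ _ _ _ M F hM hF Λ ε hε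
  by_contra hc
  push Not at hc
  choose u hu p r h0 hr n hn hP hq hg using fun j : ℕ =>
    hc ((j : ℝ) + 1) (1 / ((j : ℝ) + 1)) (by linarith [j.cast_nonneg (α := ℝ)]) (by positivity)
  have hr' := tendsto_hyper h0 hr
  obtain ⟨p0, L, V, O⟩ := exists_out hB hM hF (hyperfilter ℕ) p hu hr'
  obtain ⟨n0, -, hn0⟩ := (isCompact_closedBall (0 : E (Option ι)) 1).ultrafilter_le_nhds
    ((hyperfilter ℕ).map n) (le_principal_iff.2 (mem_map.2 (univ_mem' fun j =>
      mem_closedBall_zero_iff.2 (hn j).le)))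
  have hn1 : Tendsto n (hyperfilter ℕ) (𝓝 n0) := hn0
  have h2 : 1 / 2 ≤ ‖M.PbL p0 n0‖ := ge_of_tendsto'
    (((continuous_PbL M).tendsto (p0, n0)).comp (O.tp.prodMk_nhds hn1)).norm hP
  obtain ⟨n', hn'⟩ := (O.ran _).1 (PbL_PbL p0 n0)
  refine O.no_plane h1 hr' hε hg (n := n') (fun h => ?_) fun y hy => ?_
  · rw [← hn', h, map_zero, norm_zero] at h2
    norm_num at h2
  obtain ⟨q, hq'⟩ := O.supp y hy
  rw [← L.inner_map_map, hn', PbL_symm, O.PbL_L]
  have hle : (hyperfilter ℕ : Filter ℕ) ≤ atTop := Nat.cofinite_eq_atTop ▸ hyperfilter_le_cofinite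
  refine abs_nonpos_iff.1 (le_of_tendsto_of_tendsto (hn1.inner hq').abs
    ((tendsto_one_div_add_atTop_nhds_zero_nat (𝕜 := ℝ)).mono_left hle) ?_)
  filter_upwards [hq'.norm.eventually_le_const (lt_add_one _),
    ((tendsto_natCast_atTop_atTop (R := ℝ)).mono_left hle).eventually_ge_atTop ‖L y‖] with j h3 h4
  have h5 := hq j (q j) ((norm_ry_le (h0 j)).1 (h3.trans (by linarith)))
  rw [ry, inner_smul_right, abs_mul, abs_of_pos (inv_pos.2 (h0 j)), inv_mul_le_iff₀ (h0 j),
    mul_comm]
  exact h5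

end Crest.Agent.N222

end
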