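import Crest.Agent.N222.B.Defs2
import Crest.Agent.N222.F.Lip

/-!
# Row 222, part B: GEN, a small translation avoids the image of a thin set (helper38)
-/

set_option autoImplicit false
set_option linter.unusedSectionVars false
open MeasureTheory Set Filter Topology Function Metric
open scoped ContDiff ENNReal

noncomputable section

namespace Crest.Agent.N222

namespace Gn

variable {d : ℕ} {ι : Type} [Fintype ι] [DecidableEq ι] {X : Type} [TopologicalSpace X]
  [MeasurableSpace X] {M : Imm d ι X}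

/-- Lipschitz images of thin sets are null -/
theorem null {k : ℕ} {B : Set X} (hB : M.Nets (k + 1) B) {A : X → Fin k → ℝ} {L : ℝ} (hL : 0 < L)
    (hA : ∀ p q, ‖A p - A q‖ ≤ L * ‖M.x p - M.x q‖) : volume (A '' B) = 0 := by
  obtain ⟨C, hC⟩ := hB
  have h1 : ∀ r : ℝ, 0 < r → r ≤ 1 →
      volume (A '' B) ≤ ENNReal.ofReal (C * (2 * L) ^ k * r ^ 3) := by
    intro r hr hr1
    obtain ⟨s, -, hs, hc⟩ := hC r hr hr1
    have h2 : A '' B ⊆ ⋃ q ∈ s, closedBall (A q) (L * r) := by
      rintro _ ⟨p, hp, rfl⟩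
      obtain ⟨q, hq, h⟩ := hc p hp
      refine mem_biUnion hq ?_
      rw [mem_closedBall, dist_eq_norm]
      exact (hA p q).trans (mul_le_mul_of_nonneg_left h hL.le)
    refine (measure_mono h2).trans ((measure_biUnion_finset_le _ _).trans ?_)
    simp only [Real.volume_pi_closedBall _ (by positivity : 0 ≤ L * r), Finset.sum_const,
      Fintype.card_fin, nsmul_eq_mul]
    rw [← ENNReal.ofReal_natCast, ← ENNReal.ofReal_mul (Nat.cast_nonneg _)]
    refine ENNReal.ofReal_le_ofReal ?_
    have h3 : (s.card : ℝ) * r ^ k ≤ C * r ^ 3 :=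
      le_of_mul_le_mul_right (by
        rw [mul_assoc, mul_assoc, ← pow_succ, ← pow_succ]; exact hs) hr
    have h4 := mul_le_mul_of_nonneg_left h3 (by positivity : 0 ≤ (2 * L) ^ k)
    calc (s.card : ℝ) * (2 * (L * r)) ^ k = (2 * L) ^ k * (s.card * r ^ k) := by
          rw [← mul_assoc 2, mul_pow]; ring
      _ ≤ _ := h4
      _ = _ := by ring
  have h5 : Tendsto (fun r : ℝ => ENNReal.ofReal (C * (2 * L) ^ k * r ^ 3)) (𝓝[>] 0) (𝓝 0) := by
    have : Continuous fun r : ℝ => ENNReal.ofReal (C * (2 * L) ^ k * r ^ 3) :=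
      ENNReal.continuous_ofReal.comp (by fun_prop)
    simpa using (this.tendsto 0).mono_left nhdsWithin_le_nhds
  refine le_antisymm (ge_of_tendsto h5 ?_) zero_le
  filter_upwards [Ioc_mem_nhdsGT zero_lt_one] with r hr using h1 r hr.1 hr.2

theorem norm_le_sqrt {k : ℕ} (v : Fin k → ℝ) : ‖v‖ ≤ √(∑ i, v i ^ 2) :=
  (pi_norm_le_iff_of_nonneg (Real.sqrt_nonneg _)).2 fun i => Real.abs_le_sqrt
    (Finset.single_le_sum (f := fun i => v i ^ 2) (fun _ _ => sq_nonneg _) (Finset.mem_univ i))

end Gn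

open Gn in
/-- GEN: a small translation moves the image of a thin set off the first axis -/
theorem gen : GenStmt := by
  intro d ι _ _ X _ _ _ _ _ M hX hM k B a hB hN ha ε hε
  have hA : M.Sm fun p (i : Fin k) => a i.succ p := fun p => contDiffOn_pi.2 fun i => ha i.succ p
  obtain ⟨L, hL, hl⟩ := hA.exists_lip hM
  have h0 := null hN hL hl
  have h1 : ¬ ball (0 : Fin k → ℝ) ε ⊆ (fun p (i : Fin k) => a i.succ p) '' B := fun h =>
    (measure_ball_pos volume (0 : Fin k → ℝ) hε).ne' (measure_mono_null h h0)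
  obtain ⟨y, hy, hyK⟩ := not_subset.1 h1
  obtain ⟨δ, hδ, hb⟩ := Metric.isOpen_iff.1
    (hB.isCompact.image hA.continuous).isClosed.isOpen_compl y hyK
  refine ⟨Fin.cons 0 (-y), fun i => ?_, (δ / 2) ^ 2, δ / 2 / L, by positivity, by positivity,
    fun p q hq h => ?_⟩
  · refine Fin.cases (by simpa using hε.le) (fun i => ?_) i
    simpa using (norm_le_pi_norm y i).trans (mem_ball_zero_iff.1 hy).le
  · have h2 : δ ≤ ‖(fun i : Fin k => a i.succ q) - y‖ := by
      by_contra h3
      exact hb (by rw [mem_ball, dist_eq_norm]; exact not_le.1 h3) ⟨q, hq, rfl⟩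
    have h3 := (hl p q).trans (mul_le_mul_of_nonneg_left h hL.le)
    rw [mul_div_cancel₀ _ hL.ne', norm_sub_rev] at h3
    have h4 := norm_sub_le_norm_sub_add_norm_sub (fun i : Fin k => a i.succ q)
      (fun i : Fin k => a i.succ p) y
    have h5 := norm_le_sqrt ((fun i : Fin k => a i.succ p) - y)
    have h6 : δ / 2 ≤ √(∑ i, ((fun i : Fin k => a i.succ p) - y) i ^ 2) := by linarith
    have h7 := (Real.le_sqrt' (by positivity)).1 h6
    simpa [sub_eq_add_neg] using h7

end Crest.Agent.N222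

end
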