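import Crest.Agent.N222.B.Defs2
import Crest.Agent.N222.F.Hess

/-!
# Row 222, part B: the induction on the dimension
-/

set_option autoImplicit false
open MeasureTheory Set Filter Topology Function Metric

noncomputable section

namespace Crest.Agent.N222

/-- no pointwise data on compact embedded manifolds of dimension `d` -/
def NoPt (d : ℕ) : Prop := ∀ (ι : Type) [Fintype ι] [DecidableEq ι] (X : Type)
  [TopologicalSpace X] [T2Space X] [SecondCountableTopology X] [MeasurableSpace X] [BorelSpace X]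
  [CompactSpace X] (M : Imm d ι X) (F om : X → ℝ) (a : Fin d → X → ℝ), Injective M.x →
  ¬ M.PtData F om a

/-- no form data in dimension `d` -/
def NoForm (d : ℕ) : Prop := ∀ (ι : Type) [Fintype ι] [DecidableEq ι] (X : Type)
  [TopologicalSpace X] [T2Space X] [SecondCountableTopology X] [MeasurableSpace X] [BorelSpace X]
  (M : Imm d ι X) (V om : X → ℝ) (a : Fin d → X → ℝ), ¬ M.FormData V om a

theorem noForm_of_noPt (hC : CloseStmt) (hE : EmbStmt) {d : ℕ} (h : NoPt d) : NoForm d := by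
  intro ι _ _ X _ _ _ _ _ M V om a hM
  obtain ⟨ι', _, _, Y, _, _, _, _, _, N, hY, F, om', a', hN⟩ := hC d ι X M V om a hM
  obtain ⟨ι'', _, _, Z, _, _, _, _, _, P, hZ, hP, F', om'', a'', hP'⟩ := hE d ι' Y N hY F om' a' hN
  exact h ι'' Z P F' om'' a'' hP hP'

theorem noPt_zero : NoPt 0 := by
  intro ι _ _ X _ _ _ _ _ _ M F om a _ h
  obtain ⟨s, hs, hI⟩ := h.ineq
  obtain ⟨p, hp, -⟩ := h.ess a (fun i => i.elim0) fun _ _ _ => rfl
  have hD : ∀ c f, M.pre.D c f = 0 := fun c f => funext fun q => by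
    change fderiv ℝ (f ∘ (M.ch q).symm) (M.ch q q) _ = 0
    exact (congrArg _ (Subsingleton.elim _ 0)).trans (map_zero _)
  have hE : M.pre.EF F = 0 := by
    simp [Pre.EF, Pre.scal, Pre.Ric, Pre.Rm, Pre.II, Pre.hess, Pre.lap, Pre.gam, hD]
  have := hI p hp
  simp [hE] at this
  exact absurd hs (not_lt.2 this)

theorem isOpen_Upos {X : Type} [TopologicalSpace X] (𝒰 : Ultrafilter ℕ) (u : ℕ → X → ℝ) :
    IsOpen (Upos 𝒰 u) := by
  refine isOpen_iff_mem_nhds.2 fun p ⟨N, hN, h⟩ => ?_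
  filter_upwards [eventually_mem_nhds_iff.2 hN] with q hq
  exact ⟨N, hq, h⟩

theorem disjoint_Upos {X : Type} [TopologicalSpace X] (𝒰 : Ultrafilter ℕ) (u : ℕ → X → ℝ) :
    Disjoint (Upos 𝒰 u) (Upos 𝒰 fun j q => -u j q) := by
  refine Set.disjoint_left.2 fun p ⟨N, hN, h⟩ ⟨N', hN', h'⟩ => ?_
  obtain ⟨j, h1, h2⟩ := (h.and h').exists
  have := h1 p (mem_of_mem_nhds hN)
  have := h2 p (mem_of_mem_nhds hN')
  linarith

theorem isClosed_Sb {X : Type} [TopologicalSpace X] (𝒰 : Ultrafilter ℕ) (u : ℕ → X → ℝ) :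
    IsClosed (Sb 𝒰 u) := ((isOpen_Upos 𝒰 u).union (isOpen_Upos 𝒰 _)).isClosed_compl

theorem Imm.cost_nonneg {d : ℕ} {ι : Type} [Fintype ι] [DecidableEq ι] {X : Type}
    [TopologicalSpace X] (M : Imm d ι X) (om a : X → ℝ) (p : X) : 0 ≤ M.cost om a p := by
  unfold Imm.cost; positivity

theorem noPt_succ (hSeq : SeqStmt) (h0 : Step0Stmt) (hLim : LimStmt) (hE2 : Ess2Stmt)
    (hSh : ShieldStmt) {m : ℕ} (ih : NoForm m) : NoPt (m + 1) := by
  intro ι _ _ X _ _ _ _ _ _ M F om a hM h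
  obtain ⟨r0, C, hr0, hC, hs⟩ := hSeq (m + 1) ι X M F hM h.smF
  obtain ⟨g, k, s, hg, hk, hgk, hs0, halt⟩ := h0 m ι X M F om a hM h r0 C hr0 hC
  obtain ⟨Λ, 𝒰, u, τ, σ, hu, hbar⟩ := hs g hg
  obtain ⟨N, hN⟩ := hLim m ι X M F g Λ 𝒰 u τ σ hM h.smF hu k hk hgk
  have halt' : ∀ p ∈ tsupport om, (s + ∑ i : Fin m, M.cost om (a i.succ) p ≤
      (M.pre.EF F p + g p ^ 2 - 2 * k p) * om p ^ 4 + ∑ i : Fin m, a i.succ p ^ 2) ∨
      (0 < a 0 p ∧ p ∈ Upos 𝒰 u) ∨ (a 0 p < 0 ∧ p ∈ Upos 𝒰 fun j q => -u j q) := by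
    intro p hp
    rcases halt p hp with h1 | ⟨r, hr, hr', ⟨h1, h2⟩ | ⟨h1, h2⟩⟩
    · exact .inl h1
    · exact .inr (.inl ⟨h1, (hbar r p hr hr').1 h2⟩)
    · exact .inr (.inr ⟨h1, (hbar r p hr hr').2 h2⟩)
  have hess := hE2 X m om a (Upos 𝒰 u) (Upos 𝒰 fun j q => -u j q) h.smo.continuous
    (fun i => (h.sma i).continuous) (isOpen_Upos 𝒰 u) (isOpen_Upos 𝒰 _) (disjoint_Upos 𝒰 u)
    (fun p hp hom ha => (halt' p hp).resolve_left fun h1 => by
      have := Finset.sum_nonneg fun (i : Fin m) (_ : i ∈ Finset.univ) =>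
        M.cost_nonneg om (a i.succ) p
      simp [hom, ha] at h1
      linarith) h.ess
  obtain ⟨V, om', a', hD⟩ := hSh m ι X M F _ om (fun i => a i.succ) _ _ N s hM h.smF
    ((h.smF.EF.add (hg.pow 2)).sub ((Imm.sm_const 2).mul hk)) h.smo (fun i => h.sma _)
    (isClosed_Sb 𝒰 u) hN hs0 (fun p hpS hp => (halt' p hp).resolve_right fun h1 =>
      hpS (h1.elim (fun h2 => .inl h2.2) fun h2 => .inr h2.2)) hess
  exact ih ι _ N V om' a' hD

/-- **B** from its leaves -/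
theorem b_of (hC : CloseStmt) (hE : EmbStmt) (hSeq : SeqStmt) (h0 : Step0Stmt) (hLim : LimStmt)
    (hE2 : Ess2Stmt) (hSh : ShieldStmt) : BStmt := by
  have h : ∀ d, NoForm d := fun d => by
    induction d with
    | zero => exact noForm_of_noPt hC hE noPt_zero
    | succ m ih => exact noForm_of_noPt hC hE (noPt_succ hSeq h0 hLim hE2 hSh ih)
  intro d ι _ _ X _ _ _ _ _ M V om a
  exact h d ι X M V om a

end Crest.Agent.N222

end
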