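import Crest.Agent.N222.B.E0

/-!
# Row 222, part B, ε-regularity block: thin slabs (LV1, LV3)
-/

set_option autoImplicit false
set_option linter.unusedSectionVars false
open MeasureTheory Set Filter Topology Function Metric
open scoped ContDiff InnerProductSpace RealInnerProductSpace

noncomputable section

namespace Crest.Agent.N222

namespace EP

/-- the slab profile -/
def slb (t : ℝ) : ℝ := Phi (t ^ 2)

theorem slb_zero : slb 0 = 1 := Phi_of_le (by norm_num)
theorem slb_nonneg (t : ℝ) : 0 ≤ slb t := Phi_nonneg _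
theorem slb_le_one (t : ℝ) : slb t ≤ 1 := Phi_le_one _
theorem contDiff_slb {k : ℕ∞} : ContDiff ℝ k slb := contDiff_Phi.comp (contDiff_id.pow 2)
theorem continuous_slb : Continuous slb := (contDiff_slb (k := 0)).continuous
theorem slb_of_ge {t : ℝ} (h : 1 ≤ |t|) : slb t = 0 :=
  Phi_of_ge (by rw [← sq_abs]; nlinarith)
theorem hcs_slb : HasCompactSupport slb :=
  hcs_of_norm 1 fun _ hy => slb_of_ge (by simpa using hy.le)
theorem deriv_slb (t : ℝ) : deriv slb t = deriv Phi (t ^ 2) * (2 * t) := by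
  have h1 : HasDerivAt Phi (deriv Phi (t ^ 2)) (t ^ 2) :=
    ((contDiff_Phi (n := 1)).differentiable (by simp) _).hasDerivAt
  have h2 : HasDerivAt (fun t : ℝ => t ^ 2) (2 * t) t := by simpa using hasDerivAt_pow 2 t
  exact (HasDerivAt.comp (h₂ := Phi) (h := fun t : ℝ => t ^ 2) t h1 h2).deriv
theorem continuous_deriv_slb : Continuous (deriv slb) :=
  (contDiff_slb (k := 1)).continuous_deriv (by simp)
theorem integrable_deriv_slb : Integrable fun t => |deriv slb t| :=
  (continuous_deriv_slb.integrable_of_hasCompactSupport hcs_slb.deriv).abs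

theorem integral_deriv_slb : ∫ t, |deriv slb t| = 2 := by
  have h1 : ∫ t in Iic 0, |deriv slb t| = 1 := by
    rw [← slb_zero, ← hcs_slb.integral_Iic_deriv_eq (contDiff_slb (k := 1)) 0]
    refine setIntegral_congr_fun measurableSet_Iic fun t ht => abs_of_nonneg ?_
    rw [deriv_slb]
    exact mul_nonneg_of_nonpos_of_nonpos Phi_anti.deriv_nonpos (by linarith [mem_Iic.1 ht])
  have h2 : ∫ t in Ioi 0, |deriv slb t| = 1 := by
    rw [← slb_zero, ← neg_neg (slb 0), ← hcs_slb.integral_Ioi_deriv_eq (contDiff_slb (k := 1)) 0,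
      ← integral_neg]
    refine setIntegral_congr_fun measurableSet_Ioi fun t ht => abs_of_nonpos ?_
    rw [deriv_slb]
    exact mul_nonpos_of_nonpos_of_nonneg Phi_anti.deriv_nonpos (by linarith [mem_Ioi.1 ht])
  rw [← intervalIntegral.integral_Iic_add_Ioi integrable_deriv_slb.integrableOn
    integrable_deriv_slb.integrableOn, h1, h2]
  norm_num

section
variable {F : Type} [NormedAddCommGroup F] [InnerProductSpace ℝ F]

theorem contDiff_slb_inner (w : F) (δ : ℝ) : ContDiff ℝ ∞ fun y : F => slb (⟪w, y⟫ / δ) :=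
  contDiff_slb.comp ((contDiff_const.inner ℝ contDiff_id).div_const δ)

theorem norm_fderiv_slb {w : F} (hw : ‖w‖ = 1) {δ : ℝ} (hδ : 0 < δ) (y : F) :
    ‖fderiv ℝ (fun y : F => slb (⟪w, y⟫ / δ)) y‖ ≤ |deriv slb (⟪w, y⟫ / δ)| / δ := by
  have h1 : HasDerivAt slb (deriv slb (⟪w, y⟫ / δ)) (⟪w, y⟫ / δ) :=
    ((contDiff_slb (k := 1)).differentiable (by simp) _).hasDerivAt
  have h2 : HasFDerivAt (fun y : F => ⟪w, y⟫ / δ) (δ⁻¹ • innerSL ℝ w) y := by
    have := (innerSL ℝ w).hasFDerivAt (x := y) |>.const_smul δ⁻¹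
    refine this.congr_of_eventuallyEq (.of_forall fun z => ?_)
    simp [div_eq_inv_mul]
  have h3 := (h1.comp_hasFDerivAt y h2).fderiv
  rw [show (fun y : F => slb (⟪w, y⟫ / δ)) = slb ∘ fun y : F => ⟪w, y⟫ / δ from rfl, h3,
    norm_smul, norm_smul, innerSL_apply_norm, hw, Real.norm_eq_abs, Real.norm_eq_abs,
    abs_of_pos (inv_pos.2 hδ), mul_one, div_eq_mul_inv |_|]

variable [FiniteDimensional ℝ F] [MeasurableSpace F] [BorelSpace F]

/-- thin slabs carry no mass -/
theorem tendsto_slb {g : F → ℝ} (hg : Integrable g) {w : F} (hw : w ≠ 0) :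
    Tendsto (fun δ : ℝ => ∫ y, g y * slb (⟪w, y⟫ / δ)) (𝓝[>] 0) (𝓝 0) := by
  have := tendsto_integral_filter_of_dominated_convergence (μ := (volume : Measure F))
    (l := 𝓝[>] (0 : ℝ)) (F := fun δ y => g y * slb (⟪w, y⟫ / δ)) (f := fun _ => 0)
    (fun y => ‖g y‖)
    (.of_forall fun δ => hg.1.mul (contDiff_slb_inner w δ).continuous.aestronglyMeasurable)
    (.of_forall fun δ => .of_forall fun y => by
      rw [norm_mul, Real.norm_of_nonneg (slb_nonneg _)]
      exact mul_le_of_le_one_right (norm_nonneg _) (slb_le_one _)) hg.norm ?_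
  · simpa using this
  · filter_upwards [ae_inner_ne (c := 0) (Or.inl hw)] with y hy
    refine tendsto_const_nhds.congr' ?_
    filter_upwards [Ioo_mem_nhdsGT (abs_pos.2 hy)] with δ hδ
    rw [slb_of_ge, mul_zero]
    rw [abs_div, abs_of_pos hδ.1, one_le_div hδ.1]
    exact hδ.2.le

end

variable {d : ℕ} {V : Measure (Y d × Y d)} {n : Y d} {J : E (Fin d) →ₗᵢ[ℝ] Y d}

/-- the slice integrals are continuous and bounded -/
theorem Split.slice (h : Split n J) {f : Y d → ℝ} (hf : Continuous f) (hc : HasCompactSupport f) :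
    (Continuous fun s : ℝ => ∫ z, f (s • n + J z)) ∧
      ∃ C : ℝ, ∀ s : ℝ, ‖∫ z, f (s • n + J z)‖ ≤ C := by
  obtain ⟨R, hR, h0⟩ := exists_norm_of_hcs hc
  obtain ⟨C, hC⟩ := hf.bounded_above_of_compact_support hc
  have hb : Integrable ((closedBall (0 : E (Fin d)) R).indicator fun _ => C) :=
    (integrable_indicator_iff measurableSet_closedBall).2
      (integrableOn_const (isCompact_closedBall _ _).measure_lt_top.ne)
  have hle : ∀ (s : ℝ) (z : E (Fin d)),
      ‖f (s • n + J z)‖ ≤ (closedBall (0 : E (Fin d)) R).indicator (fun _ => C) z := by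
    intro s z
    by_cases hz : z ∈ closedBall (0 : E (Fin d)) R
    · rw [indicator_of_mem hz]; exact hC _
    · rw [indicator_of_notMem hz, h0, norm_zero]
      rw [mem_closedBall_zero_iff, not_le] at hz
      refine le_of_sq_le_sq ?_ (norm_nonneg _)
      rw [h.norm_sq]
      nlinarith [sq_nonneg s]
  refine ⟨continuous_of_dominated (fun s => ?_) (fun s => .of_forall (hle s)) hb
    (.of_forall fun z => by fun_prop), _, fun s => norm_integral_le_of_norm_le hb
    (.of_forall (hle s))⟩
  exact (by fun_prop : Continuous fun z => f (s • n + J z)).aestronglyMeasurable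

theorem Split.tendsto_bd (h : Split n J) {f : Y d → ℝ} (hf : Continuous f)
    (hc : HasCompactSupport f) :
    Tendsto (fun δ : ℝ => ∫ y, f y * (|deriv slb (⟪n, y⟫ / δ)| / δ)) (𝓝[>] 0)
      (𝓝 (2 * ∫ z, f (J z))) := by
  obtain ⟨hm, C, hC⟩ := h.slice hf hc
  set m : ℝ → ℝ := fun s => ∫ z, f (s • n + J z) with hmd
  have e0 : 2 * ∫ z, f (J z) = ∫ t, m 0 * |deriv slb t| := by
    rw [integral_const_mul, integral_deriv_slb, mul_comm]
    simp [hmd]
  have h1 : Tendsto (fun δ : ℝ => ∫ t, m (δ * t) * |deriv slb t|) (𝓝[>] 0)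
      (𝓝 (∫ t, m 0 * |deriv slb t|)) := by
    refine tendsto_integral_filter_of_dominated_convergence (fun t => C * |deriv slb t|)
      (.of_forall fun δ => ?_) (.of_forall fun δ => .of_forall fun t => ?_)
      (integrable_deriv_slb.const_mul C) (.of_forall fun t => ?_)
    · exact ((hm.comp (continuous_const.mul continuous_id)).mul
        continuous_deriv_slb.abs).aestronglyMeasurable
    · rw [norm_mul, Real.norm_of_nonneg (abs_nonneg _)]
      exact mul_le_mul_of_nonneg_right (hC _) (abs_nonneg _)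
    · refine Tendsto.mul_const _ (Tendsto.mono_left ?_ nhdsWithin_le_nhds)
      have : Continuous fun δ : ℝ => m (δ * t) := hm.comp (continuous_id.mul continuous_const)
      simpa using this.tendsto 0
  rw [e0]
  refine h1.congr' ?_
  filter_upwards [self_mem_nhdsWithin] with δ hδ
  have hδ : 0 < δ := hδ
  have hcont : Continuous fun y : Y d => |deriv slb (⟪n, y⟫ / δ)| / δ :=
    ((continuous_deriv_slb.comp ((continuous_const.inner continuous_id).div_const δ)).abs).div_const δ
  rw [h.integral_eq (f := fun y => f y * (|deriv slb (⟪n, y⟫ / δ)| / δ))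
    ((hf.mul hcont).integrable_of_hasCompactSupport hc.mul_right)]
  simp only [h.inner_apply, integral_mul_const]
  have e1 := Measure.integral_comp_mul_left (fun s => m s * (|deriv slb (s / δ)| / δ)) δ
  simp only [mul_div_cancel_left₀ _ hδ.ne', ← mul_div_assoc, integral_div] at e1
  rw [abs_of_pos (inv_pos.2 hδ), smul_eq_mul, div_eq_iff hδ.ne'] at e1
  simp only [← mul_div_assoc, integral_div]
  rw [e1]
  field_simp
  rfl

/-- thin slab: support in a hyperplane gives multiplicity at most one -/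
theorem slab (H : LimV d V) (h : Split n J) (hs : ∀ y, InSupp V y → ⟪n, y⟫ = 0) {f : Y d → ℝ}
    (hf : ContDiff ℝ ∞ f) (hc : HasCompactSupport f) (h0 : ∀ y, 0 ≤ f y) :
    ∫ q, f q.1 ∂V ≤ ∫ z, f (J z) := by
  have hn : n ≠ 0 := fun e => by simpa [e] using h.unit
  have hDc : Continuous fun y => ‖fderiv ℝ f y‖ := (hf.continuous_fderiv (by simp)).norm
  have hDs : HasCompactSupport fun y => ‖fderiv ℝ f y‖ := (hc.fderiv ℝ).norm
  have hD : Integrable fun y => ‖fderiv ℝ f y‖ := hDc.integrable_of_hasCompactSupport hDs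
  have hlim := (tendsto_slb hD hn).add (h.tendsto_bd hf.continuous hc)
  have key : 2 * ∫ q, f q.1 ∂V ≤ 0 + 2 * ∫ z, f (J z) := by
    refine ge_of_tendsto hlim ?_
    filter_upwards [self_mem_nhdsWithin] with δ hδ
    have hδ : 0 < δ := hδ
    have hcont : Continuous fun y : Y d => |deriv slb (⟪n, y⟫ / δ)| / δ :=
      ((continuous_deriv_slb.comp
        ((continuous_const.inner continuous_id).div_const δ)).abs).div_const δ
    have hS := contDiff_slb_inner n δ
    have h1 := H.cal (fun y => f y * slb (⟪n, y⟫ / δ)) (hf.mul hS) hc.mul_right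
      fun y => mul_nonneg (h0 y) (slb_nonneg _)
    have h2 : ∫ q, f q.1 * slb (⟪n, q.1⟫ / δ) ∂V = ∫ q, f q.1 ∂V := by
      refine integral_congr_ae ?_
      filter_upwards [ae_inSupp V] with q hq
      rw [hs _ hq, zero_div, slb_zero, mul_one]
    have i1 : Integrable fun y => ‖fderiv ℝ f y‖ * slb (⟪n, y⟫ / δ) :=
      (hDc.mul hS.continuous).integrable_of_hasCompactSupport hDs.mul_right
    have i2 : Integrable fun y => f y * (|deriv slb (⟪n, y⟫ / δ)| / δ) :=
      (hf.continuous.mul hcont).integrable_of_hasCompactSupport hc.mul_right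
    rw [h2] at h1
    rw [← integral_add i1 i2]
    refine h1.trans (integral_mono_of_nonneg (.of_forall fun y => norm_nonneg _) (i1.add i2)
      (.of_forall fun y => ?_))
    simp only
    rw [fderiv_fun_mul (hf.differentiable (by simp) y) (hS.differentiable (by simp) y),
      add_comm (f y • _)]
    refine (norm_add_le _ _).trans (add_le_add ?_ ?_)
    · rw [norm_smul, Real.norm_of_nonneg (slb_nonneg _), mul_comm]
    · rw [norm_smul, Real.norm_of_nonneg (h0 y)]
      exact mul_le_mul_of_nonneg_left (norm_fderiv_slb h.unit hδ y) (h0 y)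
  linarith

theorem contDiff_Phi_sq : ContDiff ℝ ∞ fun y : Y d => Phi (‖y‖ ^ 2) := by
  simpa using contDiff_Phi_ball (0 : Y d) 1

theorem hcs_Phi_sq {F : Type} [NormedAddCommGroup F] [ProperSpace F] :
    HasCompactSupport fun y : F => Phi (‖y‖ ^ 2) := by
  simpa using hcs_Phi (0 : F) one_pos

/-- the support does not lie in a subspace of codimension two -/
theorem codim_two (H : LimV d V) {e w : Y d} (he : ‖e‖ = 1) (hw : ‖w‖ = 1)
    (h1 : ∀ y, InSupp V y → ⟪e, y⟫ = 0) (h2 : ∀ y, InSupp V y → ⟪w, y⟫ = 0) :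
    w = e ∨ w = -e := by
  obtain ⟨J, h⟩ := exists_split he
  obtain ⟨z0, hz0⟩ := h.surj w
  by_cases hz : z0 = 0
  · rw [hz, map_zero, add_zero] at hz0
    have h3 : |⟪e, w⟫| = 1 := by
      have := congrArg norm hz0
      rw [norm_smul, he, hw, mul_one, Real.norm_eq_abs] at this
      exact this.symm
    rcases (abs_eq zero_le_one).1 h3 with h4 | h4
    · left; rw [hz0, h4, one_smul]
    · right; rw [hz0, h4, neg_smul, one_smul]
  · exfalso
    have hin : ∀ z, ⟪w, J z⟫ = ⟪z0, z⟫ := fun z => by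
      rw [hz0, inner_add_left, inner_smul_left, h.orth, mul_zero, zero_add, J.inner_map_map]
    have hI : Integrable fun z : E (Fin d) => Phi (‖z‖ ^ 2) :=
      (by fun_prop : Continuous fun z : E (Fin d) => Phi (‖z‖ ^ 2)).integrable_of_hasCompactSupport
        hcs_Phi_sq
    have hlow : cPhi d ≤ ∫ q, Phi (‖q.1‖ ^ 2) ∂V := by simpa using H.low 0 H.zero 1 one_pos
    refine (cPhi_pos d).not_ge (ge_of_tendsto' (tendsto_slb hI hz) fun δ => hlow.trans ?_)
    have h3 := slab H h h1 (f := fun y => Phi (‖y‖ ^ 2) * slb (⟪w, y⟫ / δ))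
      (contDiff_Phi_sq.mul (contDiff_slb_inner w δ)) hcs_Phi_sq.mul_right
      fun y => mul_nonneg (Phi_nonneg _) (slb_nonneg _)
    simp only [hin, J.norm_map] at h3
    refine le_of_eq_of_le (integral_congr_ae ?_) h3
    filter_upwards [ae_inSupp V] with q hq
    rw [h2 _ hq, zero_div, slb_zero, mul_one]

end EP

open EP

theorem lv1 : LV1Stmt := by
  intro d V H n hn hs
  obtain ⟨J, h⟩ := exists_split (n := ‖n‖⁻¹ • n) (norm_smul_inv_norm hn)
  have := slab H h (fun y hy => by rw [inner_smul_left, hs y hy, mul_zero]) contDiff_Phi_sq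
    hcs_Phi_sq fun y => Phi_nonneg _
  simpa only [J.norm_map, cPhi] using this

theorem lv3 : LV3Stmt := by
  intro d V H hs
  obtain ⟨t, ht, htc, htd⟩ := (TopologicalSpace.IsSeparable.of_separableSpace
    {y | InSupp V y}).exists_countable_dense_subset
  have good : ∀ᵐ q ∂V, ‖q.2‖ = 1 ∧ ∀ y, InSupp V y → ⟪q.2, y⟫ = 0 := by
    filter_upwards [H.unit, (ae_ball_iff htc).2 fun y hy => hs y (ht hy)] with q h1 h2
    have h3 : ∀ y, InSupp V y → ⟪q.1 - y, q.2⟫ = 0 := fun y hy =>
      closure_minimal (t := {y | ⟪q.1 - y, q.2⟫ = 0}) h2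
        (isClosed_eq (by fun_prop) continuous_const) (htd hy)
    refine ⟨h1, fun y hy => ?_⟩
    have h4 := h3 y hy
    have h5 := h3 0 H.zero
    rw [sub_zero] at h5
    rw [inner_sub_left, h5, zero_sub, neg_eq_zero] at h4
    rw [real_inner_comm, h4]
  have hV : V ≠ 0 := fun e => by simpa [e] using H.zero 1 one_pos
  have : (ae V).NeBot := ae_neBot.2 hV
  obtain ⟨q0, h1, h2⟩ := good.exists
  refine ⟨q0.2, h1, ?_⟩
  filter_upwards [good] with q hq
  exact codim_two H h1 hq.1 h2 hq.2

end Crest.Agent.N222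

end
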