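import Crest.Agent.N222.B.TwoPl

/-!
# Row 222, part B, ε-regularity block: one plane (LV2)
-/

set_option autoImplicit false
set_option linter.unusedSectionVars false
open MeasureTheory Set Filter Topology Function Metric
open scoped ContDiff InnerProductSpace RealInnerProductSpace

noncomputable section

namespace Crest.Agent.N222

namespace EP
variable {d : ℕ} {V : Measure (Y d × Y d)} {n : Y d} {J : E (Fin d) →ₗᵢ[ℝ] Y d}

namespace L2

/-- the flow along the tangential part of `w` -/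
def fl (w : Y d) (s : ℝ) (q : Y d × Y d) : Y d × Y d := q + s • (w - ⟪q.2, w⟫ • q.2, 0)

theorem fl_snd (w : Y d) (s : ℝ) (q : Y d × Y d) : (fl w s q).2 = q.2 := by simp [fl]

theorem fl_add (w : Y d) (s t : ℝ) (q : Y d × Y d) : fl w s (fl w t q) = fl w (t + s) q := by
  rw [fl, fl_snd, fl, fl, add_smul, add_assoc]

theorem fl_zero (w : Y d) (q : Y d × Y d) : fl w 0 q = q := by simp [fl]

theorem contDiff_fl (w : Y d) (s : ℝ) : ContDiff ℝ ∞ (fl w s) :=
  contDiff_id.add (((contDiff_const.sub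
    ((contDiff_snd.inner ℝ contDiff_const).smul contDiff_snd)).prodMk contDiff_const).const_smul s)

/-- the flow as a homeomorphism -/
def flH (w : Y d) (s : ℝ) : (Y d × Y d) ≃ₜ (Y d × Y d) where
  toFun := fl w s
  invFun := fl w (-s)
  left_inv q := by rw [fl_add, add_neg_cancel, fl_zero]
  right_inv q := by rw [fl_add, neg_add_cancel, fl_zero]
  continuous_toFun := (contDiff_fl w s).continuous
  continuous_invFun := (contDiff_fl w (-s)).continuous

theorem hasDerivAt_fl {g : Y d × Y d → ℝ} (hg : Differentiable ℝ g) (w : Y d) (s : ℝ)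
    (q : Y d × Y d) : HasDerivAt (fun t => g (fl w t q))
      (fderiv ℝ g (fl w s q) (w - ⟪q.2, w⟫ • q.2, 0)) s := by
  have h : HasDerivAt (fun t => fl w t q) (w - ⟪q.2, w⟫ • q.2, (0 : Y d)) s := by
    simpa [fl] using
      ((hasDerivAt_id s).smul_const (w - ⟪q.2, w⟫ • q.2, (0 : Y d))).const_add q
  exact (hg _).hasFDerivAt.comp_hasDerivAt s h

theorem fderiv_fl {g : Y d × Y d → ℝ} (hg : ContDiff ℝ ∞ g) (w : Y d) (s : ℝ) (q : Y d × Y d) :
    fderiv ℝ (g ∘ fl w s) q (w - ⟪q.2, w⟫ • q.2, 0) =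
      fderiv ℝ g (fl w s q) (w - ⟪q.2, w⟫ • q.2, 0) := by
  have h1 := hasDerivAt_fl ((hg.comp (contDiff_fl w s)).differentiable (by simp)) w 0 q
  have h2 := (hasDerivAt_fl (hg.differentiable (by simp)) w (0 + s) q).comp_add_const 0 s
  rw [fl_zero] at h1
  rw [zero_add] at h2
  refine h1.unique (h2.congr_of_eventuallyEq (.of_forall fun t => ?_))
  simp only [comp_apply, fl_add]

theorem integrable_cs (H : LimV d V) {g : Y d × Y d → ℝ} (hg : Continuous g)
    (hc : HasCompactSupport g) : Integrable g V := by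
  obtain ⟨R, -, h⟩ := exists_norm_of_hcs hc
  exact H.integrable hg R fun q hq => h q (hq.le.trans (norm_fst_le q))

theorem flow_inv (H : LimV d V)
    (ht : ∀ (w : Y d) (g : Y d × Y d → ℝ), ContDiff ℝ ∞ g → HasCompactSupport g →
      ∫ q, fderiv ℝ g q (w - ⟪q.2, w⟫ • q.2, 0) ∂V = 0) (w : Y d) {g : Y d × Y d → ℝ}
    (hg : ContDiff ℝ ∞ g) (hc : HasCompactSupport g) : ∫ q, g (fl w 1 q) ∂V = ∫ q, g q ∂V := by
  have hd : Continuous (fderiv ℝ g) := hg.continuous_fderiv (by simp)
  obtain ⟨C, hC⟩ := hd.bounded_above_of_compact_support (hc.fderiv ℝ)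
  obtain ⟨R, hR, h0⟩ := exists_norm_of_hcs (hc.fderiv ℝ)
  have hC0 : 0 ≤ C := (norm_nonneg _).trans (hC 0)
  have hcs : ∀ s, HasCompactSupport (g ∘ fl w s) := fun s => hc.comp_homeomorph (flH w s)
  have hco : ∀ s, Continuous (g ∘ fl w s) := fun s => (hg.comp (contDiff_fl w s)).continuous
  have key : ∀ s, HasDerivAt (fun t => ∫ q, g (fl w t q) ∂V) 0 s := fun s => by
    set ρ := 2 * (R + (|s| + 1) * (2 * ‖w‖)) with hρ
    have hρ0 : 0 < ρ := by positivity
    have := (hasDerivAt_integral_of_dominated_loc_of_deriv_le (μ := V) (x₀ := s)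
      (F := fun t q => g (fl w t q))
      (F' := fun t q => fderiv ℝ g (fl w t q) (w - ⟪q.2, w⟫ • q.2, 0))
      (bound := fun q => C * (2 * ‖w‖) * Phi (‖q.1 - 0‖ ^ 2 / ρ ^ 2)) (ball_mem_nhds s one_pos)
      (.of_forall fun t => (hco t).aestronglyMeasurable) (integrable_cs H (hco s) (hcs s))
      (Continuous.aestronglyMeasurable
        ((hd.comp (contDiff_fl w s).continuous).clm_apply (by fun_prop))) ?_
      ((H.integrable_fst (contDiff_Phi_ball 0 ρ).continuous (hcs_Phi 0 hρ0)).const_mul _)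
      (.of_forall fun q t _ => hasDerivAt_fl (hg.differentiable (by simp)) w t q)).2
    · simp only [← fderiv_fl hg] at this
      rwa [ht w _ (hg.comp (contDiff_fl w s)) (hcs s)] at this
    filter_upwards [H.unit] with q hq t hts
    have h1 : ‖(w - ⟪q.2, w⟫ • q.2, (0 : Y d))‖ ≤ 2 * ‖w‖ := by
      have := norm_sub_le w (⟪q.2, w⟫ • q.2)
      have h2 := abs_real_inner_le_norm q.2 w
      rw [norm_smul, hq, Real.norm_eq_abs] at this
      rw [hq] at h2
      simp only [Prod.norm_mk, norm_zero, max_le_iff]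
      exact ⟨by linarith, by positivity⟩
    by_cases hq1 : ‖q.1 - 0‖ ≤ ρ / 2
    · rw [Phi_ball_one hρ0 hq1, mul_one]
      exact (ContinuousLinearMap.le_opNorm _ _).trans (mul_le_mul (hC _) h1 (norm_nonneg _) hC0)
    · have h3 : |t| ≤ |s| + 1 := by
        have := abs_sub_abs_le_abs_sub t s
        rw [mem_ball, Real.dist_eq] at hts
        linarith
      have h4 := norm_sub_le (fl w t q) (t • (w - ⟪q.2, w⟫ • q.2, (0 : Y d)))
      rw [norm_smul, Real.norm_eq_abs, show fl w t q - _ = q from add_sub_cancel_right _ _] at h4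
      have h5 := mul_le_mul h3 h1 (norm_nonneg _) (by positivity)
      have h6 := norm_fst_le q
      rw [sub_zero, not_le] at hq1
      rw [h0 _ (by linarith), zero_apply, norm_zero]
      exact mul_nonneg (by positivity) (Phi_nonneg _)
  have := is_const_of_deriv_eq_zero (fun s => (key s).differentiableAt) (fun s => (key s).deriv) 1 0
  simpa only [fl_zero] using this

theorem fin_fst (H : LimV d V) : IsFiniteMeasureOnCompacts (V.map Prod.fst) := ⟨fun K hK => by
  obtain ⟨C, hC⟩ := H.fin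
  obtain ⟨R, hR, h⟩ := hK.isBounded.subset_closedBall_lt 0 0
  refine (measure_mono h).trans_lt ?_
  rw [Measure.map_apply measurable_fst measurableSet_closedBall, ← prod_univ]
  exact (hC 0 R hR).trans_lt ENNReal.ofReal_lt_top⟩

/-- the averaged kernel -/
def KK (J : E (Fin d) →ₗᵢ[ℝ] Y d) (y0 : Y d) (f : Y d → ℝ) (ρ : ℝ) (x : Y d) : ℝ :=
  (ρ ^ d)⁻¹ * ∫ z, Phi (‖x - (y0 + J z)‖ ^ 2 / ρ ^ 2) * f (y0 + J z)

theorem KK_eq (h : Split n J) (y0 : Y d) (f : Y d → ℝ) {ρ : ℝ} (hρ : 0 < ρ) (s : ℝ)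
    (z0 : E (Fin d)) : KK J y0 f ρ (y0 + (s • n + J z0)) =
      ∫ w, Phi (s ^ 2 / ρ ^ 2 + ‖w‖ ^ 2) * f (y0 + J (z0 + ρ • w)) := by
  rw [KK, ← integral_add_left_eq_self _ z0]
  have := Measure.integral_comp_smul_of_nonneg (volume : Measure (E (Fin d)))
    (fun z => Phi (‖y0 + (s • n + J z0) - (y0 + J (z0 + z))‖ ^ 2 / ρ ^ 2) * f (y0 + J (z0 + z))) ρ
    (hR := hρ.le)
  rw [finrank_euclideanSpace_fin, smul_eq_mul] at this
  refine this.symm.trans (integral_congr_ae (.of_forall fun w => ?_))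
  have e : y0 + (s • n + J z0) - (y0 + J (z0 + ρ • w)) = s • n + J (-(ρ • w)) := by
    rw [map_add, map_neg]; abel
  dsimp only
  rw [e, h.norm_sq, norm_neg, norm_smul, Real.norm_eq_abs, mul_pow, sq_abs, add_div,
    mul_div_cancel_left₀ _ (pow_pos hρ 2).ne']

theorem integrable_Phi (d : ℕ) : Integrable fun z : E (Fin d) => Phi (‖z‖ ^ 2) :=
  Continuous.integrable_of_hasCompactSupport (by fun_prop)
    (by simpa using hcs_Phi (0 : E (Fin d)) one_pos)

theorem plane_le_mu (μ : Measure (Y d)) [IsFiniteMeasureOnCompacts μ] (h : Split n J) (y0 : Y d)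
    (hs : ∀ z (r : ℝ), 0 < r → cPhi d * r ^ d ≤ ∫ x, Phi (‖x - (y0 + J z)‖ ^ 2 / r ^ 2) ∂μ)
    {f : Y d → ℝ} (hf : Continuous f) (hc : HasCompactSupport f) (h0 : ∀ y, 0 ≤ f y) :
    ∫ z, f (y0 + J z) ≤ ∫ x, {y | ⟪n, y - y0⟫ = 0}.indicator f x ∂μ := by
  obtain ⟨C, hC⟩ := hf.bounded_above_of_compact_support hc
  obtain ⟨R, hR, hR0⟩ := exists_norm_of_hcs hc
  have hC0 : 0 ≤ C := (norm_nonneg _).trans (hC 0)
  have hJ := J.continuous
  have hz : ∀ {ρ : ℝ} (x : Y d) (z : E (Fin d)), 0 < ρ → R + ρ ≤ ‖x‖ →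
      Phi (‖x - (y0 + J z)‖ ^ 2 / ρ ^ 2) * f (y0 + J z) = 0 := fun {ρ} x z hρ hx => by
    by_cases h1 : R ≤ ‖y0 + J z‖
    · rw [hR0 _ h1, mul_zero]
    · rw [Phi_ball_zero hρ (by linarith [norm_sub_norm_le x (y0 + J z)]), zero_mul]
  have hI : ∀ {ρ : ℝ}, 0 < ρ → Integrable (uncurry fun (z : E (Fin d)) (x : Y d) =>
      Phi (‖x - (y0 + J z)‖ ^ 2 / ρ ^ 2) * f (y0 + J z)) (volume.prod μ) := fun {ρ} hρ => by
    refine Continuous.integrable_of_hasCompactSupport (by unfold uncurry; fun_prop)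
      (hcs_of_norm (R + ρ + ‖y0‖) fun p hp => ?_)
    rcases lt_max_iff.1 (Prod.norm_def p ▸ hp) with h1 | h1
    · have := norm_sub_norm_le (J p.1) (-y0)
      rw [J.norm_map, norm_neg, sub_neg_eq_add, add_comm (J p.1)] at this
      exact (congrArg (_ * ·) (hR0 _ (by linarith))).trans (mul_zero _)
    · exact hz _ _ hρ (by linarith [norm_nonneg y0])
  have hdec : ∀ x : Y d, ∃ z0, x = y0 + (⟪n, x - y0⟫ • n + J z0) := fun x => by
    obtain ⟨z0, e⟩ := h.surj (x - y0)
    exact ⟨z0, by rw [← e, add_sub_cancel]⟩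
  have hb : ∀ (ρ s : ℝ) (w : E (Fin d)) (y : Y d),
      ‖Phi (s ^ 2 / ρ ^ 2 + ‖w‖ ^ 2) * f y‖ ≤ Phi (‖w‖ ^ 2) * C := fun ρ s w y => by
    rw [norm_mul, Real.norm_of_nonneg (Phi_nonneg _)]
    exact mul_le_mul (Phi_anti (le_add_of_nonneg_left (by positivity))) (hC _) (norm_nonneg _)
      (Phi_nonneg _)
  have h1 : ∀ ρ : ℝ, 0 < ρ → cPhi d * ∫ z, f (y0 + J z) ≤ ∫ x, KK J y0 f ρ x ∂μ := fun ρ hρ => by
    simp only [KK]
    rw [integral_const_mul, ← integral_integral_swap (hI hρ), le_inv_mul_iff₀ (pow_pos hρ d),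
      ← mul_assoc, ← integral_const_mul]
    refine integral_mono ((Continuous.integrable_of_hasCompactSupport (by fun_prop)
      (hcs_plane hc y0 J)).const_mul _) (hI hρ).integral_prod_left fun z => ?_
    dsimp only
    rw [integral_mul_const, mul_comm (ρ ^ d)]
    exact mul_le_mul_of_nonneg_right (hs z ρ hρ) (h0 _)
  have h2 : Tendsto (fun ρ => ∫ x, KK J y0 f ρ x ∂μ) (𝓝[>] 0)
      (𝓝 (∫ x, cPhi d * {y | ⟪n, y - y0⟫ = 0}.indicator f x ∂μ)) := by
    refine tendsto_integral_filter_of_dominated_convergence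
      ((closedBall (0 : Y d) (R + 1)).indicator fun _ => cPhi d * C) ?_ ?_
      ((integrable_indicator_iff measurableSet_closedBall).2
        (integrableOn_const measure_closedBall_lt_top.ne)) (.of_forall fun x => ?_)
    · filter_upwards [self_mem_nhdsWithin] with ρ hρ
      exact ((hI hρ).integral_prod_right.const_mul _).aestronglyMeasurable
    · filter_upwards [Ioc_mem_nhdsGT one_pos] with ρ hρ
      refine .of_forall fun x => ?_
      by_cases hx : x ∈ closedBall (0 : Y d) (R + 1)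
      · obtain ⟨z0, e⟩ := hdec x
        rw [indicator_of_mem hx, e, KK_eq h y0 f hρ.1, cPhi, ← integral_mul_const]
        exact norm_integral_le_of_norm_le ((integrable_Phi d).mul_const C)
          (.of_forall fun w => hb _ _ _ _)
      · rw [indicator_of_notMem hx]
        rw [mem_closedBall_zero_iff, not_le] at hx
        simp only [KK, hz x _ hρ.1 (by linarith [hρ.2]), integral_zero, mul_zero, norm_zero, le_refl]
    · obtain ⟨z0, e⟩ := hdec x
      have h3 : Tendsto (fun ρ : ℝ => ∫ w : E (Fin d), Phi (⟪n, x - y0⟫ ^ 2 / ρ ^ 2 + ‖w‖ ^ 2) *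
          f (y0 + J (z0 + ρ • w))) (𝓝[>] 0)
          (𝓝 (∫ w : E (Fin d), Phi (‖w‖ ^ 2) * {y | ⟪n, y - y0⟫ = 0}.indicator f x)) := by
        refine tendsto_integral_filter_of_dominated_convergence (fun w => Phi (‖w‖ ^ 2) * C)
          (.of_forall fun ρ => Continuous.aestronglyMeasurable (by fun_prop))
          (.of_forall fun ρ => .of_forall fun w => hb _ _ _ _) ((integrable_Phi d).mul_const C)
          (.of_forall fun w => ?_)
        by_cases hx : ⟪n, x - y0⟫ = 0
        · rw [indicator_of_mem (show x ∈ {y | ⟪n, y - y0⟫ = 0} from hx)]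
          rw [hx, zero_smul, zero_add] at e
          have : Continuous fun ρ : ℝ => Phi (‖w‖ ^ 2) * f (y0 + J (z0 + ρ • w)) := by fun_prop
          simpa [hx, ← e] using (this.tendsto 0).mono_left (nhdsWithin_le_nhds (s := Ioi 0))
        · rw [indicator_of_notMem (show x ∉ {y | ⟪n, y - y0⟫ = 0} from hx), mul_zero]
          refine tendsto_const_nhds.congr' ?_
          filter_upwards [Ioc_mem_nhdsGT (abs_pos.2 hx)] with ρ hρ
          have : 1 ≤ ⟪n, x - y0⟫ ^ 2 / ρ ^ 2 := by
            rw [one_le_div (pow_pos hρ.1 2), ← sq_abs ⟪n, x - y0⟫]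
            exact pow_le_pow_left₀ hρ.1.le hρ.2 2
          rw [Phi_of_ge (this.trans (le_add_of_nonneg_right (sq_nonneg _))), zero_mul]
      rw [integral_mul_const] at h3
      refine h3.congr' ?_
      filter_upwards [self_mem_nhdsWithin] with ρ hρ
      conv_rhs => rw [e]
      exact (KK_eq h y0 f hρ _ _).symm
  rw [integral_const_mul] at h2
  exact le_of_mul_le_mul_left (ge_of_tendsto h2 (eventually_nhdsWithin_of_forall h1)) (cPhi_pos d)

theorem isClosed_pl (n y0 : Y d) : IsClosed {y : Y d | ⟪n, y - y0⟫ = 0} :=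
  isClosed_eq (by fun_prop) continuous_const

end L2
open L2

/-- the support is a union of planes -/
theorem transport (H : LimV d V)
    (ht : ∀ (w : Y d) (g : Y d × Y d → ℝ), ContDiff ℝ ∞ g → HasCompactSupport g →
      ∫ q, fderiv ℝ g q (w - ⟪q.2, w⟫ • q.2, 0) ∂V = 0) {q : Y d × Y d} (hq : q ∈ V.support)
    {w : Y d} (hw : ⟪q.2, w⟫ = 0) : InSupp V (q.1 + w) := by
  intro ε hε
  let g : Y d × Y d → ℝ := fun p =>
    Phi (‖p.1 - (q.1 + w)‖ ^ 2 / ε ^ 2) * Phi (‖p.2 - q.2‖ ^ 2 / 1 ^ 2)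
  have hg : ContDiff ℝ ∞ g := ((contDiff_Phi_ball _ _).comp contDiff_fst).mul
    ((contDiff_Phi_ball _ _).comp contDiff_snd)
  have hc : HasCompactSupport g := by
    refine hcs_of_norm (ε + ‖q.1 + w‖ + (1 + ‖q.2‖)) fun p hp => ?_
    rcases lt_max_iff.1 (Prod.norm_def p ▸ hp) with h1 | h1
    · exact mul_eq_zero_of_left
        (Phi_ball_zero hε (by linarith [norm_sub_norm_le p.1 (q.1 + w), norm_nonneg q.2])) _
    · exact mul_eq_zero_of_right _ (Phi_ball_zero one_pos
        (by linarith [norm_sub_norm_le p.2 q.2, norm_nonneg (q.1 + w)]))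
  have h0 : ∀ p, 0 ≤ g p := fun p => mul_nonneg (Phi_nonneg _) (Phi_nonneg _)
  have hco : Continuous (g ∘ fl w 1) := (hg.comp (contDiff_fl w 1)).continuous
  have h1 : 0 < ∫ p, g (fl w 1 p) ∂V := by
    refine (integral_pos_iff_support_of_nonneg (fun p => h0 _)
      (integrable_cs H hco (hc.comp_homeomorph (flH w 1)))).2
      ((Measure.mem_support_iff_forall q).1 hq _ (hco.isOpen_support.mem_nhds ?_))
    simp [g, fl, hw, Phi_of_le]
  rw [flow_inv H ht w hg hc,
    integral_pos_iff_support_of_nonneg h0 (integrable_cs H hg.continuous hc)] at h1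
  refine h1.trans_le (measure_mono fun p hp => ⟨?_, trivial⟩)
  by_contra h2
  rw [mem_ball_iff_norm, not_lt] at h2
  exact hp (mul_eq_zero_of_left (Phi_ball_zero hε h2) _)

/-- a plane in the support has multiplicity at least one -/
theorem plane_le (H : LimV d V) (h : Split n J) (y0 : Y d) (hs : ∀ z, InSupp V (y0 + J z))
    {f : Y d → ℝ} (hf : Continuous f) (hc : HasCompactSupport f) (h0 : ∀ y, 0 ≤ f y) :
    ∫ z, f (y0 + J z) ≤ ∫ q, {y | ⟪n, y - y0⟫ = 0}.indicator f q.1 ∂V := by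
  have := fin_fst H
  rw [← integral_map measurable_fst.aemeasurable
    (hf.aestronglyMeasurable.indicator (isClosed_pl n y0).measurableSet)]
  refine plane_le_mu _ h y0 (fun z r hr => ?_) hf hc h0
  rw [integral_map measurable_fst.aemeasurable
    (contDiff_Phi_ball _ _).continuous.aestronglyMeasurable]
  exact H.low _ (hs z) r hr

/-- a second plane is seen outside the first one -/
theorem plane_le_compl (H : LimV d V) (h : Split n J) (y0 : Y d) (hs : ∀ z, InSupp V (y0 + J z))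
    {n1 y1 : Y d} (hne : ⟪n1, y0 - y1⟫ ≠ 0)
    {f : Y d → ℝ} (hf : Continuous f) (hc : HasCompactSupport f) (h0 : ∀ y, 0 ≤ f y) :
    ∫ z, f (y0 + J z) ≤ ∫ q, {y | ⟪n1, y - y1⟫ = 0}ᶜ.indicator f q.1 ∂V := by
  have hJ := J.continuous
  let m : ℕ → Y d → ℝ := fun k y => min 1 (k * |⟪n1, y - y1⟫|)
  have hm0 : ∀ k y, 0 ≤ m k y := fun k y => le_min zero_le_one (by positivity)
  have hm1 : ∀ k y, f y * m k y ≤ f y := fun k y =>
    mul_le_of_le_one_right (h0 y) (min_le_left _ _)
  have hmc : ∀ k, Continuous (m k) := fun k => by fun_prop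
  have hI := H.integrable_fst hf hc
  have hI' : ∀ {A : Set (Y d)} {g : Y d → ℝ}, MeasurableSet A → Integrable (fun q => g q.1) V →
      Integrable (fun q : Y d × Y d => A.indicator g q.1) V := fun hA hg =>
    hg.indicator (measurable_fst hA)
  have h1 : ∀ k, ∫ z, f (y0 + J z) * m k (y0 + J z) ≤
      ∫ q, {y | ⟪n1, y - y1⟫ = 0}ᶜ.indicator f q.1 ∂V := fun k => by
    refine (plane_le H h y0 hs (hf.mul (hmc k)) hc.mul_right
      fun y => mul_nonneg (h0 y) (hm0 k y)).trans (integral_mono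
        (hI' (isClosed_pl _ _).measurableSet (H.integrable_fst (hf.mul (hmc k)) hc.mul_right))
        (hI' (isClosed_pl _ _).measurableSet.compl hI) fun q => ?_)
    refine (indicator_le_self' (fun y _ => mul_nonneg (h0 y) (hm0 k y)) q.1).trans ?_
    by_cases hq : ⟪n1, q.1 - y1⟫ = 0
    · simp [m, hq]
    · exact (hm1 k _).trans_eq (indicator_of_mem (show q.1 ∈ {y | ⟪n1, y - y1⟫ = 0}ᶜ from hq) f).symm
  refine le_of_tendsto' (tendsto_integral_of_dominated_convergence (fun z => f (y0 + J z))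
    (fun k => Continuous.aestronglyMeasurable (by fun_prop))
    (Continuous.integrable_of_hasCompactSupport (by fun_prop) (hcs_plane hc y0 J))
    (fun k => .of_forall fun z => ?_) ?_) h1
  · rw [Real.norm_of_nonneg (mul_nonneg (h0 _) (hm0 k _))]; exact hm1 k _
  · filter_upwards [ae_inner_ne (w := (InnerProductSpace.toDual ℝ _).symm
      (innerSL ℝ n1 ∘L J.toContinuousLinearMap)) (.inr (neg_ne_zero.2 hne))] with z hz
    have h2 : 0 < |⟪n1, y0 + J z - y1⟫| := abs_pos.2 fun e => hz (by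
      rw [InnerProductSpace.toDual_symm_apply]
      rw [add_sub_right_comm, inner_add_right] at e
      exact eq_neg_of_add_eq_zero_right e)
    refine tendsto_const_nhds.congr' ?_
    filter_upwards [(tendsto_natCast_atTop_atTop.atTop_mul_const h2).eventually_ge_atTop 1]
      with k hk
    rw [show m k (y0 + J z) = 1 from min_eq_left hk, mul_one]

end EP

open EP EP.L2 in
theorem lv2 : LV2Stmt := by
  intro d V H ht
  have hu : ∀ q ∈ V.support, ‖q.2‖ = 1 :=
    Measure.support_subset_of_isClosed (isClosed_eq (by fun_prop) continuous_const) H.unit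
  have hp : ∀ q ∈ V.support, ∃ J, Split q.2 J ∧ ∀ z, InSupp V (q.1 + J z) := fun q hq => by
    obtain ⟨J, hJ⟩ := exists_split (hu q hq)
    exact ⟨J, hJ, fun z => transport H ht hq (hJ.orth z)⟩
  obtain ⟨q1, h1⟩ : V.support.Nonempty := Measure.nonempty_support fun e => by
    simpa [e] using H.zero 1 one_pos
  obtain ⟨J1, s1, p1⟩ := hp q1 h1
  have key : ∀ q ∈ V.support, ⟪q1.2, q.1 - q1.1⟫ = 0 := fun q2 h2 => by
    by_contra hne
    obtain ⟨J2, s2, p2⟩ := hp q2 h2
    refine two_planes s1 s2 q1.1 q2.1 fun f hf hc h0 => le_trans ?_ (H.cal f hf hc h0)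
    have hI := H.integrable_fst hf.continuous hc
    have hA : MeasurableSet (Prod.fst ⁻¹' {y | ⟪q1.2, y - q1.1⟫ = 0} : Set (Y d × Y d)) :=
      measurable_fst (isClosed_pl q1.2 q1.1).measurableSet
    have e := integral_add (hI.indicator hA) (hI.indicator hA.compl)
    have a1 := plane_le H s1 q1.1 p1 hf.continuous hc h0
    have a2 := plane_le_compl H s2 q2.1 p2 hne hf.continuous hc h0
    simp only [indicator_self_add_compl_apply] at e
    exact mul_le_mul_of_nonneg_left ((add_le_add a1 a2).trans_eq e.symm) zero_le_two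
  have hall : ∀ y, InSupp V y → ⟪q1.2, y - q1.1⟫ = 0 := fun y hy =>
    Measure.support_subset_of_isClosed (isClosed_pl q1.2 q1.1)
      ((mem_ae_map_iff measurable_fst.aemeasurable (isClosed_pl _ _).measurableSet).2
        (mem_of_superset Measure.support_mem_ae key)) (inSupp_iff.1 hy)
  refine ⟨q1.2, fun e => by simpa [e] using s1.unit, fun y hy => ?_⟩
  have a := hall y hy
  have b := hall 0 H.zero
  rw [inner_sub_right] at a b
  rw [inner_zero_right] at b
  linarith

end Crest.Agent.N222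

end
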