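import Crest.Agent.N222.B.Mon

/-!
# Row 222, part B: monotonicity with remainder, density at a point (helper85)
-/

set_option autoImplicit false
set_option linter.unusedSectionVars false
open MeasureTheory Set Filter Topology Function Metric
open scoped ContDiff InnerProductSpace RealInnerProductSpace

noncomputable section

namespace Crest.Agent.N222

namespace Mn

variable {d : ℕ} {ι : Type} [Fintype ι] [DecidableEq ι] {X : Type} [TopologicalSpace X]
  [T2Space X] [SecondCountableTopology X] [MeasurableSpace X] [BorelSpace X] [CompactSpace X]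
  (M : Imm d ι X)

/-- the remainder -/
def Rem (y : E ι) (r : ℝ) : ℝ :=
  (∫ p, -2 * deriv Phi (‖M.x p - y‖ ^ 2 / r ^ 2) * M.perp y p ∂M.mu) / r ^ (d + 3)

theorem Rem_nonneg (y : E ι) {r : ℝ} (hr : 0 ≤ r) : 0 ≤ Rem M y r :=
  div_nonneg (integral_nonneg fun _ => mul_nonneg
    (mul_nonneg_of_nonpos_of_nonpos (by norm_num) (deriv_Phi_nonpos _)) (sq_nonneg _))
    (pow_nonneg hr _)

theorem continuousOn_Rem (y : E ι) {a : ℝ} (ha : 0 < a) : ContinuousOn (Rem M y) (Ici a) := by
  have h0 : ∀ t : ℝ, max t a ≠ 0 := fun t => (lt_max_of_lt_right ha).ne'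
  have h1 : Continuous (uncurry fun (t : ℝ) (p : X) =>
      -2 * deriv Phi (‖M.x p - y‖ ^ 2 / max t a ^ 2) * M.perp y p) :=
    (continuous_const.mul (continuous_dPhi.comp
      ((((M.continuous_x.comp continuous_snd).sub continuous_const).norm.pow 2).div
        (by fun_prop) fun z => pow_ne_zero _ (h0 z.1)))).mul
      ((continuous_perp M y).comp continuous_snd)
  have h2 := continuous_parametric_integral_of_continuous (μ := M.mu) h1 isCompact_univ
  simp only [Measure.restrict_univ] at h2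
  refine (h2.continuousOn.div (continuous_pow (d + 3)).continuousOn
    fun t ht => pow_ne_zero _ (ha.trans_le ht).ne').congr fun t ht => ?_
  simp only [Rem, Pi.div_apply, max_eq_left (mem_Ici.1 ht)]

theorem gam_one (f : X → ℝ) (p : X) : M.pre.gam 1 f p = 0 := by
  have : ∀ a, M.pre.D a 1 p = 0 := fun a => Imm.D_const 1 a p
  simp [Imm.gam_apply, this]

theorem mono (hM : MonStmt) {Λ : ℝ} (hΛ : ∀ p, ‖M.Hv p‖ ≤ Λ) (y : E ι) {r1 r2 : ℝ} (h1 : 0 < r1)
    (h12 : r1 ≤ r2) : Real.exp (Λ * r1) * M.Th 1 y r1 + ∫ r in r1..r2, Rem M y r ≤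
      Real.exp (Λ * r2) * M.Th 1 y r2 := by
  rcases isEmpty_or_nonempty X with hX | ⟨⟨p0⟩⟩
  · simp [Imm.Th, Rem, integral_of_isEmpty]
  have hΛ0 : 0 ≤ Λ := (norm_nonneg _).trans (hΛ p0)
  have hd := fun r (hr : 0 < r) => ((hasDerivAt_id' r).const_mul Λ).exp.mul
    (hM d ι X M inferInstance 1 y r (Imm.sm_const 1) hr)
  rw [← le_sub_iff_add_le']
  refine intervalIntegral.integral_le_sub_of_hasDeriv_right_of_le h12
    (fun r hr => (hd r (h1.trans_le hr.1)).continuousAt.continuousWithinAt)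
    (fun r hr => (hd r (h1.trans hr.1)).hasDerivWithinAt)
    (((continuousOn_Rem M y h1).mono Icc_subset_Ici_self).integrableOn_Icc) fun r hr => ?_
  have hr0 : 0 < r := h1.trans hr.1
  have hP : Continuous fun p => Phi (‖M.x p - y‖ ^ 2 / r ^ 2) :=
    contDiff_Phi.continuous.comp (sm_sq M y r).continuous
  have e1 : ∫ p, -2 * deriv Phi (‖M.x p - y‖ ^ 2 / r ^ 2) * (M.perp y p / r ^ 2) ∂M.mu =
      Rem M y r * r ^ (d + 1) := by
    simp only [← mul_div_assoc, integral_div, Rem]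
    field_simp
    ring
  have e2 : -(Λ * r) * ∫ p, Phi (‖M.x p - y‖ ^ 2 / r ^ 2) ∂M.mu ≤
      ∫ p, Phi (‖M.x p - y‖ ^ 2 / r ^ 2) * ⟪M.x p - y, M.Hv p⟫ ∂M.mu := by
    rw [← integral_const_mul]
    refine integral_mono (intg M (continuous_const.mul hP)) (intg M (hP.mul
      ((M.continuous_x.sub continuous_const).inner (continuous_Hv M)))) fun p => ?_
    rcases le_or_gt r ‖M.x p - y‖ with h | h
    · simp [Phi_eq_zero ((one_le_div (by positivity)).2 (pow_le_pow_left₀ hr0.le h 2))]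
    · beta_reduce
      rw [mul_comm]
      refine mul_le_mul_of_nonneg_left ?_ (Phi_nonneg _)
      have := abs_le.1 (abs_real_inner_le_norm (M.x p - y) (M.Hv p))
      have h3 := mul_le_mul h.le (hΛ p) (norm_nonneg _) hr0.le
      linarith [this.1]
  simp only [gam_one, integral_zero, mul_zero, zero_add, Pi.one_apply, one_mul, mul_one, e1, Imm.Th]
  have e3 : 1 ≤ Real.exp (Λ * r) := Real.one_le_exp (by positivity)
  have e4 := Rem_nonneg M y hr0.le
  generalize (∫ p, Phi (‖M.x p - y‖ ^ 2 / r ^ 2) ∂M.mu) = A at e2 ⊢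
  generalize (∫ p, Phi (‖M.x p - y‖ ^ 2 / r ^ 2) * ⟪M.x p - y, M.Hv p⟫ ∂M.mu) = B at e2 ⊢
  have e5 : Real.exp (Λ * r) * Λ * (A / r ^ d) +
      Real.exp (Λ * r) * ((Rem M y r * r ^ (d + 1) + B) / r ^ (d + 1)) =
      Real.exp (Λ * r) * Rem M y r + Real.exp (Λ * r) * ((B + Λ * r * A) / r ^ (d + 1)) := by
    field_simp
    ring
  have e6 : 0 ≤ Real.exp (Λ * r) * ((B + Λ * r * A) / r ^ (d + 1)) :=
    mul_nonneg (Real.exp_pos _).le (div_nonneg (by linarith) (by positivity))
  rw [e5]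
  nlinarith

theorem tendsto_Th (hT : TanStmt) (hi : Injective M.x) {v : X → ℝ} (hv : Continuous v) (p : X) :
    Tendsto (M.Th v (M.x p)) (𝓝[>] 0) (𝓝 (cPhi d * v p)) := by
  obtain ⟨L, -, hL⟩ := hT d ι X M inferInstance hi p
  have h1 := hL ℝ (𝓝[>] 0) (fun _ => p) id tendsto_const_nhds tendsto_id
    (fun q => v q.2 * Phi (‖q.1‖ ^ 2))
    ((hv.comp continuous_snd).mul (contDiff_Phi.continuous.comp (by fun_prop)))
    (HasCompactSupport.intro ((isCompact_closedBall 0 1).prod isCompact_univ) fun q hq => by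
      have : 1 ≤ ‖q.1‖ := by
        by_contra h
        exact hq ⟨by simpa using (not_le.1 h).le, mem_univ _⟩
      rw [Phi_eq_zero (one_le_pow₀ this), mul_zero])
  simp only [L.norm_map, integral_const_mul] at h1
  rw [mul_comm]
  refine h1.congr fun r => ?_
  simp only [Imm.Th, id, norm_smul, mul_pow, norm_inv, inv_pow, Real.norm_eq_abs, sq_abs,
    div_eq_inv_mul]

end Mn

open Mn in
theorem mon2 (hM : MonStmt) (hT : TanStmt) : Mon2Stmt := by
  intro d ι _ _ X _ _ _ _ _ M _ Λ hΛ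
  refine ⟨fun y r1 r2 h1 h12 => mono M hM hΛ y h1 h12,
    fun hi => ⟨fun v p hv => tendsto_Th M hT hi hv p, fun p r hr => ?_⟩⟩
  have h1 : Tendsto (fun s => Real.exp (Λ * s) * M.Th 1 (M.x p) s) (𝓝[>] 0)
      (𝓝 (Real.exp (Λ * 0) * (cPhi d * 1))) :=
    (tendsto_nhdsWithin_of_tendsto_nhds
      ((by fun_prop : Continuous fun s : ℝ => Real.exp (Λ * s)).tendsto 0)).mul
      (tendsto_Th M hT hi continuous_const p)
  simp only [mul_zero, Real.exp_zero, one_mul, mul_one] at h1
  refine le_of_tendsto h1 ?_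
  filter_upwards [Ioc_mem_nhdsGT hr] with s hs
  have h2 := mono M hM hΛ (M.x p) hs.1 hs.2
  have h3 := intervalIntegral.integral_nonneg (μ := volume) hs.2
    fun t ht => Rem_nonneg M (M.x p) (hs.1.le.trans ht.1)
  linarith

end Crest.Agent.N222
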