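import Crest.Agent.N222.B.Defs
import Crest.Agent.N222.J.Boot

/-!
# Row 222, part B (helper85): `QRegStmt` from the toolbox J
-/

set_option autoImplicit false
open Set Filter Topology Function Metric
open scoped ContDiff
open Crest.GeometryTopology.CoordMetric

noncomputable section

namespace Crest.Agent.N222

theorem toLp_d1 {n : ℕ} (w : E (Fin n) → ℝ) (z : E (Fin n)) :
    WithLp.toLp 2 (J.d1 w z) = gradient w z := by
  ext i
  exact (NLib.Ell.gradient_apply w z i).symm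

theorem lb_pair {n : ℕ} {ι Z : Type} [NormedAddCommGroup Z] [NormedSpace ℝ Z]
    {S : ι → Set (E (Fin n))} {l : ι → Z} {C : ℝ} (h : ∀ i, ∀ x ∈ S i, ‖(x, l i)‖ ≤ C) :
    J.LB S fun i x => (x, l i) := by
  refine ⟨fun i => (contDiff_id.prodMk contDiff_const).contDiffOn, fun k => ?_⟩
  have e : ∀ i, fderiv ℝ (fun x : E (Fin n) => (x, l i))
      = fun _ => ContinuousLinearMap.inl ℝ (E (Fin n)) Z := fun i =>
    funext fun x => (hasFDerivAt_prodMk_left x (l i)).fderiv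
  rcases k with _ | k
  · exact ⟨C, fun i x hx => norm_iteratedFDeriv_zero.trans_le (h i x hx)⟩
  rcases k with _ | k
  · exact ⟨‖ContinuousLinearMap.inl ℝ (E (Fin n)) Z‖, fun i x _ => by
      rw [← norm_iteratedFDeriv_fderiv, e, norm_iteratedFDeriv_zero]⟩
  · exact ⟨0, fun i x _ => by
      rw [← norm_iteratedFDeriv_fderiv, e, iteratedFDeriv_succ_const]; simp⟩

theorem qReg : QRegStmt := by
  intro n k Z _ _ _ a c W K r B hW hK hKW ha hc hp hr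
  let T : (E (Fin n) × Z) × ℝ × (Fin n → ℝ) → E (Fin n) × ℝ × E (Fin n) × Z :=
    fun q => (q.1.1, q.2.1, WithLp.toLp 2 q.2.2, q.1.2)
  let S : E (Fin n) × ℝ × E (Fin n) × Z → (E (Fin n) × Z) × ℝ × (Fin n → ℝ) :=
    fun s => ((s.1, s.2.2.2), s.2.1, s.2.2.1.ofLp)
  have hT : ContDiff ℝ ∞ T := by
    have : ContDiff ℝ ∞ (fun p : Fin n → ℝ => (WithLp.toLp 2 p : E (Fin n))) :=
      (EuclideanSpace.equiv (Fin n) ℝ).symm.contDiff
    exact contDiff_fst.fst.prodMk (contDiff_snd.fst.prodMk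
      ((this.comp contDiff_snd.snd).prodMk contDiff_fst.snd))
  have hS : Continuous S := by fun_prop
  let κ := {q : E (Fin n) × (E (Fin n) → ℝ) × Z // ContDiffOn ℝ ∞ q.2.1 (ball q.1 r) ∧
    ∀ z ∈ ball q.1 r, (z, q.2.1 z, gradient q.2.1 z, q.2.2) ∈ K ∧
      ‖fderiv ℝ (fderiv ℝ q.2.1) z‖ ≤ B ∧ ∑ i, ∑ j, a (z, q.2.1 z, gradient q.2.1 z, q.2.2) i j *
        fderiv ℝ (fderiv ℝ q.2.1) z (ee i) (ee j) = c (z, q.2.1 z, gradient q.2.1 z, q.2.2)}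
  obtain ⟨C, hC⟩ := (hK.image hS).exists_bound_of_continuousOn continuousOn_id
  have hin : ∀ q : κ, ∀ x ∈ ball q.1.1 r, ((x, q.1.2.2), q.1.2.1 x, J.d1 q.1.2.1 x) ∈ S '' K :=
    fun q x hx => ⟨_, (q.2.2 x hx).1, by simp only [S, ← toLp_d1]⟩
  have h2 : ∀ q : κ, ∀ x ∈ ball q.1.1 r, ContDiffAt ℝ 2 q.1.2.1 x := fun q x hx =>
    (q.2.1.contDiffAt (isOpen_ball.mem_nhds hx)).of_le
      (WithTop.coe_le_coe.2 (le_top : (2 : ℕ∞) ≤ ⊤))
  have hH : ∀ q : κ, ∀ x ∈ ball q.1.1 r, ∀ y ∈ ball q.1.1 r, ∀ j,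
      |pderiv j q.1.2.1 x - pderiv j q.1.2.1 y| ≤ B * ‖x - y‖ ^ (1 : ℝ) := fun q x hx y hy j => by
    have h3 : ‖fderiv ℝ q.1.2.1 x - fderiv ℝ q.1.2.1 y‖ ≤ B * ‖x - y‖ :=
      (convex_ball _ _).norm_image_sub_le_of_norm_fderiv_le
        (fun w hw => ((h2 q w hw).fderiv_right (m := 1) (by norm_num)).differentiableAt one_ne_zero)
        (fun w hw => (q.2.2 w hw).2.1) hy hx
    rw [Real.rpow_one]
    refine le_trans ?_ h3
    simpa [pderiv] using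
      (fderiv ℝ q.1.2.1 x - fderiv ℝ q.1.2.1 y).le_opNorm (EuclideanSpace.single j (1 : ℝ))
  have hE : ∀ q : κ, ∀ x ∈ ball q.1.1 r,
      ∑ j, ∑ l, a (T ((x, q.1.2.2), q.1.2.1 x, J.d1 q.1.2.1 x)) j l * J.d2 q.1.2.1 x j l
        = c (T ((x, q.1.2.2), q.1.2.1 x, J.d1 q.1.2.1 x)) := fun q x hx => by
    have h3 := (q.2.2 x hx).2.2
    simp only [T, toLp_d1, J.d2, N346.An.pd2_eq_D2_at (h2 q x hx)]
    exact h3
  obtain ⟨D, hD⟩ := (J.qreg n κ (E (Fin n) × Z) (fun q => a (T q)) (fun q => c (T q)) (T ⁻¹' W)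
    (S '' K) 1 B r (fun q => q.1.1) (fun q x => (x, q.1.2.2)) (fun q => q.1.2.1)
    (hW.preimage hT.continuous) (hK.image hS) (by rintro _ ⟨s, hs, rfl⟩; exact hKW hs)
    (fun j l => (ha j l).comp hT.contDiffOn fun _ h => h) (hc.comp hT.contDiffOn fun _ h => h)
    (by rintro _ ⟨s, hs, rfl⟩; exact hp s hs) one_pos le_rfl hr
    (lb_pair fun q x hx => (norm_fst_le _).trans (hC _ (hin q x hx))) (fun q => q.2.1) hin
    hH hE).2 k
  exact ⟨D, fun z0 w l hw h z hz => hD ⟨(z0, w, l), hw, h⟩ z hz⟩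

end Crest.Agent.N222
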