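import Crest.Agent.N222.B.Riesz1

/-!
# Row 222, part B: the Riesz weight and the cut-off (helper85)
-/

set_option autoImplicit false
set_option linter.unusedSectionVars false
open MeasureTheory Set Filter Topology Function Metric
open scoped ContDiff InnerProductSpace RealInnerProductSpace

noncomputable section

namespace Crest.Agent.N222

namespace Rz

variable {d : ℕ} {ι : Type} [Fintype ι] [DecidableEq ι] {X : Type} [TopologicalSpace X]
  [MeasurableSpace X] {M : Imm d ι X}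

theorem empty_of_nets {m : ℕ} {B : Set X} (h : M.Nets m B) (hm : m ≤ 3) : B = ∅ := by
  obtain ⟨C, hC⟩ := h
  set r := 1 / (|C| + 1) with hr
  have h0 : 0 < |C| + 1 := by positivity
  have hr0 : 0 < r := by positivity
  have hr1 : r ≤ 1 := (div_le_one h0).2 (by linarith [abs_nonneg C])
  obtain ⟨s, -, h1, h2⟩ := hC r hr0 hr1
  refine eq_empty_of_forall_notMem fun p hp => ?_
  obtain ⟨q, hq, -⟩ := h2 p hp
  have h3 : (1 : ℝ) ≤ s.card := Nat.one_le_cast.2 (Finset.card_pos.2 ⟨q, hq⟩)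
  have h4 : r ^ 3 ≤ r ^ m := pow_le_pow_of_le_one hr0.le hr1 hm
  have h5 : C * r < 1 := by
    rw [hr, mul_one_div, div_lt_one h0]; linarith [le_abs_self C]
  have h6 := mul_lt_mul_of_pos_right h5 (pow_pos hr0 3)
  nlinarith [pow_pos hr0 m]

/-- the cut-off attached to a weight -/
theorem cutoff : ∃ C : ℝ, ∀ (w : X → ℝ) (l b : ℝ), M.Sm w → 0 < l → 0 ≤ b → (∀ p, 0 ≤ w p) →
    (∀ p, ‖M.grad w p‖ ≤ b * w p) → ∃ χ : X → ℝ, M.Sm χ ∧ tsupport χ ⊆ {p | l * w p ≤ 1} ∧
      (∀ p, 0 ≤ χ p ∧ χ p ≤ 1) ∧ (∀ p, √(M.pre.gam χ χ p) ≤ C * b) ∧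
      ∀ p, χ p ≠ 1 ∨ M.pre.gam χ χ p ≠ 0 → 1 / 2 ≤ l * w p := by
  obtain ⟨C, hC0, hC⟩ := exists_deriv_Phi_le
  refine ⟨C, fun w l b hw hl hb h0 hg => ?_⟩
  have e : ∀ p, M.grad (fun q => Phi (l * w q)) p = (deriv Phi (l * w p) * l) • M.grad w p :=
    fun p => grad_comp (g := fun s => Phi (l * s)) (hw.diffAt p)
      ((hasDerivAt_Phi (l * w p)).comp (w p) (hasDerivAt_const_mul l))
  refine ⟨fun p => Phi (l * w p), ((Imm.sm_const l).mul hw).comp contDiff_Phi,
    closure_minimal (fun p hp => le_of_not_ge fun h => hp (Phi_eq_zero h))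
      (isClosed_le (continuous_const.mul hw.continuous) continuous_const),
    fun p => ⟨Phi_nonneg _, Phi_le_one _⟩, fun p => ?_, fun p hp => le_of_not_ge fun h => ?_⟩
  · rw [Imm.gam_self_eq, Real.sqrt_sq (norm_nonneg _), e]
    rcases le_or_gt 1 (l * w p) with h | h
    · rw [deriv_Phi_eq_zero (Or.inr h), zero_mul, zero_smul, norm_zero]; positivity
    · rw [norm_smul, norm_mul, Real.norm_of_nonneg hl.le, mul_assoc]
      refine mul_le_mul (hC _) ?_ (by positivity) hC0.le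
      nlinarith [mul_le_mul_of_nonneg_left (hg p) hl.le]
  · refine hp.elim (fun h' => h' (Phi_eq_one h)) fun h' => h' ?_
    rw [Imm.gam_self_eq, e, deriv_Phi_eq_zero (Or.inl h)]
    simp

theorem exists_small {C t2 ε : ℝ} (ht : 0 < t2) (hε : 0 < ε) :
    ∃ t, 0 < t ∧ t ≤ t2 ∧ t ≤ 1 ∧ C * t ^ (1 / 8 : ℝ) ≤ ε := by
  have h1 : Tendsto (fun t : ℝ => C * t ^ (1 / 8 : ℝ)) (𝓝 0) (𝓝 (C * 0 ^ (1 / 8 : ℝ))) :=
    ((Real.continuousAt_rpow_const 0 _ (Or.inr (by norm_num))).tendsto).const_mul C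
  rw [Real.zero_rpow (by norm_num), mul_zero] at h1
  obtain ⟨t, ⟨h2, h3⟩, h4⟩ := ((((h1.eventually (ge_mem_nhds hε)).filter_mono nhdsWithin_le_nhds).and
    (Ioc_mem_nhdsGT ht)).and (Ioc_mem_nhdsGT one_pos)).exists
  exact ⟨t, h3.1, h3.2, h4.2, h2⟩

end Rz

open Rz in
theorem riesz : RieszStmt := by
  intro m ι _ _ X _ _ _ _ _ _ M F G S B N hi hF hS
  rcases le_or_gt m 3 with hm | hm
  · have hB := empty_of_nets hS.nets hm
    refine ⟨0, 1, one_pos, fun δ V0 t0 t2 hδ _ ht2 => ⟨t2, fun _ => 1, fun _ => 1, ht2, le_rfl,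
      Imm.sm_const _, Imm.sm_const _, fun _ => le_rfl, by simp [hB], fun _ => by simp, fun p => ?_,
      fun p hp => ?_, fun p hp => by norm_num at hp, fun q => ⟨?_, fun hp => by norm_num at hp⟩⟩⟩
    · simp [Imm.gam_apply, Imm.D_const]
    · simp [Imm.gam_apply, Imm.D_const] at hp
    · simp [Imm.lapF_apply, Imm.gam_apply, Imm.D_const, Imm.lap_const, hδ.le]
  have hm' : (4 : ℝ) ≤ m := by exact_mod_cast hm
  set a : ℝ := (m - 2 - 1 / 8) / 2 with ha
  have ha0 : 0 < a := by rw [ha]; linarith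
  obtain ⟨CH, hH⟩ := hS.H
  obtain ⟨CF, hCF0, hCF⟩ := Imm.exists_bound hF.grad.continuous
  obtain ⟨L, hL0, hL⟩ := Imm.exists_bound M.continuous_x
  obtain ⟨Cn, hn⟩ := hS.nets
  obtain ⟨Cc, hCc⟩ := cutoff (M := M)
  set K := 2 * (|CH| + CF) with hK
  have hK0 : 0 < K := by positivity
  set C' := a * ((1 / (8 * K)) ^ 2) ^ (-a - 1) * (K * (L + L)) with hC'
  have hC0 : 0 < C' := by positivity
  have hc0 : (0 : ℝ) < 2 ^ (-a) := by positivity
  refine ⟨Cc * a, 2 ^ (-a) / 4, by positivity, fun δ V0 t0 t2 hδ ht0 ht2 => ?_⟩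
  set θ := min ((1 / (8 * K)) ^ 2) (a / (32 * (|V0| + 1))) with hθ
  have hθ0 : 0 < θ := by positivity
  obtain ⟨t, ht, htt, ht1, hμ⟩ := exists_small (C := Cn) ht2 (show 0 < min (min (min δ 1 / C')
    (1 / (4 * θ ^ (-a)))) (1 / (2 * (t0 ^ 2) ^ (-a))) by positivity)
  obtain ⟨s, hsB, hcard, hnet⟩ := hn t ht ht1
  set κ := t ^ (2 * a - 7 / 4) with hκ
  have hκ0 : 0 < κ := by positivity
  replace hμ : κ * s.card ≤ _ := le_trans (by
    have e1 : κ * t ^ 4 = t ^ (1 / 8 : ℝ) * t ^ m := by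
      rw [hκ, ← Real.rpow_natCast, ← Real.rpow_natCast, ← Real.rpow_add ht, ← Real.rpow_add ht, ha]
      congr 1; push_cast; ring
    refine le_of_mul_le_mul_right ?_ (pow_pos ht m)
    rw [mul_assoc Cn, ← e1]
    nlinarith [mul_le_mul_of_nonneg_left hcard hκ0.le]) hμ
  simp only [le_min_iff] at hμ
  obtain ⟨⟨hμ1, hμ2⟩, hμ3⟩ := hμ
  rw [le_div_iff₀ hC0, le_min_iff] at hμ1
  rw [le_div_iff₀ (by positivity)] at hμ2 hμ3
  set w : X → ℝ := fun p => 1 + κ * ∑ q ∈ s, kr M a (M.x q) t p with hw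
  have hk := fun q => sm_kr M a (M.x q) ht
  have hws : M.Sm w := (Imm.sm_const _).add ((Imm.sm_const _).mul (Imm.sm_sum s fun q _ => hk q))
  have hsum : ∀ p, 0 ≤ κ * ∑ q ∈ s, kr M a (M.x q) t p := fun p =>
    mul_nonneg hκ0.le (Finset.sum_nonneg fun q _ => (kr_pos M a _ ht p).le)
  have hw1 : ∀ p, 1 ≤ w p := fun p => le_add_of_nonneg_right (hsum p)
  have ht7 : 0 < t ^ (7 / 4 : ℝ) := by positivity
  obtain ⟨χ, h1, h2, h3, h4, h5⟩ := hCc w (2 * t ^ (7 / 4 : ℝ) / 2 ^ (-a)) (a / t) hws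
    (by positivity) (by positivity) (fun p => zero_le_one.trans (hw1 p)) fun p => by
      rw [hw, grad_sum s hk, norm_smul, Real.norm_of_nonneg hκ0.le]
      have := (norm_sum_le _ _).trans
        (Finset.sum_le_sum fun q (_ : q ∈ s) => norm_grad_kr M ha0.le (M.x q) ht p)
      rw [← Finset.mul_sum] at this
      have h6 : 0 ≤ a / t := by positivity
      nlinarith [mul_le_mul_of_nonneg_left this hκ0.le]
  refine ⟨t, w, χ, ht, htt, hws, h1, hw1, disjoint_left.2 fun p hp hpB => ?_, h3,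
    fun p => by rw [mul_div_assoc]; exact h4 p, fun p hp => ?_, fun p hp => ?_, fun q => ?_⟩
  · obtain ⟨q, hq, hpq⟩ := hnet p hpB
    have h6 : (2 * t ^ 2) ^ (-a) ≤ kr M a (M.x q) t p :=
      Real.rpow_le_rpow_of_nonpos (sg_pos M _ ht p) (by
        unfold sg; linarith [pow_le_pow_left₀ (norm_nonneg _) hpq 2]) (by linarith)
    have h7 := h6.trans (Finset.single_le_sum (f := fun q => kr M a (M.x q) t p)
      (fun q _ => (kr_pos M a _ ht p).le) hq)
    have h8 : t ^ (7 / 4 : ℝ) * (κ * (2 * t ^ 2) ^ (-a)) = 2 ^ (-a) := by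
      rw [Real.mul_rpow two_pos.le (by positivity), ← Real.rpow_natCast, ← Real.rpow_mul ht.le, hκ,
        mul_left_comm (t ^ (2 * a - 7 / 4)), mul_left_comm, ← Real.rpow_add ht, ← Real.rpow_add ht]
      rw [show (7 / 4 + (2 * a - 7 / 4 + (2 : ℕ) * -a) : ℝ) = 0 by push_cast; ring]
      simp
    have h9 := h2 hp
    rw [mem_ofPred_eq, div_mul_eq_mul_div, div_le_one hc0, hw] at h9
    nlinarith [mul_le_mul_of_nonneg_left (mul_le_mul_of_nonneg_left h7 hκ0.le) ht7.le]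
  · have h6 := h5 p hp
    rw [div_mul_eq_mul_div, le_div_iff₀ hc0] at h6
    rw [div_le_iff₀ ht7]
    linarith
  · by_contra hc
    push Not at hc
    have h6 : ∑ q ∈ s, kr M a (M.x q) t p ≤ s.card • (t0 ^ 2) ^ (-a) :=
      Finset.sum_le_card_nsmul _ _ _ fun q hq => Real.rpow_le_rpow_of_nonpos (by positivity) (by
        unfold sg
        linarith [pow_le_pow_left₀ ht0.le (hc q (hsB q hq)).le 2, sq_nonneg t]) (by linarith)
    rw [nsmul_eq_mul] at h6
    simp only [hw] at hp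
    nlinarith [mul_le_mul_of_nonneg_left h6 hκ0.le]
  · have hloc := Loc.of_cont (N := N) (M := M) continuous_subtype_val hS.x q
    have e1 : ∀ y (p : ↥(S \ B)), kr N a y t p = kr M a y t p := fun y p => by
      simp only [kr, sg, hS.x]
    have e2 : (fun p : ↥(S \ B) => w p) = fun p => 1 + κ * ∑ q' ∈ s, kr N a (M.x q') t p := by
      simp only [hw, e1]
    have hKq : 2 * (‖N.Hv q‖ + ‖N.grad (fun p => F p) q‖) ≤ K := by
      rw [hloc.grad (hF.diffAt _)]
      linarith [(hH q).trans (le_abs_self _), (N.norm_PL_le q _).trans (hCF q)]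
    have hT := fun q' : X => term (r := ‖N.x q - M.x q'‖) (D := L + L) ha0 hK0 (norm_nonneg _)
      (by rw [hS.x]; exact norm_sub_le_of_le (hL _) (hL _)) (sg_pos N (M.x q') ht q)
      (le_add_of_nonneg_right (sq_nonneg t)) hθ0 (min_le_left _ _)
    have hP := fun q' : X => lapF_kr N (F := fun p => F p) ha0.le (by rw [ha]; linarith)
      (M.x q') ht q hKq
    rw [e2, lapF_sum s (fun q' => sm_kr N a (M.x q') ht), ← mul_neg, ← Finset.sum_neg_distrib]
    constructor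
    · have h6 := Finset.card_nsmul_le_sum s _ _ fun q' _ => (hT q').1.trans (hP q')
      rw [nsmul_eq_mul] at h6
      nlinarith [mul_le_mul_of_nonneg_left h6 hκ0.le, hw1 q, hμ1.1]
    · intro h2w
      have h6 := Finset.sum_le_sum fun q' (_ : q' ∈ s) => (hT q').2.trans (hP q')
      rw [Finset.sum_sub_distrib, ← Finset.mul_sum, Finset.sum_sub_distrib, Finset.sum_const,
        Finset.sum_const, nsmul_eq_mul, nsmul_eq_mul] at h6
      have h7 : 4 * (|V0| + 1) ≤ a / (8 * θ) := by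
        have := min_le_right ((1 / (8 * K)) ^ 2) (a / (32 * (|V0| + 1)))
        rw [← hθ, le_div_iff₀ (by positivity)] at this
        rw [le_div_iff₀ (by positivity)]
        linarith
      have h8 : w q = 1 + κ * ∑ q' ∈ s, sg N (M.x q') t q ^ (-a) := congrFun e2 q
      refine le_trans ?_ (mul_le_mul_of_nonneg_left h6 hκ0.le)
      have h9 : 3 / 8 * w q ≤ κ * (∑ q' ∈ s, sg N (M.x q') t q ^ (-a) - s.card * θ ^ (-a)) := by
        nlinarith
      have h10 := mul_le_mul h7 h9 (by linarith) (by positivity)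
      have h11 := mul_le_mul_of_nonneg_right (le_abs_self V0) (by linarith : 0 ≤ w q)
      nlinarith [hμ1.2, mul_nonneg (abs_nonneg V0) (by linarith : 0 ≤ w q)]

end Crest.Agent.N222
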