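import Crest.Agent.N222.F.Graph
import Crest.Agent.N222.F.Lip
import Crest.Agent.N222.B.Defs2

/-!
# Row 222, part B: the barrier and the blowing-up sequence (helper73)
-/

set_option autoImplicit false
set_option linter.unusedSectionVars false
open MeasureTheory Set Filter Topology Function Metric
open scoped ContDiff InnerProductSpace RealInnerProductSpace

noncomputable section

namespace Crest.Agent.N222

namespace Sq

open Imm

variable {d : ℕ} {ι : Type} [Fintype ι] [DecidableEq ι] {X : Type} [TopologicalSpace X]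
  [MeasurableSpace X] {M : Imm d ι X} {u F h : X → ℝ}

theorem abs_Xf_le (M : Imm d ι X) (u : X → ℝ) (a : ι) (p : X) : |M.Xf u a p| ≤ 1 := by
  have h1 := M.sum_Xf_sq u p
  have h2 : M.Xf u a p * M.Xf u a p ≤ ∑ a, M.Xf u a p * M.Xf u a p :=
    Finset.single_le_sum (f := fun a => M.Xf u a p * M.Xf u a p)
      (fun _ _ => mul_self_nonneg _) (Finset.mem_univ a)
  refine abs_le_one_iff_mul_self_le_one.2 ?_
  nlinarith [sq_nonneg (M.vv u p)]

theorem abs_nu_le (M : Imm d ι X) (u : X → ℝ) (c : Option ι) (p : X) : |M.nu u c p| ≤ 1 := by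
  cases c with
  | none => rw [nu_none, abs_of_pos (M.vv_pos u p)]; exact M.vv_le_one u p
  | some a => rw [nu_some, abs_neg]; exact abs_Xf_le M u a p

theorem abs_dir_le {B : ℝ} {p : X} (hB : ∀ a, |M.pre.D a h p| ≤ B) (u : X → ℝ) :
    |M.pre.dir (M.Xf u) h p| ≤ Fintype.card ι * B := by
  rw [dir_apply]
  refine (Finset.abs_sum_le_sum_abs _ _).trans ?_
  refine (Finset.sum_le_card_nsmul _ _ B fun a _ => ?_).trans (by simp)
  rw [abs_mul]
  exact (mul_le_of_le_one_left (abs_nonneg _) (abs_Xf_le M u a p)).trans (hB a)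

/-- finite families of continuous functions are uniformly bounded -/
theorem bound_fam [CompactSpace X] {κ : Type} [Fintype κ] {f : κ → X → ℝ}
    (hf : ∀ k, Continuous (f k)) : ∃ B : ℝ, 0 < B ∧ ∀ k p, |f k p| ≤ B := by
  obtain ⟨B, h0, hB⟩ := exists_bound (F := κ → ℝ) (f := fun p k => f k p) (continuous_pi hf)
  exact ⟨B, h0, fun k p => (norm_le_pi_norm (fun k => f k p) k).trans (hB p)⟩

/-! ### maximum principle -/

theorem hF_nonpos (hu : M.Sm u) {q : X} (hq : IsLocalMax u q) (F : X → ℝ) : M.hF F u q ≤ 0 := by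
  have h1 := lap_sub_nonpos_of_isLocalMax hu hq (fun a => M.Xf u a q) (by
    rw [M.sum_Xf_sq]; nlinarith [sq_nonneg (M.vv u q)])
  have h2 : M.pre.dir (M.Xf u) F q = 0 := by
    simp only [dir_apply, Xf_apply, D_eq_zero_of_isLocalMax hq, mul_zero, zero_mul,
      Finset.sum_const_zero]
  rw [hF_apply, h2, dv_X hu, add_zero]
  exact mul_nonpos_of_nonneg_of_nonpos (M.vv_pos u q).le h1

theorem jang_le [CompactSpace X] {τ B : ℝ} (hu : M.Sm u) (hτ : 0 < τ)
    (e : ∀ p, M.hF F u p = τ * u p - h p) (hB : ∀ p, h p ≤ B) (p : X) : τ * u p ≤ B := by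
  obtain ⟨q, -, hq⟩ := isCompact_univ.exists_isMaxOn ⟨p, mem_univ p⟩ hu.continuous.continuousOn
  have h1 := hF_nonpos hu (hq.isLocalMax univ_mem) F
  have h2 : u p ≤ u q := hq (mem_univ p)
  rw [e] at h1
  nlinarith [hB q]

theorem jang_neg {τ : ℝ} (e : ∀ p, M.hF F u p = τ * u p - h p) (p : X) :
    M.hF F (fun q => -u q) p = τ * (-u p) - (-h p) := by
  rw [hF_neg]; simp only [e]; ring

theorem jang_abs [CompactSpace X] {τ B : ℝ} (hu : M.Sm u) (hτ : 0 < τ)
    (e : ∀ p, M.hF F u p = τ * u p - h p) (hB : ∀ p, |h p| ≤ B) (p : X) : |τ * u p| ≤ B := by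
  have h1 := jang_le hu hτ e (fun p => (le_abs_self _).trans (hB p)) p
  have h2 := jang_le (h := fun p => -h p) hu.neg hτ (jang_neg e)
    (fun p => (neg_le_abs _).trans (hB p)) p
  exact abs_le.2 ⟨by linarith, h1⟩

theorem jang_adm [CompactSpace X] {τ B : ℝ} (hu : M.Sm u) (hh : M.Sm h) (hτ : 0 < τ) (hτ1 : τ ≤ 1)
    (e : ∀ p, M.hF F u p = τ * u p - h p) (hB : ∀ p, |h p| ≤ B) (hD : ∀ a p, |M.pre.D a h p| ≤ B)
    (hB0 : 0 ≤ B) : M.Adm F (1 + (2 + Fintype.card ι) * B) u := by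
  have e' : M.hF F u = fun p => τ * u p - h p := funext e
  have hn : (0 : ℝ) ≤ Fintype.card ι * B := by positivity
  have hD' : ∀ a p, M.pre.D a (M.hF F u) p = τ * M.pre.D a u p - M.pre.D a h p := fun a p => by
    rw [e', D_sub (((sm_const τ).mul hu).diffAt p) (hh.diffAt p), D_const_mul τ (hu.diffAt p)]
  have hdir : ∀ p, M.pre.dir (M.Xf u) (M.hF F u) p =
      τ * M.pre.dir (M.Xf u) u p - M.pre.dir (M.Xf u) h p := fun p => by
    simp only [dir_apply, hD', Finset.mul_sum, ← Finset.sum_sub_distrib]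
    exact Finset.sum_congr rfl fun a _ => by ring
  refine ⟨hu, fun p => ?_, fun c p => ?_, fun p => ?_⟩
  · rw [e]
    have := (abs_sub _ _).trans (add_le_add (jang_abs hu hτ e hB p) (hB p))
    linarith
  · have h1 : (M.gS u).D c (M.hF F u) p = τ * (M.gS u).D c u p - (M.gS u).D c h p := by
      simp only [gS_D_apply, hdir]
      cases c with
      | none => simp only [Option.elim]; ring
      | some a => simp only [Option.elim, hD']; ring
    have h2 : |(M.gS u).D c u p| ≤ 1 := by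
      have a1 := M.gS_gam_u u p
      have a2 : (M.gS u).gam u u p = ∑ c, (M.gS u).D c u p * (M.gS u).D c u p := by
        simp [Pre.gam]
      have a3 : (M.gS u).D c u p * (M.gS u).D c u p ≤ ∑ c, (M.gS u).D c u p * (M.gS u).D c u p :=
        Finset.single_le_sum (f := fun c => (M.gS u).D c u p * (M.gS u).D c u p)
          (fun _ _ => mul_self_nonneg _) (Finset.mem_univ c)
      refine abs_le_one_iff_mul_self_le_one.2 ?_
      nlinarith [sq_nonneg (M.vv u p)]
    have h3 : |(M.gS u).D c h p| ≤ B + Fintype.card ι * B := by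
      rw [gS_D_apply]
      refine (abs_add_le _ _).trans (add_le_add ?_ ?_)
      · cases c with
        | none => simpa using hB0
        | some a => exact hD a p
      · rw [abs_mul]
        exact (mul_le_of_le_one_left (abs_nonneg _) (abs_nu_le M u c p)).trans
          (abs_dir_le (fun a => hD a p) u)
    have h4 : |τ * (M.gS u).D c u p| ≤ 1 := by
      rw [abs_mul, abs_of_pos hτ]
      exact mul_le_one₀ hτ1 (abs_nonneg _) h2
    rw [h1]
    have := (abs_sub _ _).trans (add_le_add h4 h3)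
    linarith
  · have h1 : 0 ≤ M.pre.dir (M.Xf u) u p := by
      rw [dir_apply]
      refine Finset.sum_nonneg fun a _ => ?_
      rw [Xf_apply, mul_assoc]
      exact mul_nonneg (M.vv_pos u p).le (mul_self_nonneg _)
    have h2 := (abs_le.1 (abs_dir_le (fun a => hD a p) u)).2
    rw [hdir]
    nlinarith [mul_nonneg hτ.le h1]

/-! ### the barrier -/

/-- `r² - |x - y|²` -/
def sg (M : Imm d ι X) (y : E ι) (r : ℝ) (q : X) : ℝ := r ^ 2 - ‖M.x q - y‖ ^ 2

theorem sm_nsq (M : Imm d ι X) (y : E ι) : M.Sm fun q => ‖M.x q - y‖ ^ 2 :=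
  M.sm_x.comp (g := fun z => ‖z - y‖ ^ 2) ((contDiff_id.sub contDiff_const).norm_sq ℝ)

theorem sm_sg (M : Imm d ι X) (y : E ι) (r : ℝ) : M.Sm (sg M y r) := (sm_const _).sub (sm_nsq M y)

theorem D_sg (y : E ι) (r : ℝ) (a : ι) (q : X) :
    M.pre.D a (sg M y r) q = -2 * M.PL q (M.x q - y) a := by
  have := D_sub ((sm_const (M := M) (r ^ 2)).diffAt q) ((sm_nsq M y).diffAt q) a
  rw [D_const, D_normSq] at this
  exact this.trans (by ring)

theorem hess_sg (y : E ι) (r : ℝ) (a b : ι) (q : X) : M.pre.hess (sg M y r) a b q =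
    -2 * (M.pre.P b a q + ∑ c, (M.x q c - y c) * M.pre.II a b c q) := by
  have sx : ∀ c, M.Sm fun q => M.x q c - y c := fun c => (M.sm_coord c).sub (sm_const _)
  have h1 : ∀ e, M.pre.D e (sg M y r) =
      fun q => -2 * ∑ c, M.pre.P e c q * (M.x q c - y c) := fun e => by
    funext q
    rw [D_sg, PL_apply]
    rfl
  have h2 : ∀ c, M.pre.D a (fun q => M.x q c - y c) q = M.pre.P a c q := fun c => by
    rw [D_sub ((M.sm_coord c).diffAt q) ((sm_const _).diffAt q), D_const, sub_zero]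
    rfl
  have h3 : ∀ e, M.pre.D a (M.pre.D e (sg M y r)) q = -2 * (M.pre.P e a q +
      ∑ c, M.pre.D a (M.pre.P e c) q * (M.x q c - y c)) := fun e => by
    rw [h1, D_const_mul _ ((sm_sum _ fun c _ => (M.sm_P e c).mul (sx c)).diffAt q),
      D_sum _ fun c _ => ((M.sm_P e c).mul (sx c)).diffAt q, ← M.PP e a q,
      ← Finset.sum_add_distrib]
    congr 1
    refine Finset.sum_congr rfl fun c _ => ?_
    rw [D_mul ((M.sm_P e c).diffAt q) ((sx c).diffAt q), h2, M.P_symm a c]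
  have h4 : ∀ c, M.pre.II a b c q = ∑ e, M.pre.P b e q * M.pre.D a (M.pre.P e c) q := fun c =>
    hess_apply _ a b q
  rw [hess_apply, ← M.PP b a q]
  simp only [h3, h4, Finset.mul_sum, mul_add]
  rw [Finset.sum_add_distrib, Finset.sum_comm]
  congr 1
  · exact Finset.sum_congr rfl fun c _ => by ring
  · exact Finset.sum_congr rfl fun c _ => Finset.sum_congr rfl fun e _ => by ring

theorem abs_hess_sg {B : ℝ} (hB : ∀ a b c q, |M.pre.II a b c q| ≤ B) {y : E ι} {q : X}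
    (hq : ‖M.x q - y‖ ≤ 1) (r : ℝ) (a b : ι) :
    |M.pre.hess (sg M y r) a b q| ≤ 2 * (1 + Fintype.card ι * B) := by
  rw [hess_sg, abs_mul, abs_neg, abs_two]
  refine mul_le_mul_of_nonneg_left ((abs_add_le _ _).trans (add_le_add (M.abs_P_le _ _ _) ?_))
    zero_le_two
  refine (Finset.abs_sum_le_sum_abs _ _).trans ?_
  refine (Finset.sum_le_card_nsmul _ _ B fun c _ => ?_).trans (by simp)
  rw [abs_mul]
  refine (mul_le_of_le_one_left (abs_nonneg _) ?_).trans (hB a b c q)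
  exact (PiLp.norm_apply_le (M.x q - y) c).trans hq

/-- second order condition at a maximum of `σ exp (-u / r)` -/
theorem max_cond {σ : X → ℝ} (hσ : M.Sm σ) (hu : M.Sm u) {r : ℝ} (hr : 0 < r) {q : X}
    (hq : IsLocalMax (fun p => σ p * Real.exp (-r⁻¹ * u p)) q) :
    (∀ a, r * M.pre.D a σ q = σ q * M.pre.D a u q) ∧
    r ^ 2 * M.vv u q * (∑ a, M.pre.hess σ a a q -
        ∑ a, ∑ b, M.Xf u a q * M.Xf u b q * M.pre.hess σ a b q) ≤
      r * σ q * M.pre.dv (M.Xf u) q + σ q * (M.vv u q * (1 - M.vv u q ^ 2)) := by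
  have hE : M.Sm fun p => Real.exp (-r⁻¹ * u p) := ((sm_const _).mul hu).exp
  have hG := hσ.mul hE
  have hW : ∀ e, M.Sm fun p => M.pre.D e σ p - r⁻¹ * (σ p * M.pre.D e u p) := fun e =>
    (hσ.D e).sub ((sm_const _).mul (hσ.mul (hu.D e)))
  have h1 : ∀ e, M.pre.D e (fun p => σ p * Real.exp (-r⁻¹ * u p)) = fun p =>
      Real.exp (-r⁻¹ * u p) * (M.pre.D e σ p - r⁻¹ * (σ p * M.pre.D e u p)) := fun e => by
    funext p
    rw [D_mul (hσ.diffAt p) (hE.diffAt p), D_comp (f := fun p => -r⁻¹ * u p)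
      (((sm_const _).mul hu).diffAt p) (Real.hasDerivAt_exp _), D_const_mul _ (hu.diffAt p)]
    ring
  have h2 : ∀ e, M.pre.D e σ q - r⁻¹ * (σ q * M.pre.D e u q) = 0 := fun e => by
    have := D_eq_zero_of_isLocalMax (M := M) hq e
    rw [h1] at this
    exact (mul_eq_zero.1 this).resolve_left (Real.exp_pos _).ne'
  have h2' : ∀ e, M.pre.D e σ q = r⁻¹ * (σ q * M.pre.D e u q) := fun e => sub_eq_zero.1 (h2 e)
  have h3 : ∀ a b, M.pre.hess (fun p => σ p * Real.exp (-r⁻¹ * u p)) a b q =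
      Real.exp (-r⁻¹ * u q) * (M.pre.hess σ a b q - r⁻¹ * σ q * M.pre.hess u a b q
        - r⁻¹ ^ 2 * σ q * (M.pre.D a u q * M.pre.D b u q)) := fun a b => by
    have t : ∑ c, M.pre.P b c q * M.pre.D c u q = M.pre.D b u q := by
      simpa using congrFun (tan_D (M := M) u b) q
    rw [← t]
    simp only [hess_apply, Finset.mul_sum, ← Finset.sum_sub_distrib]
    refine Finset.sum_congr rfl fun c _ => ?_
    rw [h1, D_mul (hE.diffAt q) ((hW c).diffAt q), h2,
      D_sub ((hσ.D c).diffAt q) (((sm_const _).mul (hσ.mul (hu.D c))).diffAt q),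
      D_const_mul _ ((hσ.mul (hu.D c)).diffAt q), D_mul (hσ.diffAt q) ((hu.D c).diffAt q), h2' a]
    ring
  refine ⟨fun a => by rw [h2']; field_simp, ?_⟩
  have h4 := lap_sub_nonpos_of_isLocalMax hG hq (fun a => M.Xf u a q) (by
    rw [M.sum_Xf_sq]; nlinarith [sq_nonneg (M.vv u q)])
  have hg := M.vv_sq u q
  have h5 : ∑ a, ∑ b, M.Xf u a q * M.Xf u b q * (M.pre.D a u q * M.pre.D b u q) =
      (M.vv u q * M.pre.gam u u q) ^ 2 := by
    rw [gam_apply, Finset.mul_sum, sq, Finset.sum_mul_sum]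
    exact Finset.sum_congr rfl fun a _ => Finset.sum_congr rfl fun b _ => by
      rw [Xf_apply, Xf_apply]; ring
  have h6 : M.pre.lap (fun p => σ p * Real.exp (-r⁻¹ * u p)) q -
      ∑ a, ∑ b, M.Xf u a q * M.Xf u b q *
        M.pre.hess (fun p => σ p * Real.exp (-r⁻¹ * u p)) a b q =
      Real.exp (-r⁻¹ * u q) * ((∑ a, M.pre.hess σ a a q -
        ∑ a, ∑ b, M.Xf u a q * M.Xf u b q * M.pre.hess σ a b q)
        - r⁻¹ * σ q * (M.pre.lap u q - ∑ a, ∑ b, M.Xf u a q * M.Xf u b q * M.pre.hess u a b q)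
        - r⁻¹ ^ 2 * σ q * (M.pre.gam u u q - (M.vv u q * M.pre.gam u u q) ^ 2)) := by
    have s1 : ∑ a, M.pre.hess (fun p => σ p * Real.exp (-r⁻¹ * u p)) a a q =
        Real.exp (-r⁻¹ * u q) * (∑ a, M.pre.hess σ a a q - r⁻¹ * σ q * ∑ a, M.pre.hess u a a q
          - r⁻¹ ^ 2 * σ q * ∑ a, M.pre.D a u q * M.pre.D a u q) := by
      simp only [h3, Finset.mul_sum, ← Finset.sum_sub_distrib]
    have s2 : ∑ a, ∑ b, M.Xf u a q * M.Xf u b q *
        M.pre.hess (fun p => σ p * Real.exp (-r⁻¹ * u p)) a b q =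
        Real.exp (-r⁻¹ * u q) * (∑ a, ∑ b, M.Xf u a q * M.Xf u b q * M.pre.hess σ a b q
          - r⁻¹ * σ q * ∑ a, ∑ b, M.Xf u a q * M.Xf u b q * M.pre.hess u a b q
          - r⁻¹ ^ 2 * σ q *
            ∑ a, ∑ b, M.Xf u a q * M.Xf u b q * (M.pre.D a u q * M.pre.D b u q)) := by
      simp only [h3, Finset.mul_sum, ← Finset.sum_sub_distrib]
      exact Finset.sum_congr rfl fun a _ => Finset.sum_congr rfl fun b _ => by ring
    rw [← h5, ← tr_hess hG, ← tr_hess hu, gam_apply, s1, s2]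
    ring
  rw [h6] at h4
  have h7 := nonpos_of_mul_nonpos_right h4 (Real.exp_pos _)
  have h8 : M.pre.gam u u q - (M.vv u q * M.pre.gam u u q) ^ 2 = 1 - M.vv u q ^ 2 := by
    linear_combination (1 - M.pre.gam u u q) * hg
  rw [h8] at h7
  have h9 := mul_le_mul_of_nonneg_left h7 (mul_pos (pow_pos hr 2) (M.vv_pos u q)).le
  rw [dv_X hu]
  have e1 : r ^ 2 * r⁻¹ = r := by field_simp
  have e2 : r ^ 2 * r⁻¹ ^ 2 = 1 := by field_simp
  linear_combination h9 + (M.vv u q * σ q * (M.pre.lap u q -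
    ∑ a, ∑ b, M.Xf u a q * M.Xf u b q * M.pre.hess u a b q)) * e1 +
    (M.vv u q * σ q * (1 - M.vv u q ^ 2)) * e2

theorem L_ge {σ : X → ℝ} {q : X} {K : ℝ} (hK : ∀ a b, |M.pre.hess σ a b q| ≤ K) (u : X → ℝ) :
    -(Fintype.card ι * K + Fintype.card ι * (Fintype.card ι * K)) ≤ ∑ a, M.pre.hess σ a a q -
      ∑ a, ∑ b, M.Xf u a q * M.Xf u b q * M.pre.hess σ a b q := by
  have a1 : ∑ a, -M.pre.hess σ a a q ≤ Fintype.card ι * K :=
    (Finset.sum_le_card_nsmul _ _ K fun a _ => (neg_le_abs _).trans (hK a a)).trans (by simp)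
  have a2 : ∑ a, ∑ b, M.Xf u a q * M.Xf u b q * M.pre.hess σ a b q ≤
      Fintype.card ι * (Fintype.card ι * K) := by
    refine (Finset.sum_le_card_nsmul _ _ (Fintype.card ι * K) fun a _ => ?_).trans (by simp)
    refine (Finset.sum_le_card_nsmul _ _ K fun b _ => ?_).trans (by simp)
    refine (le_abs_self _).trans ?_
    rw [abs_mul, abs_mul]
    exact (mul_le_of_le_one_left (abs_nonneg _)
      (mul_le_one₀ (abs_Xf_le M u a q) (abs_nonneg _) (abs_Xf_le M u b q))).trans (hK a b)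
  rw [Finset.sum_neg_distrib] at a1
  linarith

theorem real1 {A r t l : ℝ} (hA : 0 ≤ A) (hrA : A * r ≤ 1 / 4) (ht : 0 ≤ t) (htr : t ≤ r)
    (h : t - l ≤ A * t ^ 2) : t ^ 2 / 2 ≤ l ^ 2 := by
  have a1 : A * t ≤ 1 / 4 := (mul_le_mul_of_nonneg_left htr hA).trans hrA
  have a2 : A * t * t ≤ 1 / 4 * t := mul_le_mul_of_nonneg_right a1 ht
  have a4 : 3 / 4 * t ≤ l := by nlinarith
  nlinarith [mul_self_le_mul_self (by positivity) a4]

theorem real2 {r t l g v : ℝ} (hs : 0 ≤ r ^ 2 - t ^ 2) (h1 : t ^ 2 / 2 ≤ l ^ 2)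
    (h2 : (r ^ 2 - t ^ 2) ^ 2 * g = 4 * r ^ 2 * l ^ 2) (h3 : v ^ 2 * (1 + g) = 1) :
    r ^ 2 * v ≤ r ^ 2 - t ^ 2 := by
  have a1 : (r ^ 2) ^ 2 ≤ (r ^ 2 - t ^ 2) ^ 2 * (1 + g) := by
    rw [mul_add, h2]
    nlinarith [mul_le_mul_of_nonneg_left h1 (sq_nonneg r), sq_nonneg (t ^ 2)]
  refine (abs_le_of_sq_le_sq' ?_ hs).2
  calc (r ^ 2 * v) ^ 2 = v ^ 2 * (r ^ 2) ^ 2 := by ring
    _ ≤ _ := mul_le_mul_of_nonneg_left a1 (sq_nonneg v)
    _ = _ := by linear_combination (r ^ 2 - t ^ 2) ^ 2 * h3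

theorem real3 {r s v K L D : ℝ} (hs : 0 < s) (hv : 0 < v) (hv1 : v ≤ 1) (hK : 0 ≤ K)
    (h1 : r ^ 2 * v ≤ s) (h2 : -K ≤ L) (h3 : r ^ 2 * v * L ≤ r * s * D + s * (v * (1 - v ^ 2))) :
    -(K + 1) ≤ r * D := by
  refine le_of_mul_le_mul_left ?_ hs
  have a1 := mul_le_mul_of_nonneg_left h2 (mul_nonneg (sq_nonneg r) hv.le)
  have a2 := mul_le_mul_of_nonneg_right h1 hK
  have a3 : v * (1 - v ^ 2) ≤ 1 := by nlinarith [mul_pos hv (pow_pos hv 2)]
  have a4 := mul_le_mul_of_nonneg_left a3 hs.le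
  linarith

/-- the lower bound for the mean curvature at a touching point -/
theorem dv_ge {A B r : ℝ} {p q : X} (hu : M.Sm u) (hA0 : 0 ≤ A) (hB0 : 0 ≤ B) (hr : 0 < r)
    (hr1 : r ≤ 1) (hrA : A * r ≤ 1 / 4) (htr : ‖M.x q - M.x p‖ < r)
    (hA : ‖M.x p - M.x q - M.PL q (M.x p - M.x q)‖ ≤ A * ‖M.x p - M.x q‖ ^ 2)
    (hB : ∀ a b c q, |M.pre.II a b c q| ≤ B)
    (hq : IsLocalMax (fun z => sg M (M.x p) r z * Real.exp (-r⁻¹ * u z)) q) :
    -(Fintype.card ι * (2 * (1 + Fintype.card ι * B)) +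
      Fintype.card ι * (Fintype.card ι * (2 * (1 + Fintype.card ι * B))) + 1) ≤
      r * M.pre.dv (M.Xf u) q := by
  obtain ⟨c1, c2⟩ := max_cond (sm_sg M (M.x p) r) hu hr hq
  have hs : 0 < r ^ 2 - ‖M.x q - M.x p‖ ^ 2 :=
    sub_pos.2 (pow_lt_pow_left₀ htr (norm_nonneg _) two_ne_zero)
  have p1 : ‖M.x q - M.x p‖ ^ 2 / 2 ≤ ‖M.PL q (M.x q - M.x p)‖ ^ 2 := by
    rw [← neg_sub (M.x q) (M.x p), map_neg, norm_neg, ← neg_sub', norm_neg] at hA
    exact real1 hA0 hrA (norm_nonneg _) htr.le ((norm_sub_norm_le _ _).trans hA)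
  have p2 : (r ^ 2 - ‖M.x q - M.x p‖ ^ 2) ^ 2 * M.pre.gam u u q =
      4 * r ^ 2 * ‖M.PL q (M.x q - M.x p)‖ ^ 2 := by
    rw [gam_apply, EuclideanSpace.real_norm_sq_eq (M.PL q _), Finset.mul_sum, Finset.mul_sum]
    refine Finset.sum_congr rfl fun a _ => ?_
    have := c1 a
    rw [D_sg, sg] at this
    linear_combination (-((r ^ 2 - ‖M.x q - M.x p‖ ^ 2) * M.pre.D a u q) +
      2 * r * M.PL q (M.x q - M.x p) a) * this
  exact real3 hs (M.vv_pos u q) (M.vv_le_one u q) (by positivity)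
    (real2 hs.le p1 p2 (M.vv_sq u q)) (L_ge (abs_hess_sg hB (htr.le.trans hr1) r) u) c2

theorem real4 {r t a b : ℝ} (hr : 0 < r)
    (h : r ^ 2 * Real.exp (-r⁻¹ * a) ≤ (r ^ 2 - t ^ 2) * Real.exp (-r⁻¹ * b)) : t < r ∧ b ≤ a := by
  have hr2 : 0 < r ^ 2 := pow_pos hr 2
  have h1 := (mul_pos_iff_of_pos_right (Real.exp_pos _)).1
    ((mul_pos hr2 (Real.exp_pos _)).trans_le h)
  have a1 : r ^ 2 * Real.exp (-r⁻¹ * a) ≤ r ^ 2 * Real.exp (-r⁻¹ * b) :=
    h.trans (mul_le_mul_of_nonneg_right (sub_le_self _ (sq_nonneg t)) (Real.exp_pos _).le)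
  have a2 := Real.exp_le_exp.1 (le_of_mul_le_mul_left a1 hr2)
  refine ⟨lt_of_pow_lt_pow_left₀ 2 hr.le (by linarith), le_of_mul_le_mul_left ?_ (inv_pos.2 hr)⟩
  linarith

theorem real5 {r K B D D' τ a b c : ℝ} (hr : 0 < r) (hr1 : r ≤ 1) (hτ : 0 < τ) (hB : 0 ≤ B)
    (h1 : -K ≤ r * D) (h2 : -B ≤ D') (h3 : D + D' = τ * b - c) (h4 : 2 * (K + B) / r ≤ c)
    (h5 : b ≤ a) : 2 * (K + B) / (2 * r) ≤ τ * a := by
  rw [div_le_iff₀ hr] at h4
  rw [div_le_iff₀ (by positivity)]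
  have a1 := mul_le_mul_of_nonneg_left (mul_le_mul_of_nonneg_left h5 hτ.le) hr.le
  have a2 := mul_le_mul_of_nonneg_left h2 hr.le
  have a3 := mul_le_mul_of_nonneg_right hr1 hB
  have a4 : r * (τ * b) = r * D + r * D' + c * r := by linear_combination (-r) * h3
  linarith

end Sq

open Sq Imm in
theorem bar : BarStmt := by
  intro d ι _ _ X _ _ _ _ _ _ M F hi hF
  obtain ⟨B, hB0, hB⟩ := bound_fam (f := fun k : ι × ι × ι => M.pre.II k.1 k.2.1 k.2.2)
    fun k => (M.sm_II _ _ _).continuous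
  obtain ⟨B', hB'0, hB'⟩ := bound_fam (f := fun a : ι => M.pre.D a F) fun a => (hF.D a).continuous
  obtain ⟨A, hA0, hA⟩ := exists_perp_le hi
  refine ⟨min 1 (4 * A)⁻¹, 2 * ((Fintype.card ι * (2 * (1 + Fintype.card ι * B)) +
      Fintype.card ι * (Fintype.card ι * (2 * (1 + Fintype.card ι * B))) + 1) +
      Fintype.card ι * B'), by positivity, by positivity, ?_⟩
  intro h u τ r p hu hτ hr hr0 e hh
  have hr1 : r ≤ 1 := hr0.trans (min_le_left _ _)
  have hrA : A * r ≤ 1 / 4 := by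
    have := mul_le_mul_of_nonneg_left (hr0.trans (min_le_right _ _)) hA0.le
    rwa [show A * (4 * A)⁻¹ = 1 / 4 by field_simp] at this
  obtain ⟨q, -, hq⟩ := isCompact_univ.exists_isMaxOn ⟨p, mem_univ p⟩
    ((sm_sg M (M.x p) r).mul ((sm_const (-r⁻¹)).mul hu).exp).continuous.continuousOn
  have h1 : sg M (M.x p) r p * Real.exp (-r⁻¹ * u p) ≤ sg M (M.x p) r q * Real.exp (-r⁻¹ * u q) :=
    hq (mem_univ p)
  rw [show sg M (M.x p) r p = r ^ 2 by simp [sg]] at h1
  obtain ⟨htr, hup⟩ := real4 (t := ‖M.x q - M.x p‖) hr h1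
  exact real5 hr hr1 hτ (by positivity)
    (dv_ge hu hA0.le hB0.le hr hr1 hrA htr (hA q p) (fun a b c q => hB (a, b, c) q)
      (hq.isLocalMax univ_mem))
    (abs_le.1 (abs_dir_le (fun a => hB' a q) u)).1 (e q) (hh q htr) hup

/-- one of `n` disjoint slabs has small measure -/
theorem Sq.slab {X : Type} [MeasurableSpace X] (μ : Measure X) [IsFiniteMeasure μ] {w : X → ℝ}
    (hw : Measurable w) (j : ℕ) : ∃ k : ℕ, k ≤ j ∧
      μ.real {p | |w p - 3 * (j + 1) * k| ≤ j + 1} ≤ μ.real univ / (j + 1) := by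
  have hj : (0 : ℝ) < j + 1 := by positivity
  have h1 : ∑ k ∈ Finset.range (j + 1), μ.real {p | |w p - 3 * (j + 1) * k| ≤ j + 1} ≤
      μ.real univ := by
    refine sum_measureReal_le_measureReal_univ (fun k _ => ?_) fun k _ l _ hkl => ?_
    · exact measurableSet_le (hw.sub_const _).abs measurable_const
    · refine disjoint_left.2 fun p h1 h2 => ?_
      simp only [mem_ofPred_eq, abs_le] at h1 h2
      rcases lt_or_gt_of_ne hkl with h | h
      · have : (k : ℝ) + 1 ≤ l := by exact_mod_cast h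
        nlinarith
      · have : (l : ℝ) + 1 ≤ k := by exact_mod_cast h
        nlinarith
  obtain ⟨k, hk, h2⟩ := Finset.exists_le_of_sum_le (s := Finset.range (j + 1))
    (g := fun _ => μ.real univ / (j + 1)) ⟨0, by simp⟩ (h1.trans (le_of_eq (by
      simp only [Finset.sum_const, Finset.card_range, nsmul_eq_mul]
      push_cast
      field_simp)))
  exact ⟨k, Nat.lt_succ_iff.1 (Finset.mem_range.1 hk), h2⟩

open Sq Imm in
theorem seq (hJ : JangStmt) (hB : BarStmt) : SeqStmt := by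
  intro d ι _ _ X _ _ _ _ _ _ M F hi hF
  obtain ⟨r0, C, hr0, hC, hbar⟩ := hB d ι X M F hi hF
  refine ⟨r0, 2 * C, hr0, by positivity, fun h hh => ?_⟩
  obtain ⟨B1, hB1, b1⟩ := exists_bound hh.continuous
  obtain ⟨B2, hB2, b2⟩ := bound_fam (f := fun a : ι => M.pre.D a h) fun a => (hh.D a).continuous
  have hn : ∀ j : ℕ, (1 : ℝ) ≤ j + 1 := fun j => by linarith [Nat.cast_nonneg (α := ℝ) j]
  set τ : ℕ → ℝ := fun j => (((j : ℝ) + 1) ^ 3)⁻¹ with hτ
  have τ0 : ∀ j, 0 < τ j := fun j => by positivity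
  have τ1 : ∀ j, τ j ≤ 1 := fun j => inv_le_one_of_one_le₀ (one_le_pow₀ (hn j))
  choose w hw ew using fun j => hJ d ι X M F hi hF h (τ j) hh (τ0 j)
  choose k hk mk using fun j => slab M.mu (hw j).continuous.measurable j
  set t : ℕ → ℝ := fun j => 3 * (j + 1) * k j with ht
  have hU : ((hyperfilter ℕ : Ultrafilter ℕ) : Filter ℕ) ≤ atTop :=
    hyperfilter_le_cofinite.trans Nat.cofinite_eq_atTop.le
  have l1 : Tendsto (fun j : ℕ => 1 / ((j : ℝ) + 1)) (hyperfilter ℕ) (𝓝 0) :=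
    tendsto_one_div_add_atTop_nhds_zero_nat.mono_left hU
  have s0 : ∀ j, 0 ≤ τ j * t j := fun j => mul_nonneg (τ0 j).le (by positivity)
  have ls : Tendsto (fun j => τ j * t j) (hyperfilter ℕ) (𝓝 0) := by
    refine squeeze_zero s0 (fun j => ?_) (by simpa using l1.const_mul 3)
    have a1 : (k j : ℝ) ≤ j + 1 := by
      have : (k j : ℝ) ≤ j := by exact_mod_cast hk j
      linarith
    have a2 := hn j
    calc τ j * t j ≤ τ j * (3 * (j + 1) * (j + 1)) :=
          mul_le_mul_of_nonneg_left (mul_le_mul_of_nonneg_left a1 (by positivity)) (τ0 j).le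
      _ = _ := by simp only [hτ]; field_simp
  refine ⟨1 + (2 + Fintype.card ι) * max B1 B2, hyperfilter ℕ, fun j p => w j p + -t j, τ,
    fun j => τ j * t j, ⟨hh, fun j => ?_, τ0, ?_, ls, fun j p => ?_, fun T => ?_⟩, ?_⟩
  · exact (jang_adm (hw j) hh (τ0 j) (τ1 j) (ew j) (fun p => (b1 p).trans (le_max_left _ _))
      (fun a p => (b2 a p).trans (le_max_right _ _)) (hB1.le.trans (le_max_left _ _))).add_const _
  · refine squeeze_zero (fun j => (τ0 j).le) (fun j => ?_) l1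
    rw [one_div]
    exact inv_anti₀ (by positivity) (le_self_pow₀ (hn j) three_ne_zero)
  · rw [hF_add_const, ew]; ring
  · refine squeeze_zero' (Eventually.of_forall fun _ => measureReal_nonneg) ?_
      (by simpa using l1.const_mul (M.mu.real univ))
    filter_upwards [hU (eventually_ge_atTop ⌈T⌉₊)] with j hj
    refine le_trans (measureReal_mono fun p hp => ?_) ((mk j).trans (le_of_eq (by field_simp)))
    have a1 : T ≤ j := (Nat.le_ceil T).trans (by exact_mod_cast hj)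
    have a2 : |w j p + -t j| ≤ T := hp
    show |w j p - t j| ≤ j + 1
    rw [sub_eq_add_neg]
    linarith
  · intro r p hr hr'
    have hN : {q | ‖M.x q - M.x p‖ < r / 2} ∈ 𝓝 p :=
      (isOpen_lt (M.continuous_x.sub continuous_const).norm continuous_const).mem_nhds
        (by simpa using hr)
    have tri : ∀ q q', ‖M.x q - M.x p‖ < r / 2 → ‖M.x q' - M.x q‖ < r / 2 →
        ‖M.x q' - M.x p‖ < r := fun q q' h1 h2 => by
      linarith [norm_sub_le_norm_sub_add_norm_sub (M.x q') (M.x q) (M.x p)]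
    have e1 : C / (r / 2) = 2 * C / r := by field_simp
    have e2 : 0 < C / (2 * (r / 2)) := by positivity
    refine ⟨fun H => ⟨_, hN, ?_⟩, fun H => ⟨_, hN, Eventually.of_forall fun j q hq => ?_⟩⟩
    · filter_upwards [ls.eventually (gt_mem_nhds e2)] with j hj q hq
      have := hbar h (w j) (τ j) (r / 2) q (hw j) (τ0 j) (by positivity) (by linarith) (ew j)
        fun q' hq' => e1 ▸ H q' (tri q q' hq hq')
      refine (mul_pos_iff_of_pos_left (τ0 j)).1 ?_
      linarith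
    · have := hbar (fun q => -h q) (fun q => -w j q) (τ j) (r / 2) q (hw j).neg (τ0 j)
        (by positivity) (by linarith) (jang_neg (ew j))
        fun q' hq' => by have := H q' (tri q q' hq hq'); rw [e1]; linarith
      refine (mul_pos_iff_of_pos_left (τ0 j)).1 ?_
      linarith [s0 j]

end Crest.Agent.N222

end
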