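import Crest.Agent.N222.B.Defs
import Crest.Agent.N222.F.Graph
import Crest.Agent.N222.G.Sim0

/-!
# Row 222, part B: first order estimates on admissible graphs (helper17)

`Bd a k f` : `|f| ≤ C √(1 + |a|) ^ k`.
-/

set_option autoImplicit false
set_option linter.unusedSectionVars false
open MeasureTheory Set Filter Topology Function Metric


noncomputable section

namespace Crest.Agent.N222

namespace Sh

/-- growth of order `k` -/
def Bd {Ω : Type} (a : Ω → ℝ) (k : ℕ) (f : Ω → ℝ) : Prop :=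
  ∃ C : ℝ, 0 ≤ C ∧ ∀ ω, |f ω| ≤ C * √(1 + |a ω|) ^ k

theorem one_le_w (t : ℝ) : 1 ≤ √(1 + |t|) := Real.one_le_sqrt.2 (by linarith [abs_nonneg t])

namespace Bd

variable {Ω : Type} {a f g : Ω → ℝ} {k l : ℕ}

theorem mono (h : Bd a k f) (hl : k ≤ l := by norm_num) : Bd a l f := by
  obtain ⟨C, h0, h⟩ := h
  exact ⟨C, h0, fun ω => (h ω).trans
    (mul_le_mul_of_nonneg_left (pow_le_pow_right₀ (one_le_w _) hl) h0)⟩

theorem congr (h : Bd a k f) (e : ∀ ω, g ω = f ω) : Bd a k g := (funext e : g = f) ▸ h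

theorem of_le {C : ℝ} (h : ∀ ω, |f ω| ≤ C) : Bd a 0 f :=
  ⟨max C 0, le_max_right _ _, fun ω => by simpa using Or.inl (h ω)⟩

theorem const (c : ℝ) : Bd a 0 fun _ => c := of_le fun _ => le_rfl

theorem zero : Bd a k fun _ => 0 := (const 0).mono (Nat.zero_le _)

theorem add (hf : Bd a k f) (hg : Bd a k g) : Bd a k fun ω => f ω + g ω := by
  obtain ⟨C, h0, h⟩ := hf
  obtain ⟨D, h1, h'⟩ := hg
  exact ⟨C + D, add_nonneg h0 h1, fun ω => by linarith [abs_add_le (f ω) (g ω), h ω, h' ω]⟩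

theorem neg (hf : Bd a k f) : Bd a k fun ω => -f ω := by simpa only [Bd, abs_neg] using hf

theorem sub (hf : Bd a k f) (hg : Bd a k g) : Bd a k fun ω => f ω - g ω :=
  (hf.add hg.neg).congr fun _ => sub_eq_add_neg _ _

theorem mul (hf : Bd a k f) (hg : Bd a l g) : Bd a (k + l) fun ω => f ω * g ω := by
  obtain ⟨C, h0, h⟩ := hf
  obtain ⟨D, h1, h'⟩ := hg
  refine ⟨C * D, mul_nonneg h0 h1, fun ω => ?_⟩
  rw [abs_mul, pow_add, mul_mul_mul_comm]
  exact mul_le_mul (h ω) (h' ω) (abs_nonneg _) (by positivity)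

theorem sum {κ : Type} [Fintype κ] {F : κ → Ω → ℝ} (h : ∀ i, Bd a k (F i)) :
    Bd a k fun ω => ∑ i, F i ω := by
  choose C h0 h using h
  refine ⟨∑ i, C i, Finset.sum_nonneg fun i _ => h0 i, fun ω => ?_⟩
  rw [Finset.sum_mul]
  exact (Finset.abs_sum_le_sum_abs _ _).trans (Finset.sum_le_sum fun i _ => h i ω)

theorem unif {κ : Type} [Fintype κ] {F : κ → Ω → ℝ} (h : ∀ i, Bd a k (F i)) :
    ∃ C : ℝ, 0 ≤ C ∧ ∀ i ω, |F i ω| ≤ C * √(1 + |a ω|) ^ k := by
  choose C h0 h using h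
  exact ⟨∑ i, C i, Finset.sum_nonneg fun i _ => h0 i, fun i ω => (h i ω).trans
    (mul_le_mul_of_nonneg_right (Finset.single_le_sum (fun i _ => h0 i) (Finset.mem_univ i))
      (by positivity))⟩

end Bd

variable {d : ℕ} {ι : Type} [Fintype ι] [DecidableEq ι] {X : Type} [TopologicalSpace X]
  [MeasurableSpace X] {M : Imm d ι X} {F u : X → ℝ}

open Imm

/-! ### pointwise identities -/

/-- covariant derivative of `A` -/
abbrev T (M : Imm d ι X) (u : X → ℝ) (a b c : Option ι) : X → ℝ := (M.gS u).nab2 (M.A u) a b c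

/-- `II · A` -/
abbrev B (M : Imm d ι X) (u : X → ℝ) (a b c : Option ι) : X → ℝ := (M.gS u).sB (M.A u) a b c

theorem symT (hu : M.Sm u) : (M.preR.graph ⟨u, hu⟩ ⟨_, hu.vv⟩).SymT
    (M.preR.A ⟨u, hu⟩ ⟨_, hu.vv⟩) := ⟨M.isDS.A_tan (hv hu), M.isDS.A_symm (hv hu)⟩

theorem gDS (hu : M.Sm u) : (M.preR.graph ⟨u, hu⟩ ⟨_, hu.vv⟩).IsDS := M.isDS.graph_isDS (hv hu)

theorem nu_unit (hu : M.Sm u) (p : X) : ∑ c, M.nu u c p * M.nu u c p = 1 := by
  have := congrArg M.val (M.isDS.nu_unit (hv hu))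
  simp only [map_sum, map_mul, map_one, M.hom.nu] at this
  have := congrFun this p
  simp only [Finset.sum_apply, Pi.mul_apply] at this
  exact this

theorem II_eq (hu : M.Sm u) (a b c : Option ι) (p : X) :
    (M.gS u).II a b c p - M.A u a b p * M.nu u c p = c.elim 0 fun c => ∑ e, ∑ f,
      (M.gS u).P a (some e) p * (M.gS u).P b (some f) p * M.pre.II e f c p := by
  have := congrArg M.val (M.isDS.graph_II (hv hu) a b c)
  rw [sub_eq_iff_eq_add']
  cases c <;>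
  · simp only [map_sum, map_mul, map_add, map_zero, M.hom.nu, M.hom.A, M.hom.II, (ghom hu).P,
      (ghom hu).II, Option.elim] at this
    have := congrFun this p
    simp only [Finset.sum_apply, Pi.mul_apply, Pi.add_apply] at this
    exact this

theorem D_nu (hu : M.Sm u) (a c : Option ι) (p : X) :
    (M.gS u).D a (M.nu u c) p + M.A u a c p = c.elim 0 fun c => ∑ b, ∑ e,
      (M.gS u).P a (some b) p * M.pre.II b e c p * M.nu u (some e) p := by
  have := congrArg M.val (M.isDS.D_nu (hv hu) a c)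
  rw [← eq_sub_iff_add_eq, sub_eq_neg_add]
  cases c <;>
  · simp only [map_sum, map_mul, map_add, map_neg, map_zero, M.hom.nu, M.hom.A, M.hom.II,
      (ghom hu).P, (ghom hu).D, Option.elim] at this
    have := congrFun this p
    simp only [Finset.sum_apply, Pi.mul_apply, Pi.add_apply, Pi.neg_apply] at this
    exact this

theorem H_eq (hu : M.Sm u) (c : Option ι) (p : X) :
    (M.gS u).H c p = ∑ a, (M.gS u).II a a c p := by
  have := congrArg M.val ((gDS hu).tr_II c)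
  simp only [map_sum, (ghom hu).II, (ghom hu).H] at this
  have := congrFun this p
  simp only [Finset.sum_apply] at this
  exact this.symm

theorem cod (hu : M.Sm u) (a b c : Option ι) (p : X) : T M u a b c p - T M u b a c p =
    ∑ a', ∑ b', ∑ c', ∑ e, (M.gS u).P a (some a') p * (M.gS u).P b (some b') p *
      (M.gS u).P c (some c') p * M.pre.Rm a' b' e c' p * M.Xf u e p := by
  have := congrArg M.val (M.isDS.codazzi (hv hu) a b c)
  simp only [map_sum, map_mul, map_sub, M.hom.A, M.hom.Rm, M.hom.X, (ghom hu).P,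
    (ghom hu).nab2] at this
  have := congrFun this p
  simp only [Finset.sum_apply, Pi.mul_apply, Pi.sub_apply] at this
  exact this

theorem T_symm (hu : M.Sm u) (a b c : Option ι) : T M u a b c = T M u a c b := by
  have := congrArg M.val ((gDS hu).T_symm (symT hu) a b c)
  simp only [M.hom.A, (ghom hu).nab2] at this
  exact this

theorem tr_T0 {R : Type} [CommRing R] [Algebra ℝ R] {S : Pre R ι} (h : S.IsDS) {u v : R}
    (hv : v ^ 2 * (1 + S.gam u u) = 1) (F : R) (c : Option ι) :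
    ∑ a, (S.graph u v).nab2 (S.A u v) c a a = (S.graph u v).D c (S.hF F u v)
      - ∑ a, (S.X u v a * (S.graph u v).D c (S.D a F)
        - (S.graph u v).D c (S.nu u v (some a)) * S.D a F) := by
  have hG := h.graph_isDS hv
  have e : S.dv (S.X u v) = S.hF F u v - ∑ a, S.X u v a * S.D a F := by
    simp only [Pre.hF, Pre.dvF, Pre.dir, add_sub_cancel_right]
  rw [hG.tr_T ⟨h.A_tan hv, h.A_symm hv⟩, h.tr_A hv, e, hG.D_sub, hG.D_sum]
  congr 1
  refine Finset.sum_congr rfl fun a _ => ?_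
  rw [hG.mul, show S.nu u v (some a) = -S.X u v a from rfl, hG.D_neg]
  ring

theorem tr_T (hu : M.Sm u) (hF : M.Sm F) (c : Option ι) (p : X) :
    ∑ a, T M u c a a p = (M.gS u).D c (M.hF F u) p
      - ∑ a, (M.Xf u a p * (M.gS u).D c (M.pre.D a F) p
        - (M.gS u).D c (M.nu u (some a)) p * M.pre.D a F p) := by
  have := congrArg M.val (tr_T0 M.isDS (hv hu) ⟨F, hF⟩ c)
  simp only [map_sum, map_mul, map_sub, M.hom.A, M.hom.X, M.hom.nu, M.hom.D, M.hom.hF,
    (ghom hu).D, (ghom hu).nab2] at this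
  have := congrFun this p
  simp only [Finset.sum_apply, Pi.mul_apply, Pi.sub_apply] at this
  exact this

theorem dv_A (hu : M.Sm u) (c : Option ι) (p : X) :
    (M.gS u).dv (fun a => M.A u a c) p = ∑ a, T M u a a c p + ∑ a, B M u a c a p := by
  have := congrArg M.val ((gDS hu).dv_A (symT hu) c)
  simp only [map_sum, map_add, M.hom.A, (ghom hu).D, (ghom hu).nab2, (ghom hu).sB] at this
  have := congrFun this p
  simp only [Finset.sum_apply, Pi.add_apply] at this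
  simp only [Pre.dv, Finset.sum_apply]
  exact this

theorem B_apply (u : X → ℝ) (b e f : Option ι) (p : X) :
    B M u b e f p = ∑ g, (M.gS u).II b g e p * M.A u g f p := by
  simp only [B, Pre.sB, Finset.sum_apply, Pi.mul_apply]

/-! ### bounds -/

/-- admissible graphs with a point -/
abbrev Om (M : Imm d ι X) (F : X → ℝ) (Λ : ℝ) : Type := {u // M.Adm F Λ u} × X

/-- `|A|²` -/
def aa (M : Imm d ι X) (F : X → ℝ) (Λ : ℝ) (ω : Om M F Λ) : ℝ := M.a2 ω.1.1 ω.2

variable [CompactSpace X] {Λ : ℝ}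

local notation "𝔹" => Bd (aa M F Λ)

theorem w_eq (ω : Om M F Λ) : √(1 + |aa M F Λ ω|) = √(1 + M.a2 ω.1.1 ω.2) := by
  rw [aa, abs_of_nonneg (M.a2_nonneg _ _)]

theorem bd_sm {g : X → ℝ} (hg : M.Sm g) : 𝔹 0 fun ω => g ω.2 := by
  obtain ⟨C, hC⟩ := isCompact_univ.exists_bound_of_continuousOn hg.continuous.continuousOn
  exact Bd.of_le fun ω => hC ω.2 (mem_univ _)

theorem bd_nu (c : Option ι) : 𝔹 0 fun ω => M.nu ω.1.1 c ω.2 :=
  Bd.of_le (C := 1) fun ω => abs_le_one_iff_mul_self_le_one.2 ((Finset.single_le_sum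
    (f := fun c => M.nu ω.1.1 c ω.2 * M.nu ω.1.1 c ω.2)
    (fun _ _ => mul_self_nonneg _) (Finset.mem_univ c)).trans_eq (nu_unit ω.1.2.sm ω.2))

theorem bd_X (a : ι) : 𝔹 0 fun ω => M.Xf ω.1.1 a ω.2 :=
  (bd_nu (some a)).neg.congr fun ω => by rw [nu_some, neg_neg]

theorem bd_P (c e : Option ι) : 𝔹 0 fun ω => (M.gS ω.1.1).P c e ω.2 :=
  ((bd_sm (M.sm_Pb c e)).sub ((bd_nu c).mul (bd_nu e))).congr fun ω => gS_P ω.1.2.sm c e ω.2

theorem bd_A (a b : Option ι) : 𝔹 1 fun ω => M.A ω.1.1 a b ω.2 := by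
  refine ⟨1, zero_le_one, fun ω => ?_⟩
  rw [one_mul, pow_one, w_eq]
  refine Real.abs_le_sqrt ?_
  have h1 := Finset.single_le_sum (f := fun b => M.A ω.1.1 a b ω.2 * M.A ω.1.1 a b ω.2)
    (fun _ _ => mul_self_nonneg _) (Finset.mem_univ b)
  have h2 := Finset.single_le_sum (f := fun a => ∑ b, M.A ω.1.1 a b ω.2 * M.A ω.1.1 a b ω.2)
    (fun _ _ => Finset.sum_nonneg fun _ _ => mul_self_nonneg _) (Finset.mem_univ a)
  rw [a2_apply]
  linarith

theorem bd_a2 : 𝔹 2 fun ω => M.a2 ω.1.1 ω.2 :=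
  (Bd.sum fun a => Bd.sum fun b => (bd_A a b).mul (bd_A a b)).congr fun _ => a2_apply _ _ _

theorem bd_dir {g : X → ℝ} (hg : M.Sm g) : 𝔹 0 fun ω => M.pre.dir (M.Xf ω.1.1) g ω.2 :=
  (Bd.sum fun a => (bd_X a).mul (bd_sm (hg.D a))).congr fun _ => dir_apply _ _ _

theorem bd_D {g : X → ℝ} (hg : M.Sm g) (c : Option ι) : 𝔹 0 fun ω => (M.gS ω.1.1).D c g ω.2 := by
  refine (Bd.add ?_ ((bd_nu c).mul (bd_dir hg))).congr fun ω => gS_D_apply M _ _ c ω.2
  cases c with
  | none => exact Bd.zero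
  | some a => exact bd_sm (hg.D a)

theorem bd_beta (a b c : Option ι) :
    𝔹 0 fun ω => (M.gS ω.1.1).II a b c ω.2 - M.A ω.1.1 a b ω.2 * M.nu ω.1.1 c ω.2 := by
  refine Bd.congr ?_ fun ω => II_eq ω.1.2.sm a b c ω.2
  cases c with
  | none => exact Bd.zero
  | some c => exact Bd.sum fun e => Bd.sum fun f =>
      ((bd_P a _).mul (bd_P b _)).mul (bd_sm (M.sm_II e f c))

theorem bd_dnu (a c : Option ι) :
    𝔹 0 fun ω => (M.gS ω.1.1).D a (M.nu ω.1.1 c) ω.2 + M.A ω.1.1 a c ω.2 := by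
  refine Bd.congr ?_ fun ω => D_nu ω.1.2.sm a c ω.2
  cases c with
  | none => exact Bd.zero
  | some c => exact Bd.sum fun b => Bd.sum fun e =>
      ((bd_P a _).mul (bd_sm (M.sm_II b e c))).mul (bd_nu _)

theorem bd_trA (hF : M.Sm F) : 𝔹 0 fun ω => ∑ a, M.A ω.1.1 a a ω.2 :=
  ((Bd.of_le fun ω : Om M F Λ => ω.1.2.h ω.2).sub (bd_dir hF)).congr fun ω => by
    rw [tr_A ω.1.2.sm, hF_apply, add_sub_cancel_right]

theorem bd_H (hF : M.Sm F) (c : Option ι) : 𝔹 0 fun ω => (M.gS ω.1.1).H c ω.2 :=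
  (((bd_trA hF).mul (bd_nu c)).add (Bd.sum fun a => bd_beta a a c)).congr fun ω => by
    rw [H_eq ω.1.2.sm, Finset.sum_mul, ← Finset.sum_add_distrib]
    exact Finset.sum_congr rfl fun a _ => by ring

theorem bd_cod (a b c : Option ι) : 𝔹 0 fun ω => T M ω.1.1 a b c ω.2 - T M ω.1.1 b a c ω.2 :=
  (Bd.sum fun a' => Bd.sum fun b' => Bd.sum fun c' => Bd.sum fun e =>
    ((((bd_P a _).mul (bd_P b _)).mul (bd_P c _)).mul (bd_sm (M.sm_Rm a' b' e c'))).mul
      (bd_X e)).congr fun ω => cod ω.1.2.sm a b c ω.2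

theorem bd_trT (hF : M.Sm F) (c : Option ι) : 𝔹 1 fun ω => ∑ a, T M ω.1.1 c a a ω.2 :=
  ((Bd.of_le fun ω : Om M F Λ => ω.1.2.dh c ω.2).mono.sub (Bd.sum fun a =>
    ((bd_X a).mul (bd_D (hF.D a) c)).mono.sub
      ((((bd_dnu c (some a)).mono.sub (bd_A c (some a))).congr fun _ =>
        (add_sub_cancel_right _ _).symm).mul (bd_sm (hF.D a))))).congr fun ω =>
    tr_T ω.1.2.sm hF c ω.2

theorem bd_t (hF : M.Sm F) (c : Option ι) : 𝔹 1 fun ω => ∑ a, T M ω.1.1 a a c ω.2 :=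
  ((bd_trT hF c).add (Bd.sum fun a => (bd_cod a c a).mono)).congr fun ω => by
    rw [← Finset.sum_add_distrib]
    exact Finset.sum_congr rfl fun a _ => by rw [T_symm ω.1.2.sm a a c]; ring

theorem bd_gam (b e f : Option ι) : 𝔹 1 fun ω => B M ω.1.1 b e f ω.2
    - (∑ g, M.A ω.1.1 b g ω.2 * M.A ω.1.1 g f ω.2) * M.nu ω.1.1 e ω.2 :=
  (Bd.sum fun g => (bd_beta b g e).mul (bd_A g f)).congr fun ω => by
    rw [B_apply, Finset.sum_mul, ← Finset.sum_sub_distrib]
    exact Finset.sum_congr rfl fun a _ => by ring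

theorem bd_B (b e f : Option ι) : 𝔹 2 fun ω => B M ω.1.1 b e f ω.2 :=
  ((bd_gam b e f).mono.add ((Bd.sum fun g => (bd_A b g).mul (bd_A g f)).mul (bd_nu e))).congr
    fun _ => (sub_add_cancel _ _).symm

theorem bd_m (c : Option ι) :
    𝔹 1 fun ω => ∑ a, B M ω.1.1 a c a ω.2 - M.a2 ω.1.1 ω.2 * M.nu ω.1.1 c ω.2 :=
  (Bd.sum fun a => bd_gam a c a).congr fun ω => by
    rw [a2_apply, Finset.sum_mul, ← Finset.sum_sub_distrib]
    exact Finset.sum_congr rfl fun a _ => by simp only [A_symm ω.1.2.sm _ a]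

theorem bd_n1 (hF : M.Sm F) (c : Option ι) : 𝔹 1 fun ω =>
    (M.gS ω.1.1).dv (fun a => M.A ω.1.1 a c) ω.2 - M.a2 ω.1.1 ω.2 * M.nu ω.1.1 c ω.2 :=
  ((bd_t hF c).add (bd_m c)).congr fun ω => by rw [dv_A ω.1.2.sm]; ring

end Sh

open Sh

theorem sheet : SheetStmt := by
  intro d ι _ _ X _ _ _ _ _ _ M F _ hF Λ
  obtain ⟨C1, p1, h1⟩ := Bd.sum fun c => (bd_H (Λ := Λ) hF c).mul (bd_H hF c)
  obtain ⟨C2, p2, h2⟩ := Bd.unif fun k : Option ι × Option ι =>
    bd_dnu (M := M) (F := F) (Λ := Λ) k.1 k.2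
  obtain ⟨C3, p3, h3⟩ := Bd.unif fun k : Option ι × Option ι × Option ι =>
    bd_beta (M := M) (F := F) (Λ := Λ) k.1 k.2.1 k.2.2
  obtain ⟨C4, p4, h4⟩ := Bd.unif fun c => bd_n1 (Λ := Λ) hF c
  have p0 := Real.sqrt_nonneg C1
  refine ⟨√C1 + C2 + C3 + C4, by positivity, fun u hu => ⟨fun p => ?_, fun a c p => ?_,
    fun a b c p => ?_, fun c p => ?_⟩⟩
  · have := h1 (⟨u, hu⟩, p)
    simp only [add_zero, pow_zero, mul_one] at this
    have e : ‖(WithLp.toLp 2 fun c => (M.gS u).H c p : E (Option ι))‖ ≤ √C1 := by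
      rw [EuclideanSpace.norm_eq]
      refine Real.sqrt_le_sqrt (le_trans (le_of_eq ?_) ((le_abs_self _).trans this))
      exact Finset.sum_congr rfl fun c _ => by rw [Real.norm_eq_abs, sq_abs, sq]
    linarith
  · have := h2 (a, c) (⟨u, hu⟩, p)
    simp only [pow_zero, mul_one] at this
    linarith
  · have := h3 (a, b, c) (⟨u, hu⟩, p)
    simp only [pow_zero, mul_one] at this
    linarith
  · have := h4 c (⟨u, hu⟩, p)
    rw [pow_one, w_eq] at this
    exact this.trans (mul_le_mul_of_nonneg_right (by linarith) (Real.sqrt_nonneg _))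

end Crest.Agent.N222

end
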