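import Crest.Agent.N222.B.Shield1

/-!
# Row 222, part B: the shield (helper51)
-/

set_option autoImplicit false
set_option linter.unusedSectionVars false
open MeasureTheory Set Filter Topology Function
open scoped ContDiff InnerProductSpace RealInnerProductSpace

noncomputable section

namespace Crest.Agent.N222.Sh

variable {ι : Type} [Fintype ι] [DecidableEq ι] {X : Type} [TopologicalSpace X] [T2Space X]
  [SecondCountableTopology X] [MeasurableSpace X] [BorelSpace X] [CompactSpace X]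

theorem mem_tsupport_val {S : Set X} {om : X → ℝ} {q : S} (h : q ∈ tsupport fun q : S => om q) :
    (q : X) ∈ tsupport om :=
  closure_minimal (s := support fun q : S => om q) (t := Subtype.val ⁻¹' tsupport om)
    (fun _ hq => subset_tsupport om hq) ((isClosed_tsupport om).preimage continuous_subtype_val) h

theorem ess1_sub (h1 : Ess1Stmt) {k : ℕ} {S : Set X} (hS : IsClosed S) {om : X → ℝ}
    {a a' : Fin k → X → ℝ} (ho : Continuous om) (ha : ∀ i, Continuous (a i))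
    (ha' : ∀ i, Continuous (a' i)) (h : ∀ p ∈ S, p ∈ tsupport om → om p = 0 →
      ∀ s ∈ Icc (0 : ℝ) 1, ∃ i, (1 - s) * a i p + s * a' i p ≠ 0)
    (he : Ess (fun q : S => om q) fun i q => a i q) : Ess (fun q : S => om q) fun i q => a' i q := by
  have : CompactSpace S := isCompact_iff_compactSpace.1 hS.isCompact
  exact h1 S k _ _ _ (ho.comp continuous_subtype_val) (HasCompactSupport.of_compactSpace _)
    (fun i => (ha i).comp continuous_subtype_val) (fun i => (ha' i).comp continuous_subtype_val)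
    (fun q hq h0 => h q q.2 (mem_tsupport_val hq) h0) he

theorem exists_ne_of_sum_sq {k : ℕ} {v : Fin k → ℝ} {η : ℝ} (hη : 0 < η) (h : η ≤ ∑ i, v i ^ 2) :
    ∃ i, v i ≠ 0 := by
  by_contra h'
  push Not at h'
  simp only [h', ne_eq, OfNat.ofNat_ne_zero, not_false_eq_true, zero_pow,
    Finset.sum_const_zero] at h
  linarith

theorem tst_mul {d m : ℕ} {M : Imm d ι X} {S B : Set X} {N : Imm m ι ↥(S \ B)}
    (hx : ∀ q, N.x q = M.x q) (hS : IsClosed S) {om χ : X → ℝ} (ho : M.Sm om) (hχ : M.Sm χ)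
    (hd : Disjoint (tsupport χ) B) : N.Tst fun q => om q * χ q := by
  refine ⟨(ho.mul hχ).res (Loc.of_cont continuous_subtype_val hx), ?_⟩
  have h1 : IsCompact (Subtype.val ⁻¹' tsupport χ : Set ↥(S \ B)) := by
    rw [Subtype.isCompact_iff, Subtype.image_preimage_coe]
    have : (S \ B) ∩ tsupport χ = S ∩ tsupport χ := by
      ext p
      exact ⟨fun h => ⟨h.1.1, h.2⟩, fun h => ⟨⟨h.1, Set.disjoint_left.1 hd h.2⟩, h.2⟩⟩
    rw [this]
    exact (hS.inter (isClosed_tsupport χ)).isCompact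
  refine h1.of_isClosed_subset (isClosed_tsupport _) fun q hq => ?_
  exact tsupport_mul_subset_right (f := om) (g := χ)
    (mem_tsupport_val (om := fun p => om p * χ p) hq)

theorem K_aux {o G g c cs b C : ℝ} (h : o ^ 2 + o ^ 4 + |G| + |G| * o ^ 4 + 2 * g + 2 * g * |o| +
    c + c * |o| + b ≤ C) (h1 : 0 ≤ c) (h2 : 0 ≤ b) (h3 : cs ≤ c * |o|) (h8 : 0 ≤ g) :
    o ^ 2 ≤ C + 1 ∧ o ^ 4 ≤ C + 1 ∧ |G| ≤ C + 1 ∧ |G| * o ^ 4 ≤ C + 1 ∧
      2 * g * |o| ≤ (C + 1) * |o| ∧ 2 * g * |o| ≤ C + 1 ∧ cs ≤ (C + 1) * |o| ∧ cs ≤ C + 1 ∧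
      b ≤ C + 1 := by
  have h4 : 0 ≤ o ^ 2 := by positivity
  have h5 : 0 ≤ o ^ 4 := by positivity
  have h6 := abs_nonneg G
  have h7 : 0 ≤ |G| * o ^ 4 := by positivity
  have h9 : 0 ≤ 2 * g * |o| := by positivity
  have h10 : 0 ≤ c * |o| := by positivity
  exact ⟨by linarith, by linarith, by linarith, by linarith,
    mul_le_mul_of_nonneg_right (by linarith) (abs_nonneg _), by linarith,
    h3.trans (mul_le_mul_of_nonneg_right (by linarith) (abs_nonneg _)), by linarith, by linarith⟩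

/-- common bounds -/
theorem exists_K {d k : ℕ} {M : Imm d ι X} {G om : X → ℝ} {b : Fin k → X → ℝ} (hG : M.Sm G)
    (ho : M.Sm om) (hb : ∀ i, M.Sm (b i)) : ∃ K : ℝ, 1 ≤ K ∧ ∀ p, om p ^ 2 ≤ K ∧ om p ^ 4 ≤ K ∧
      |G p| ≤ K ∧ |G p| * om p ^ 4 ≤ K ∧ ‖M.grad (fun q => om q ^ 2) p‖ ≤ K * |om p| ∧
      ‖M.grad (fun q => om q ^ 2) p‖ ≤ K ∧ ∑ i, M.cost om (b i) p ≤ K * |om p| ∧
      ∑ i, M.cost om (b i) p ≤ K ∧ ∑ i, |b i p| ≤ K := by
  have hc := ho.continuous
  have hg := ho.grad.continuous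
  have hbc := fun i => (hb i).continuous
  have hbg := fun i => (hb i).grad.continuous
  have hGc := hG.continuous
  let c : X → ℝ := fun p => ∑ i, 2 * (|om p| * ‖M.grad (b i) p‖ + 2 * |b i p| * ‖M.grad om p‖)
  have hcc : Continuous c := continuous_finsetSum _ fun i _ => by fun_prop
  have hbs : Continuous fun p => ∑ i, |b i p| := continuous_finsetSum _ fun i _ => by fun_prop
  let f : X → ℝ := fun p => om p ^ 2 + om p ^ 4 + |G p| + |G p| * om p ^ 4 + 2 * ‖M.grad om p‖ +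
    2 * ‖M.grad om p‖ * |om p| + c p + c p * |om p| + ∑ i, |b i p|
  have hf : Continuous f := by fun_prop
  obtain ⟨C, hC0, hC⟩ := Imm.exists_bound hf
  refine ⟨C + 1, by linarith, fun p => ?_⟩
  have h0 : f p ≤ C := (le_abs_self _).trans (hC p)
  have h1 : 0 ≤ c p := Finset.sum_nonneg fun i _ => by positivity
  have h2 : 0 ≤ ∑ i, |b i p| := Finset.sum_nonneg fun i _ => abs_nonneg _
  have h3 : ∑ i, M.cost om (b i) p ≤ c p * |om p| := by
    rw [Finset.sum_mul]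
    exact Finset.sum_le_sum fun i _ => cost_le (ho.diffAt p) _
  have h0' : om p ^ 2 + om p ^ 4 + |G p| + |G p| * om p ^ 4 + 2 * ‖M.grad om p‖ +
    2 * ‖M.grad om p‖ * |om p| + c p + c p * |om p| + ∑ i, |b i p| ≤ C := h0
  rw [norm_grad_sq (ho.diffAt p)]
  exact K_aux h0' h1 h2 h3 (norm_nonneg _)

/-- the generic translation -/
theorem perturb (hG : GenStmt) (h1 : Ess1Stmt) {d k : ℕ} {M : Imm d ι X} {G om : X → ℝ}
    {a : Fin (k + 1) → X → ℝ} {S B : Set X} {s : ℝ} (hM : Injective M.x) (hGs : M.Sm G)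
    (ho : M.Sm om) (ha : ∀ i, M.Sm (a i)) (hS : IsClosed S) (hB : IsClosed B)
    (hN : M.Nets (k + 1) B) (hs : 0 < s)
    (hI : ∀ p ∈ S, p ∈ tsupport om →
      s + ∑ i, M.cost om (a i) p ≤ G p * om p ^ 4 + ∑ i, a i p ^ 2)
    (he : Ess (fun q : S => om q) fun i q => a i q) :
    ∃ (b : Fin (k + 1) → X → ℝ) (η t : ℝ), (∀ i, M.Sm (b i)) ∧ 0 < η ∧ 0 < t ∧
      (∀ p ∈ S, p ∈ tsupport om →
        s / 2 + ∑ i, M.cost om (b i) p ≤ G p * om p ^ 4 + ∑ i, b i p ^ 2) ∧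
      Ess (fun q : S => om q) (fun i q => b i q) ∧
      ∀ p, ∀ q ∈ B, ‖M.x p - M.x q‖ ≤ t → η ≤ ∑ i : Fin k, b i.succ p ^ 2 := by
  obtain ⟨K, hK1, hK⟩ := exists_K hGs ho ha
  set ε := s / (4 * (k + 2) * K) with hε
  have hε0 : 0 < ε := by positivity
  have hεs : 2 * (k + 2) * K * ε = s / 2 := by rw [hε]; field_simp; ring
  -- the inequality persists
  have key : ∀ ξ : Fin (k + 1) → ℝ, (∀ i, |ξ i| ≤ ε) → ∀ p ∈ S, p ∈ tsupport om →
      s / 2 + ∑ i, M.cost om (fun q => a i q + ξ i) p ≤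
        G p * om p ^ 4 + ∑ i, (a i p + ξ i) ^ 2 := by
    intro ξ hξ p hp hp'
    obtain ⟨-, -, -, -, -, hg, -, -, hb⟩ := hK p
    have h2 : ∑ i, M.cost om (fun q => a i q + ξ i) p ≤
        ∑ i, (M.cost om (a i) p + 2 * ε * K) := Finset.sum_le_sum fun i _ => by
      have h3 := cost_add_le om ((ha i).diffAt p) ((Imm.sm_const (ξ i)).diffAt p)
      rw [grad_const, norm_zero] at h3
      have h4 : |ξ i| * ‖M.grad (fun q => om q ^ 2) p‖ ≤ ε * K :=
        mul_le_mul (hξ i) hg (norm_nonneg _) hε0.le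
      linarith
    have h3 : ∑ i, (a i p ^ 2 - 2 * ε * |a i p|) ≤ ∑ i, (a i p + ξ i) ^ 2 :=
      Finset.sum_le_sum fun i _ => by
        have h4 : |a i p * ξ i| ≤ |a i p| * ε := by
          rw [abs_mul]; exact mul_le_mul_of_nonneg_left (hξ i) (abs_nonneg _)
        nlinarith [neg_abs_le (a i p * ξ i), sq_nonneg (ξ i)]
    rw [Finset.sum_add_distrib, Finset.sum_const, Finset.card_univ, Fintype.card_fin,
      nsmul_eq_mul] at h2
    rw [Finset.sum_sub_distrib, ← Finset.mul_sum] at h3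
    have h4 : 2 * ε * ∑ i, |a i p| ≤ 2 * ε * K := mul_le_mul_of_nonneg_left hb (by positivity)
    have h5 := hI p hp hp'
    push_cast at h2
    nlinarith
  obtain ⟨ξ, hξ, η, t, hη, ht, hgen⟩ := hG _ _ _ M inferInstance hM k B a hB hN ha ε hε0
  refine ⟨fun i p => a i p + ξ i, η, t, fun i => (ha i).add (Imm.sm_const _), hη, ht, key ξ hξ,
    ess1_sub h1 hS ho.continuous (fun i => (ha i).continuous)
      (fun i => (ha i).continuous.add continuous_const) (fun p hp hp' h0 r hr => ?_) he, hgen⟩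
  have h2 := key (fun i => r * ξ i) (fun i => by
    rw [abs_mul, abs_of_nonneg hr.1]
    exact (mul_le_of_le_one_left (abs_nonneg _) hr.2).trans (hξ i)) p hp hp'
  have h3 : 0 ≤ ∑ i, M.cost om (fun q => a i q + r * ξ i) p :=
    Finset.sum_nonneg fun i _ => cost_nonneg _ _ _
  rw [h0] at h2
  obtain ⟨i, hi⟩ := exists_ne_of_sum_sq (η := s / 2) (v := fun i => a i p + r * ξ i)
    (by positivity) (by linarith)
  refine ⟨i, fun h => hi ?_⟩
  have h' : (1 - r) * a i p + r * (a i p + ξ i) = 0 := h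
  linarith

/-- the total cost of the shielded map -/
theorem cost_total {d m k : ℕ} {M : Imm d ι X} {S : Set X} {N : Imm m ι S}
    (hx : ∀ q, N.x q = M.x q) {om χ w : X → ℝ} {b : Fin (k + 1) → X → ℝ} {lam lam' : ℝ → ℝ}
    (ho : M.Sm om) (hχ : M.Sm χ) (hw : M.Sm w) (hb : ∀ i, M.Sm (b i))
    (hd : ∀ l, HasDerivAt lam (lam' l) l) (h0 : ∀ l, 0 ≤ lam l ∧ 0 ≤ lam' l) {K : ℝ} (q : S)
    (hw0 : 0 < w q) (hχ0 : 0 ≤ χ q) (hK : ∑ i, |b i q| ≤ K) :
    ∑ i, N.cost (fun q => om q * χ q) (fun q => (Fin.cons (fun p => b 0 p + lam (Real.log (w p)))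
      (fun i => b i.succ) : Fin (k + 1) → X → ℝ) i q) q ≤
      χ q ^ 2 * (∑ i, M.cost om (b i) q + 2 * om q ^ 2 *
        (lam' (Real.log (w q)) * (‖N.grad (fun q => w q) q‖ / w q)) +
        2 * lam (Real.log (w q)) * ‖M.grad (fun q => om q ^ 2) q‖) +
      4 * om q ^ 2 * χ q * √(M.pre.gam χ χ q) * (K + lam (Real.log (w q))) := by
  have hl := Loc.of_cont (N := N) (M := M) continuous_subtype_val hx
  have hres : ∀ {f : X → ℝ}, M.Sm f → ‖N.grad (fun q => f q) q‖ ≤ ‖M.grad f q‖ := fun hf => by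
    rw [(hl q).grad (hf.diffAt _)]; exact N.norm_PL_le _ _
  have hoN := (ho.res hl).diffAt q
  have hwN := (hw.res hl).diffAt q
  set a' : Fin (k + 1) → X → ℝ := Fin.cons (fun p => b 0 p + lam (Real.log (w p)))
    (fun i => b i.succ) with ha'
  have hdl : HasDerivAt (fun y => lam (Real.log y)) (lam' (Real.log (w q)) * (w q)⁻¹) (w q) :=
    HasDerivAt.comp (w q : ℝ) (hd _) (Real.hasDerivAt_log hw0.ne')
  have h1 : ∑ i, N.cost (fun q => om q) (fun q => a' i q) q ≤ ∑ i, M.cost om (b i) q +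
      2 * om q ^ 2 * (lam' (Real.log (w q)) * (‖N.grad (fun q => w q) q‖ / w q)) +
      2 * lam (Real.log (w q)) * ‖M.grad (fun q => om q ^ 2) q‖ := by
    have h2 := cost_add_le (fun q : S => om q) (((hb 0).res hl).diffAt q)
      (hwN.comp hdl.differentiableAt)
    rw [grad_comp hwN hdl, norm_smul, Real.norm_eq_abs,
      abs_of_nonneg (mul_nonneg (h0 _).2 (inv_pos.2 hw0).le), abs_of_nonneg (h0 _).1] at h2
    have h3 : ∑ i : Fin k, N.cost (fun q => om q) (fun q => b i.succ q) q ≤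
        ∑ i : Fin k, M.cost om (b i.succ) q :=
      Finset.sum_le_sum fun i _ => (hl q).cost_le (ho.diffAt _) ((hb _).diffAt _)
    have h4 := (hl q).cost_le (ho.diffAt _) ((hb 0).diffAt _)
    have h5 := mul_le_mul_of_nonneg_left (hres (ho.pow 2)) (h0 (Real.log (w q))).1
    rw [Fin.sum_univ_succ, Fin.sum_univ_succ]
    simp only [ha', Fin.cons_zero, Fin.cons_succ]
    rw [div_eq_mul_inv]
    linarith
  have h2 : ∑ i, |a' i q| ≤ K + lam (Real.log (w q)) := by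
    rw [Fin.sum_univ_succ] at hK ⊢
    simp only [ha', Fin.cons_zero, Fin.cons_succ]
    have := abs_add_le (b 0 q) (lam (Real.log (w q)))
    rw [abs_of_nonneg (h0 _).1] at this
    linarith
  have h3 : ‖N.grad (fun q => χ q) q‖ ≤ √(M.pre.gam χ χ q) := by
    rw [Imm.gam_self_eq, Real.sqrt_sq (norm_nonneg _)]; exact hres hχ
  have h4 : ∑ i, N.cost (fun q => om q * χ q) (fun q => a' i q) q ≤
      ∑ i, (χ q ^ 2 * N.cost (fun q => om q) (fun q => a' i q) q +
        4 * om q ^ 2 * χ q * √(M.pre.gam χ χ q) * |a' i q|) := Finset.sum_le_sum fun i _ => by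
    have h5 := cost_mul_le hoN ((hχ.res hl).diffAt q) fun q => a' i q
    rw [abs_of_nonneg hχ0] at h5
    have h6 : 4 * om q ^ 2 * χ q * ‖N.grad (fun q => χ q) q‖ * |a' i q| ≤
        4 * om q ^ 2 * χ q * √(M.pre.gam χ χ q) * |a' i q| := by gcongr
    exact h5.trans (by linarith)
  rw [Finset.sum_add_distrib, ← Finset.mul_sum, ← Finset.mul_sum] at h4
  refine h4.trans (add_le_add (mul_le_mul_of_nonneg_left h1 (sq_nonneg _)) ?_)
  exact mul_le_mul_of_nonneg_left h2 (by positivity)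

theorem sm_V {m : ℕ} {Y : Type} [TopologicalSpace Y] {N : Imm m ι Y} {F G w : Y → ℝ} (hF : N.Sm F)
    (hG : N.Sm G) (hw : N.Sm w) (h0 : ∀ q, 0 < w q) :
    N.Sm fun q => G q - N.pre.lapF F w q / w q + N.pre.gam w w q / (2 * w q ^ 2) :=
  (hG.sub ((hF.lapF hw).div hw fun q => (h0 q).ne')).add
    ((hw.gam hw).div ((Imm.sm_const 2).mul (hw.pow 2)) fun q => by have := h0 q; positivity)

theorem shield_zero (hW : WeightStmt) (h3 : Ess3Stmt) {M : Imm (0 + 1) ι X} {F G om : X → ℝ}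
    {a : Fin 0 → X → ℝ} {S B : Set X} {N : Imm 0 ι ↥(S \ B)} {s : ℝ} (hF : M.Sm F) (hG : M.Sm G)
    (ho : M.Sm om) (hS : IsClosed S) (hsl : Slice M F G S B N) (hs : 0 < s)
    (hI : ∀ p ∈ S, p ∈ tsupport om →
      s + ∑ i, M.cost om (a i) p ≤ G p * om p ^ 4 + ∑ i, a i p ^ 2)
    (he : Ess (fun q : S => om q) fun i q => a i q) : ∃ V om' a', N.FormData V om' a' := by
  have hl := Loc.of_cont (N := N) (M := M) continuous_subtype_val hsl.x
  have hB : B = ∅ := by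
    obtain ⟨C, hC⟩ := hsl.nets
    refine eq_empty_of_forall_notMem fun p hp => ?_
    have hC1 : 0 < |C| + 1 := by positivity
    have hr1 : (|C| + 1)⁻¹ ≤ 1 := inv_le_one_of_one_le₀ (by linarith [abs_nonneg C])
    obtain ⟨t, -, ht, hc⟩ := hC _ (inv_pos.2 hC1) hr1
    obtain ⟨q, hq, -⟩ := hc p hp
    have h1 : (1 : ℝ) ≤ t.card := by exact_mod_cast Finset.card_pos.2 ⟨q, hq⟩
    have h2 : (|C| + 1)⁻¹ ^ 4 ≤ (|C| + 1)⁻¹ := pow_le_of_le_one (by positivity) hr1 (by decide)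
    have h4 : C * (|C| + 1)⁻¹ ^ 4 ≤ |C| * (|C| + 1)⁻¹ :=
      mul_le_mul (le_abs_self C) h2 (by positivity) (abs_nonneg C)
    have h5 : |C| * (|C| + 1)⁻¹ < 1 := by
      rw [← div_eq_mul_inv, div_lt_one hC1]; linarith
    rw [pow_zero] at ht
    linarith
  have hd : Disjoint (tsupport fun _ : X => (1 : ℝ)) B := by rw [hB]; exact disjoint_empty _
  have h1 : N.Sm fun _ => (1 : ℝ) := Imm.sm_const 1
  refine ⟨_, fun q => om q * (fun _ : X => (1 : ℝ)) q, fun i q => a i q,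
    sm_V (hF.res hl) (hG.res hl) h1 fun _ => one_pos, tst_mul hsl.x hS ho (Imm.sm_const 1) hd,
    fun i => i.elim0, hW _ _ _ N _ _ _ (hF.res hl) (hG.res hl) h1 (fun _ => one_pos) hsl.form,
    ⟨s, hs, fun q hq => ?_⟩, h3 X 0 om _ a S B ho.continuous continuous_const (fun i => i.elim0) hd
      (fun _ _ _ h => absurd h one_ne_zero) he⟩
  have hD : ∀ c, N.pre.D c (fun _ => (1 : ℝ)) = fun _ => 0 := fun c => funext (Imm.D_const 1 c)
  have h2 := hI q q.2.1 (subset_tsupport _ (by simpa using hq))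
  simpa [Imm.lapF_apply, Imm.lap_apply, Imm.gam_apply, hD, Imm.D_const] using h2

theorem shield_succ (hGen : GenStmt) (hR : RieszStmt) (hW : WeightStmt) (h1 : Ess1Stmt)
    (h3 : Ess3Stmt) {k : ℕ} {M : Imm (k + 1 + 1) ι X} {F G om : X → ℝ}
    {a : Fin (k + 1) → X → ℝ} {S B : Set X} {N : Imm (k + 1) ι ↥(S \ B)} {s : ℝ}
    (hM : Injective M.x) (hF : M.Sm F) (hG : M.Sm G) (ho : M.Sm om) (ha : ∀ i, M.Sm (a i))
    (hS : IsClosed S) (hsl : Slice M F G S B N) (hs : 0 < s)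
    (hI : ∀ p ∈ S, p ∈ tsupport om →
      s + ∑ i, M.cost om (a i) p ≤ G p * om p ^ 4 + ∑ i, a i p ^ 2)
    (he : Ess (fun q : S => om q) fun i q => a i q) : ∃ V om' a', N.FormData V om' a' := by
  have hl := Loc.of_cont (N := N) (M := M) continuous_subtype_val hsl.x
  obtain ⟨b, η, t0, hb, hη, ht0, hIb, heb, hgen⟩ :=
    perturb hGen h1 hM hG ho ha hS hsl.closed hsl.nets hs hI he
  obtain ⟨K, hK1, hK⟩ := exists_K hG ho hb
  obtain ⟨lam, lam', Λ, κ, hκ, hΛ, hlam, hd, hl0, hl1, hl2, hl3⟩ :=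
    exists_lam (√η / 4) (54 * K + 9) (by positivity)
  obtain ⟨V1, hV1, hyoung⟩ := exists_young (K * (1 + 2 * Λ)) hη
  obtain ⟨C, c, hc, hRz⟩ := hR _ _ _ M F G S B N hM hF hsl
  obtain ⟨t2, ht2, ht21, htw⟩ := exists_t2 hc hκ
    (D := κ + Λ + 1 + 54 * K + 9 + 72 * K * |C|) (by positivity)
  obtain ⟨t1, w, χ, ht1, ht12, hw, hχ, hw1, hdis, hχ01, hgχ, hbig, hnear, hlap⟩ :=
    hRz (s / (4 * K)) (K + V1) t0 t2 (by positivity) ht0 ht2
  have hw0 : ∀ p, 0 < w p := fun p => zero_lt_one.trans_le (hw1 p)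
  -- where the profile lives
  have hlt : ∀ p, w p < 2 → lam (Real.log (w p)) = 0 ∧ lam' (Real.log (w p)) = 0 := fun p hp =>
    hl1 _ (by linarith [Real.log_le_sub_one_of_pos (hw0 p)])
  have hη2 : ∀ p, 2 ≤ w p → η ≤ ∑ i : Fin k, b i.succ p ^ 2 := fun p hp => by
    obtain ⟨q, hq, hpq⟩ := hnear p hp
    exact hgen p q hq hpq
  have hcut : ∀ p, χ p ≠ 1 ∨ M.pre.gam χ χ p ≠ 0 →
      Λ + 1 + (54 * K + 9 + 72 * K * √(M.pre.gam χ χ p)) ≤ lam (Real.log (w p)) := fun p hp => by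
    have e1 := htw t1 _ ht1 ht12 (hbig p hp)
    have e2 := hl3 (Real.log (w p))
    have e3 : √(M.pre.gam χ χ p) ≤ |C| / t1 :=
      (hgχ p).trans (div_le_div_of_nonneg_right (le_abs_self C) ht1.le)
    have e4 : κ + Λ + 1 + 54 * K + 9 ≤ (κ + Λ + 1 + 54 * K + 9) / t1 :=
      le_div_self (by positivity) ht1 (ht12.trans ht21)
    have e5 : 72 * K * √(M.pre.gam χ χ p) ≤ 72 * K * (|C| / t1) :=
      mul_le_mul_of_nonneg_left e3 (by positivity)
    rw [add_div, mul_div_assoc] at e1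
    linarith
  have hcut2 : ∀ p, χ p ≠ 1 ∨ M.pre.gam χ χ p ≠ 0 → 2 ≤ w p := fun p hp => by
    by_contra h
    have e1 := hcut p hp
    have e2 : 0 ≤ 72 * K * √(M.pre.gam χ χ p) := by positivity
    rw [(hlt p (not_le.1 h)).1] at e1
    linarith
  set a' : Fin (k + 1) → X → ℝ := Fin.cons (fun p => b 0 p + lam (Real.log (w p)))
    (fun i => b i.succ) with ha'
  have ha's : ∀ i, M.Sm (a' i) := fun i => Fin.cases
    ((hb 0).add ((hw.log fun p => (hw0 p).ne').comp hlam)) (fun i => hb i.succ) i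
  have hne : ∀ p, 2 ≤ w p → ∃ i : Fin k, b i.succ p ≠ 0 := fun p hp =>
    exists_ne_of_sum_sq hη (hη2 p hp)
  have hea : Ess (fun q : S => om q) fun i q => a' i q := by
    refine ess1_sub h1 hS ho.continuous (fun i => (hb i).continuous) (fun i => (ha's i).continuous)
      (fun p hp hp' h0 r _ => ?_) heb
    rcases lt_or_ge (w p) 2 with h | h
    · have e1 := hIb p hp hp'
      have e2 : 0 ≤ ∑ i, M.cost om (b i) p := Finset.sum_nonneg fun i _ => cost_nonneg _ _ _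
      rw [h0] at e1
      obtain ⟨i, hi⟩ := exists_ne_of_sum_sq (η := s / 2) (v := fun i => b i p) (by positivity)
        (by linarith)
      have e3 : a' i p = b i p := Fin.cases (by simp [ha', (hlt p h).1]) (fun i => by simp [ha']) i
      exact ⟨i, fun h' => hi (by rw [e3] at h'; linarith)⟩
    · obtain ⟨i, hi⟩ := hne p h
      exact ⟨i.succ, fun h' => hi (by simp only [ha', Fin.cons_succ] at h'; linarith)⟩
  refine ⟨_, fun q => om q * χ q, fun i q => a' i q,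
    sm_V (hF.res hl) (hG.res hl) (hw.res hl) fun q => hw0 q, tst_mul hsl.x hS ho hχ hdis,
    fun i => (ha's i).res hl,
    hW _ _ _ N _ _ _ (hF.res hl) (hG.res hl) (hw.res hl) (fun q => hw0 q) hsl.form,
    ⟨min (s / 4) (min (η / 4) 1), by positivity, fun q hq => ?_⟩,
    h3 X _ om χ a' S B ho.continuous hχ.continuous (fun i => (ha's i).continuous) hdis
      (fun p _ _ h0 => ?_) hea⟩
  swap
  · obtain ⟨i, hi⟩ := hne p (hcut2 p (Or.inl (by rw [h0]; exact zero_ne_one)))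
    exact ⟨i.succ, by simpa only [ha', Fin.cons_succ] using hi⟩
  obtain ⟨k1, k2, k3, k4, k5, k6, k7, k8, k9⟩ := hK q
  have hT := cost_total hsl.x ho hχ hw hb hd hl0 q (hw0 q) (hχ01 q).1 k9
  have hI' := hIb q q.2.1 (subset_tsupport _ (left_ne_zero_of_mul hq))
  obtain ⟨hZ1, hZ2⟩ := hlap q
  have hQ : ∑ i, a' i q ^ 2 =
      (b 0 q + lam (Real.log (w q))) ^ 2 + ∑ i : Fin k, b i.succ q ^ 2 := by
    rw [Fin.sum_univ_succ]; simp only [ha', Fin.cons_zero, Fin.cons_succ]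
  have hV : G q - N.pre.lapF (fun q => F q) (fun q => w q) q / w q +
      N.pre.gam (fun q => w q) (fun q => w q) q / (2 * w q ^ 2) =
      G q + -N.pre.lapF (fun q => F q) (fun q => w q) q / w q +
        (‖N.grad (fun q => w q) q‖ / w q) ^ 2 / 2 := by
    rw [Imm.gam_self_eq]; have := (hw0 q).ne'; field_simp; ring
  have hZ3 : 2 ≤ w q → K + V1 ≤ -N.pre.lapF (fun q => F q) (fun q => w q) q / w q := fun h =>
    (le_div_iff₀ (hw0 q)).2 (hZ2 h)
  have hb0 : |b 0 q| ≤ K := by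
    rw [Fin.sum_univ_succ] at k9
    linarith [Finset.sum_nonneg (s := Finset.univ) fun (i : Fin k) _ => abs_nonneg (b i.succ q)]
  have hB0 : 0 ≤ ∑ i : Fin k, b i.succ q ^ 2 := Finset.sum_nonneg fun i _ => sq_nonneg _
  have hs1 : min (s / 4) (min (η / 4) 1) ≤ 1 := (min_le_right _ _).trans (min_le_right _ _)
  simp only []
  rw [hQ, hV]
  by_cases hp : χ q ≠ 1 ∨ M.pre.gam χ χ q ≠ 0
  · have e1 := hcut q hp
    have e2 : 0 ≤ 72 * K * √(M.pre.gam χ χ q) := by positivity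
    rcases hl2 (Real.log (w q)) with h | h
    · linarith [h.2]
    · exact regC hT (by linarith [hZ3 (hcut2 q hp)]) hB0 (hl0 _).2 h.2 (by linarith)
        (Real.sqrt_nonneg _) (hχ01 q).1 (hχ01 q).2 k8 k6 hK1 k1 k4 hb0 hs1
  push Not at hp
  rcases lt_or_ge (w q) 2 with h2 | h2
  · rw [hp.1, hp.2, (hlt q h2).1, (hlt q h2).2] at hT
    rw [hp.1, mul_one, (hlt q h2).1, add_zero, ← Fin.sum_univ_succ fun i => b i q ^ 2]
    refine regA (cs := ∑ i, M.cost om (b i) q) (δ := s / (4 * K)) (by simpa using hT) hI'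
      ((le_div_iff₀ (hw0 q)).2 hZ1) ?_ ((min_le_left _ _).trans (by linarith))
    calc s / (4 * K) * om q ^ 4 ≤ s / (4 * K) * K := mul_le_mul_of_nonneg_left k2 (by positivity)
      _ = s / 2 / 2 := by field_simp; ring
  rcases hl2 (Real.log (w q)) with h | h
  · rw [hp.1, hp.2] at hT
    rw [hp.1, mul_one]
    refine regB (by simpa using hT) (hZ3 h2) (hη2 q h2) ?_ (hl0 _).1 h.2 k7 k5 (by linarith) k3
      (hyoung _) ((min_le_right _ _).trans (min_le_left _ _))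
    have e1 := pow_le_pow_left₀ (hl0 _).2 h.1 2
    have e2 := Real.sq_sqrt hη.le
    nlinarith
  · exact regC hT (by linarith [hZ3 h2]) hB0 (hl0 _).2 h.2 (by rw [hp.2]; simpa using h.1)
      (Real.sqrt_nonneg _) (hχ01 q).1 (hχ01 q).2 k8 k6 hK1 k1 k4 hb0 hs1

end Crest.Agent.N222.Sh

namespace Crest.Agent.N222

theorem shield (hGen : GenStmt) (hR : RieszStmt) (hW : WeightStmt) (h1 : Ess1Stmt)
    (h3 : Ess3Stmt) : ShieldStmt := by
  intro m ι _ _ X _ _ _ _ _ _ M F G om a S B N s hM hF hG ho ha hS hsl hs hI he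
  cases m with
  | zero => exact Sh.shield_zero hW h3 hF hG ho hS hsl hs hI he
  | succ k => exact Sh.shield_succ hGen hR hW h1 h3 hM hF hG ho ha hS hsl hs hI he

end Crest.Agent.N222

end
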