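import Crest.Agent.N222.B.Sheet

/-!
# Row 222, part B: the Simons inequality with the refined Kato inequality (helper17)
-/

set_option autoImplicit false
set_option linter.unusedSectionVars false
open MeasureTheory Set Filter Topology Function Metric

noncomputable section

namespace Crest.Agent.N222

namespace Sh

/-! ### finite dimensional inequalities -/

section Real

variable {κ : Type} [Fintype κ]

theorem swap_sq (f : κ → κ → κ → ℝ) : ∑ e, ∑ b, ∑ c, f e b c * f b e c =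
    ∑ e, ∑ b, ∑ c, f e b c * f e b c
      - (1 / 2) * ∑ e, ∑ b, ∑ c, (f e b c - f b e c) * (f e b c - f b e c) := by
  have e1 : ∑ e, ∑ b, ∑ c, f b e c * f b e c = ∑ e, ∑ b, ∑ c, f e b c * f e b c :=
    Finset.sum_comm
  have e2 : ∀ e b c, (f e b c - f b e c) * (f e b c - f b e c) =
      f e b c * f e b c + f b e c * f b e c - 2 * (f e b c * f b e c) := fun e b c => by ring
  simp only [e2, Finset.sum_sub_distrib, Finset.sum_add_distrib, ← Finset.mul_sum, e1]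
  ring

theorem cs3 (f g : κ → κ → κ → ℝ) : (∑ a, ∑ b, ∑ c, f a b c * g a b c) ^ 2 ≤
    (∑ a, ∑ b, ∑ c, f a b c * f a b c) * ∑ a, ∑ b, ∑ c, g a b c * g a b c := by
  have := Finset.sum_mul_sq_le_sq_mul_sq Finset.univ (fun k : κ × κ × κ => f k.1 k.2.1 k.2.2)
    fun k => g k.1 k.2.1 k.2.2
  simpa only [Fintype.sum_prod_type, sq] using this

/-- a symmetric matrix with small trace is not of rank one -/
theorem rank_gap {A : κ → κ → ℝ} (hA : ∀ a b, A a b = A b a) {η : κ → ℝ}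
    (hη : ∑ a, η a * η a = 1) :
    (2 * Fintype.card κ + 1) * ∑ c, (∑ b, η b * A b c) * (∑ b, η b * A b c) ≤
      2 * Fintype.card κ * ∑ a, ∑ b, A a b * A a b + 2 * (∑ a, A a a) ^ 2 := by
  set w : κ → ℝ := fun c => ∑ b, η b * A b c with hw
  set l : ℝ := ∑ c, η c * w c with hl
  set q : ℝ := ∑ c, w c * w c with hq
  set n : ℝ := (Fintype.card κ : ℝ) with hn
  set Bm : κ → κ → ℝ := fun a b => A a b - η a * w b - w a * η b + l * (η a * η b) with hB
  have n1 : 1 ≤ n := by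
    rw [hn, Nat.one_le_cast]
    refine Fintype.card_pos_iff.2 ?_
    by_contra h0
    rw [not_nonempty_iff] at h0
    simp at hη
  have w1 : ∀ b, ∑ a, A a b * η a = w b := fun b =>
    Finset.sum_congr rfl fun a _ => mul_comm _ _
  have w2 : ∀ a, ∑ b, A a b * η b = w a := fun a =>
    Finset.sum_congr rfl fun b _ => by rw [hA a b, mul_comm]
  have l2 : ∑ c, w c * η c = l := Finset.sum_congr rfl fun b _ => mul_comm _ _
  have r1 : ∀ a, ∑ b, Bm a b * η b = 0 := fun a => by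
    have : ∀ b, Bm a b * η b = A a b * η b - η a * (w b * η b) - w a * (η b * η b)
        + l * η a * (η b * η b) := fun b => by simp only [hB]; ring
    simp only [this, Finset.sum_add_distrib, Finset.sum_sub_distrib, ← Finset.mul_sum, w2, l2, hη]
    ring
  have r2 : ∀ b, ∑ a, Bm a b * η a = 0 := fun b => by
    rw [← r1 b]
    exact Finset.sum_congr rfl fun a _ => by simp only [hB, hA a b]; ring
  have e1 : ∑ a, ∑ b, Bm a b * Bm a b = ∑ a, ∑ b, A a b * Bm a b := by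
    have : ∀ a b, Bm a b * Bm a b = A a b * Bm a b - w b * (Bm a b * η a)
        + (l * η a - w a) * (Bm a b * η b) := fun a b => by
      conv_lhs => rw [show Bm a b * Bm a b =
        (A a b - η a * w b - w a * η b + l * (η a * η b)) * Bm a b from rfl]
      ring
    simp only [this, Finset.sum_add_distrib, Finset.sum_sub_distrib, ← Finset.mul_sum, r1]
    rw [Finset.sum_comm (f := fun a b => w b * (Bm a b * η a))]
    simp only [← Finset.mul_sum, r2]
    simp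
  have e2 : ∑ a, ∑ b, A a b * Bm a b = ∑ a, ∑ b, A a b * A a b - 2 * q + l ^ 2 := by
    have : ∀ a b, A a b * Bm a b = A a b * A a b - w b * (A a b * η a) - w a * (A a b * η b)
        + l * (η a * (A a b * η b)) := fun a b => by simp only [hB]; ring
    simp only [this, Finset.sum_add_distrib, Finset.sum_sub_distrib, ← Finset.mul_sum, w2]
    rw [Finset.sum_comm (f := fun a b => w b * (A a b * η a))]
    simp only [← Finset.mul_sum, w1]
    rw [← hq, ← hl]
    ring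
  have e3 : ∑ a, Bm a a = ∑ a, A a a - l := by
    simp only [hB, Finset.sum_add_distrib, Finset.sum_sub_distrib, ← Finset.mul_sum, l2, hη]
    rw [← hl]
    ring
  have e4 : (∑ a, Bm a a) ^ 2 ≤ n * ∑ a, ∑ b, Bm a b * Bm a b := by
    have h1 := sq_sum_le_card_mul_sum_sq (s := Finset.univ) (f := fun a => Bm a a)
    rw [Finset.card_univ] at h1
    refine h1.trans (mul_le_mul_of_nonneg_left (Finset.sum_le_sum fun a _ => ?_) (by linarith))
    rw [sq]
    exact Finset.single_le_sum (f := fun b => Bm a b * Bm a b) (fun _ _ => mul_self_nonneg _)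
      (Finset.mem_univ a)
  have e5 : l ^ 2 ≤ q := by
    have := Finset.sum_mul_sq_le_sq_mul_sq Finset.univ η w
    simp only [sq (η _), sq (w _), hη, one_mul] at this
    exact this
  rw [e1, e2, e3] at e4
  nlinarith [sq_nonneg (2 * ∑ a, A a a - l), mul_le_mul_of_nonneg_left e5 (show 0 ≤ 2 * n - 1 by
    linarith)]

theorem kato_aux {n θ k a2 t2 r2 h q x y s : ℝ} (n0 : 0 ≤ n) (hθ : θ = (4 * n + 1) / (4 * n + 2))
    (k1 : 1 < k) (kθ : k ^ 2 * θ ≤ 1) (a0 : 0 ≤ a2) (t0 : 0 ≤ t2) (r0 : 0 ≤ r2)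
    (g1 : (2 * n + 1) * q ≤ 2 * n * a2 + 2 * h ^ 2) (c1 : x ^ 2 ≤ t2 * (2 * a2 + 2 * q))
    (c2 : y ^ 2 ≤ r2 * a2) (e1 : x + y = 2 * s) :
    k * (s * s) ≤ (a2 + (k ^ 2 + k ^ 2 / (k - 1)) * h ^ 2) * t2
      + (k ^ 2 + k ^ 2 / (k - 1)) * r2 * a2 := by
  have kp := sub_pos.2 k1
  have g2 : 2 * a2 + 2 * q ≤ 4 * (θ * a2 + h ^ 2) := by
    have h1 : θ * a2 = (4 * n + 1) * a2 / (4 * n + 2) := by rw [hθ]; ring
    have h2 : (2 * a2 + 2 * q) / 4 - h ^ 2 ≤ θ * a2 := by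
      rw [h1, le_div_iff₀ (by positivity)]
      nlinarith [mul_nonneg n0 (sq_nonneg h)]
    linarith
  have g3 : (x + y) ^ 2 ≤ k * x ^ 2 + k / (k - 1) * y ^ 2 := by
    have h1 : k * x ^ 2 + k / (k - 1) * y ^ 2 - (x + y) ^ 2 = ((k - 1) * x - y) ^ 2 / (k - 1) := by
      field_simp; ring
    have h2 : 0 ≤ ((k - 1) * x - y) ^ 2 / (k - 1) := by positivity
    linarith
  have g4 : x ^ 2 ≤ t2 * (4 * (θ * a2 + h ^ 2)) := c1.trans (mul_le_mul_of_nonneg_left g2 t0)
  have g5 : 4 * (s * s) ≤ k * (t2 * (4 * (θ * a2 + h ^ 2))) + k / (k - 1) * (r2 * a2) := by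
    have h1 := mul_le_mul_of_nonneg_left g4 (show 0 ≤ k by linarith)
    have h2 := mul_le_mul_of_nonneg_left c2 (show 0 ≤ k / (k - 1) by positivity)
    rw [e1] at g3
    linarith
  have g6 := mul_le_mul_of_nonneg_left g5 (show 0 ≤ k by linarith)
  have g7 := mul_le_mul_of_nonneg_right kθ (mul_nonneg a0 t0)
  have g8 : 0 ≤ k ^ 2 / (k - 1) * (h ^ 2 * t2) := by positivity
  have g9 : 0 ≤ k ^ 2 * (r2 * a2) := by positivity
  have g10 : 0 ≤ k ^ 2 / (k - 1) * (r2 * a2) := by positivity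
  have g11 : k * (k / (k - 1) * (r2 * a2)) = k ^ 2 / (k - 1) * (r2 * a2) := by ring
  linarith

/-- the refined Kato inequality -/
theorem kato : ∃ k > (1 : ℝ), ∃ K ≥ (0 : ℝ), ∀ (A : κ → κ → ℝ) (T : κ → κ → κ → ℝ),
    (∀ a b, A a b = A b a) →
    k * ∑ a, (∑ b, ∑ c, A b c * T a b c) * (∑ b, ∑ c, A b c * T a b c) ≤
      (∑ a, ∑ b, A a b * A a b + K * (∑ a, A a a) ^ 2) * (∑ a, ∑ b, ∑ c, T a b c * T a b c)
      + K * (∑ a, ∑ b, ∑ c, (T a b c - T b a c) * (T a b c - T b a c))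
        * ∑ a, ∑ b, A a b * A a b := by
  set n : ℝ := (Fintype.card κ : ℝ) with hn
  have n0 : 0 ≤ n := Nat.cast_nonneg _
  set θ : ℝ := (4 * n + 1) / (4 * n + 2) with hθ
  have θ0 : 0 < θ := by positivity
  have θ1 : θ < 1 := (div_lt_one (by positivity)).2 (by linarith)
  set k : ℝ := 2 / (1 + θ) with hk
  have k1 : 1 < k := (one_lt_div (by positivity)).2 (by linarith)
  have kθ : k ^ 2 * θ ≤ 1 := by
    rw [hk, div_pow, div_mul_eq_mul_div, div_le_one (by positivity)]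
    nlinarith [sq_nonneg (1 - θ)]
  refine ⟨k, k1, k ^ 2 + k ^ 2 / (k - 1), by have := sub_pos.2 k1; positivity, fun A T hA => ?_⟩
  set ξ : κ → ℝ := fun a => ∑ b, ∑ c, A b c * T a b c with hξ
  set a2 := ∑ a, ∑ b, A a b * A a b with ha2
  set t2 := ∑ a, ∑ b, ∑ c, T a b c * T a b c with ht2
  set r2 := ∑ a, ∑ b, ∑ c, (T a b c - T b a c) * (T a b c - T b a c) with hr2
  set h := ∑ a, A a a with hh
  have a0 : 0 ≤ a2 := Finset.sum_nonneg fun _ _ => Finset.sum_nonneg fun _ _ => mul_self_nonneg _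
  have t0 : 0 ≤ t2 := Finset.sum_nonneg fun _ _ => Finset.sum_nonneg fun _ _ =>
    Finset.sum_nonneg fun _ _ => mul_self_nonneg _
  have r0 : 0 ≤ r2 := Finset.sum_nonneg fun _ _ => Finset.sum_nonneg fun _ _ =>
    Finset.sum_nonneg fun _ _ => mul_self_nonneg _
  have kp := sub_pos.2 k1
  have x0 : 0 ≤ ∑ a, ξ a * ξ a := Finset.sum_nonneg fun _ _ => mul_self_nonneg _
  change k * ∑ a, ξ a * ξ a ≤ _
  rcases x0.eq_or_lt with e | e
  · rw [← e, mul_zero]
    clear_value a2 t2 r2 h k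
    positivity
  set s := √(∑ a, ξ a * ξ a) with hs
  have s0 : 0 < s := Real.sqrt_pos.2 e
  have ss : s * s = ∑ a, ξ a * ξ a := Real.mul_self_sqrt x0
  set η : κ → ℝ := fun a => s⁻¹ * ξ a with hη
  have η1 : ∑ a, η a * η a = 1 := by
    have : ∀ a, η a * η a = s⁻¹ * s⁻¹ * (ξ a * ξ a) := fun a => by simp only [hη]; ring
    simp only [this, ← Finset.mul_sum, ← ss]
    field_simp
  have η2 : ∑ a, η a * ξ a = s := by
    have : ∀ a, η a * ξ a = s⁻¹ * (ξ a * ξ a) := fun a => by simp only [hη]; ring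
    simp only [this, ← Finset.mul_sum, ← ss]
    field_simp
  set q := ∑ c, (∑ b, η b * A b c) * (∑ b, η b * A b c) with hq
  have g1 : (2 * n + 1) * q ≤ 2 * n * a2 + 2 * h ^ 2 := rank_gap hA η1
  have n1 : ∑ a, ∑ b, ∑ c, (η a * A b c) * (η a * A b c) = a2 := by
    have : ∀ a b c, (η a * A b c) * (η a * A b c) = η a * η a * (A b c * A b c) :=
      fun a b c => by ring
    simp only [this, ← Finset.mul_sum, ← Finset.sum_mul, η1, one_mul, ha2]
  have n2 : ∑ a, ∑ b, ∑ c, (η a * A b c) * (η b * A a c) = q := by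
    simp only [hq, Finset.sum_mul_sum]
    rw [Finset.sum_congr rfl fun a _ => Finset.sum_comm, Finset.sum_comm]
    exact Finset.sum_congr rfl fun c _ => Finset.sum_congr rfl fun a _ =>
      Finset.sum_congr rfl fun b _ => by ring
  have n3 : ∑ a, ∑ b, ∑ c, (η b * A a c) * (η b * A a c) = a2 := Finset.sum_comm.trans n1
  have n4 : ∑ a, ∑ b, ∑ c, (η a * A b c + η b * A a c) * (η a * A b c + η b * A a c)
      = 2 * a2 + 2 * q := by
    have : ∀ x y : ℝ, (x + y) * (x + y) = x * x + y * y + 2 * (x * y) := fun x y => by ring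
    simp only [this, Finset.sum_add_distrib, ← Finset.mul_sum (a := (2 : ℝ)), n1, n2, n3]
    ring
  have c1 := cs3 T fun a b c => η a * A b c + η b * A a c
  have c2 := cs3 (fun a b c => T a b c - T b a c) fun a b c => η a * A b c
  rw [n4, ← ht2] at c1
  rw [n1, ← hr2] at c2
  set x := ∑ a, ∑ b, ∑ c, T a b c * (η a * A b c + η b * A a c) with hx
  set y := ∑ a, ∑ b, ∑ c, (T a b c - T b a c) * (η a * A b c) with hy
  have e1 : x + y = 2 * s := by
    have h1 : ∑ a, ∑ b, ∑ c, T a b c * (η b * A a c) = ∑ a, ∑ b, ∑ c, T b a c * (η a * A b c) :=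
      Finset.sum_comm
    have h2 : ∑ a, ∑ b, ∑ c, T a b c * (η a * A b c) = s := by
      rw [← η2]
      simp only [hξ, Finset.mul_sum]
      exact Finset.sum_congr rfl fun a _ => Finset.sum_congr rfl fun b _ =>
        Finset.sum_congr rfl fun c _ => by ring
    simp only [hx, hy, mul_add, sub_mul, Finset.sum_add_distrib, Finset.sum_sub_distrib, h1, h2]
    ring
  rw [← ss]
  exact kato_aux n0 hθ k1 kθ a0 t0 r0 g1 c1 c2 e1

end Real

variable {d : ℕ} {ι : Type} [Fintype ι] [DecidableEq ι] {X : Type} [TopologicalSpace X]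
  [MeasurableSpace X] {M : Imm d ι X} {F u : X → ℝ}

open Imm

/-- the Simons field -/
abbrev Ys (M : Imm d ι X) (u : X → ℝ) : Option ι → X → ℝ := M.pre.simY u (M.vv u)

theorem sm_Ys (hu : M.Sm u) (a : Option ι) : M.Sm (Ys M u a) :=
  (M.hom.simY ⟨u, hu⟩ ⟨_, hu.vv⟩ a ▸ sm_val _ :
    M.Sm (M.pre.simY (M.val ⟨u, hu⟩) (M.val ⟨_, hu.vv⟩) a))

theorem tan_Ys (hu : M.Sm u) : (M.gS u).Tan (Ys M u) := fun a => by
  have := congrArg M.val ((gDS hu).tan_sY (symT hu) a)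
  simp only [← Pre.simY_eq, map_sum, map_mul, M.hom.simY, (ghom hu).P] at this
  exact this

theorem Ys_apply (u : X → ℝ) (a : Option ι) (p : X) : Ys M u a p =
    ∑ b, ∑ c, (M.A u b c p * T M u b a c p - M.A u a c p * T M u b b c p) := by
  simp only [Ys, Pre.simY, Finset.sum_apply, Pi.mul_apply, Pi.sub_apply]
  rfl

theorem D_a2 (hu : M.Sm u) (a : Option ι) (p : X) :
    (M.gS u).D a (M.a2 u) p = 2 * ∑ b, ∑ c, M.A u b c p * T M u a b c p := by
  have := congrArg M.val ((gDS hu).D_normSq (symT hu) a)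
  simp only [map_sum, map_mul, map_ofNat, M.hom.A, (ghom hu).D, (ghom hu).nab2] at this
  have := congrFun this p
  simp only [Finset.sum_apply, Pi.mul_apply, Pi.ofNat_apply] at this
  exact this

theorem dv_Ys (hu : M.Sm u) (p : X) : (M.gS u).dv (Ys M u) p =
    ∑ e, ∑ b, ∑ c, T M u e b c p * T M u b e c p
    - ∑ c, (∑ a, T M u a a c p) * (∑ a, T M u a a c p)
    + ∑ e, (M.gS u).H e p * (∑ b, ∑ c, M.A u b c p * B M u b e c p)
    + ∑ e, ∑ b, ∑ c, B M u e c b p * B M u b c e p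
    - ∑ c, (∑ a, B M u a c a p) * (∑ a, B M u a c a p)
    - ∑ g, ∑ e, ∑ c, B M u g e c p * B M u g e c p := by
  have := congrArg M.val ((gDS hu).dv_sY (symT hu))
  simp only [← Pre.simY_eq, map_sum, map_mul, map_add, map_sub, M.hom.A, M.hom.simY,
    (ghom hu).dv, (ghom hu).H, (ghom hu).nab2, (ghom hu).sB] at this
  have := congrFun this p
  simp only [Finset.sum_apply, Pi.mul_apply, Pi.add_apply, Pi.sub_apply] at this
  exact this

variable [CompactSpace X] {Λ : ℝ}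

local notation "𝔹" => Bd (aa M F Λ)

theorem bd_near (hF : M.Sm F) (a : Option ι) :
    𝔹 2 fun ω => Ys M ω.1.1 a ω.2 - (M.gS ω.1.1).D a (M.a2 ω.1.1) ω.2 / 2 :=
  ((Bd.sum fun b => Bd.sum fun c => (bd_A b c).mul (bd_cod b a c)).mono.sub
    (Bd.sum fun c => (bd_A a c).mul (bd_t hF c))).congr fun ω => by
      rw [Ys_apply, D_a2 ω.1.2.sm]
      simp only [mul_sub, Finset.sum_sub_distrib]
      rw [Finset.sum_comm (f := fun b c => M.A ω.1.1 a c ω.2 * T M ω.1.1 b b c ω.2)]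
      simp only [← Finset.mul_sum]
      ring

theorem bd_r2 : 𝔹 0 fun ω => ∑ a, ∑ b, ∑ c, (T M ω.1.1 a b c ω.2 - T M ω.1.1 b a c ω.2)
    * (T M ω.1.1 a b c ω.2 - T M ω.1.1 b a c ω.2) :=
  Bd.sum fun a => Bd.sum fun b => Bd.sum fun c => (bd_cod a b c).mul (bd_cod a b c)

theorem bd_BB (e b c : Option ι) : 𝔹 1 fun ω => B M ω.1.1 e c b ω.2 - B M ω.1.1 b c e ω.2 :=
  ((bd_gam e c b).sub (bd_gam b c e)).congr fun ω => by
    have : ∑ g, M.A ω.1.1 e g ω.2 * M.A ω.1.1 g b ω.2 =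
        ∑ g, M.A ω.1.1 b g ω.2 * M.A ω.1.1 g e ω.2 := Finset.sum_congr rfl fun g _ => by
      rw [A_symm ω.1.2.sm e g, A_symm ω.1.2.sm g b, mul_comm]
    rw [this]; ring

theorem bd_mm : 𝔹 3 fun ω => ∑ c, (∑ a, B M ω.1.1 a c a ω.2) * (∑ a, B M ω.1.1 a c a ω.2)
    - M.a2 ω.1.1 ω.2 ^ 2 :=
  (Bd.sum fun c => (((Bd.const 2).mul bd_a2).mul ((bd_nu c).mul (bd_m c))).add
    ((bd_m c).mul (bd_m c)).mono).congr fun ω => by
      rw [← mul_one (M.a2 ω.1.1 ω.2 ^ 2), ← nu_unit ω.1.2.sm ω.2, Finset.mul_sum,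
        ← Finset.sum_sub_distrib]
      exact Finset.sum_congr rfl fun c _ => by ring

theorem bd_main (hF : M.Sm F) : 𝔹 3 fun ω => (M.gS ω.1.1).dv (Ys M ω.1.1) ω.2
    + M.a2 ω.1.1 ω.2 ^ 2 - ∑ a, ∑ b, ∑ c, T M ω.1.1 a b c ω.2 * T M ω.1.1 a b c ω.2 :=
  (((((Bd.sum fun e => (bd_H hF e).mul (Bd.sum fun b => Bd.sum fun c =>
    (bd_A b c).mul (bd_B b e c))).sub ((Bd.const (1 / 2)).mul bd_r2).mono).sub
    (Bd.sum fun c => (bd_t hF c).mul (bd_t hF c)).mono).sub
    ((Bd.const (1 / 2)).mul (Bd.sum fun e => Bd.sum fun b => Bd.sum fun c =>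
      (bd_BB e b c).mul (bd_BB e b c))).mono).sub bd_mm).congr fun ω => by
    have e1 : ∑ e, ∑ b, ∑ c, B M ω.1.1 e c b ω.2 * B M ω.1.1 e c b ω.2 =
        ∑ g, ∑ e, ∑ c, B M ω.1.1 g e c ω.2 * B M ω.1.1 g e c ω.2 :=
      Finset.sum_congr rfl fun _ _ => Finset.sum_comm
    rw [dv_Ys ω.1.2.sm, swap_sq fun e b c => T M ω.1.1 e b c ω.2,
      swap_sq fun e b c => B M ω.1.1 e c b ω.2, e1]
    ring

end Sh

open Sh Imm

theorem sim : SimStmt := by
  intro d ι _ _ X _ _ _ _ _ _ M F _ hF Λ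
  obtain ⟨k, k1, K, K0, hK⟩ := kato (κ := Option ι)
  obtain ⟨C1, p1, h1⟩ := Bd.unif fun a => bd_near (Λ := Λ) hF a
  obtain ⟨C2, p2, h2⟩ := bd_main (Λ := Λ) hF
  obtain ⟨C3, p3, h3⟩ := (bd_trA (Λ := Λ) hF).mul (bd_trA hF)
  obtain ⟨C4, p4, h4⟩ := bd_r2 (M := M) (F := F) (Λ := Λ)
  have q3 : 0 ≤ K * C3 := mul_nonneg K0 p3
  have q4 : 0 ≤ K * C4 := mul_nonneg K0 p4
  refine ⟨k, 1 + C1 + C2 + K * C3 + K * C4, k1, by linarith, fun u hu =>
    ⟨Ys M u, sm_Ys hu.sm, tan_Ys hu.sm, fun a p => ?_, fun p => ?_⟩⟩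
  · have := h1 a (⟨u, hu⟩, p)
    have a0 := M.a2_nonneg u p
    rw [w_eq, Real.sq_sqrt (by linarith)] at this
    exact this.trans (mul_le_mul_of_nonneg_right (by linarith) (by linarith))
  · have a0 := M.a2_nonneg u p
    have e2 := h2 (⟨u, hu⟩, p)
    have e3 := h3 (⟨u, hu⟩, p)
    have e4 := h4 (⟨u, hu⟩, p)
    have e5 := hK (fun a b => M.A u a b p) (fun a b c => T M u a b c p) fun a b => by
      rw [A_symm hu.sm]
    have w1 : 1 ≤ √(1 + M.a2 u p) := Real.one_le_sqrt.2 (by linarith)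
    rw [w_eq, pow_succ, Real.sq_sqrt (by linarith)] at e2
    simp only [add_zero, pow_zero, mul_one] at e2 e3 e4
    have e6 : (M.gS u).gam (M.a2 u) (M.a2 u) p / 4 = ∑ a, (∑ b, ∑ c, M.A u b c p * T M u a b c p)
        * ∑ b, ∑ c, M.A u b c p * T M u a b c p := by
      simp only [Pre.gam, Finset.sum_apply, Pi.mul_apply, D_a2 hu.sm, Finset.sum_div]
      exact Finset.sum_congr rfl fun a _ => by ring
    rw [e6]
    refine e5.trans ?_
    rw [← a2_apply]
    have t0 : 0 ≤ ∑ a, ∑ b, ∑ c, T M u a b c p * T M u a b c p :=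
      Finset.sum_nonneg fun _ _ => Finset.sum_nonneg fun _ _ =>
        Finset.sum_nonneg fun _ _ => mul_self_nonneg _
    generalize ∑ a, ∑ b, ∑ c, T M u a b c p * T M u a b c p = t2 at *
    generalize ∑ a, ∑ b, ∑ c, (T M u a b c p - T M u b a c p) * (T M u a b c p - T M u b a c p)
      = r2 at *
    generalize ∑ a, M.A u a a p = h at *
    have w3 : 1 ≤ (1 + M.a2 u p) * √(1 + M.a2 u p) := one_le_mul_of_one_le_of_one_le (by linarith) w1
    generalize (1 + M.a2 u p) * √(1 + M.a2 u p) = W at *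
    have f1 : K * h ^ 2 ≤ K * C3 :=
      mul_le_mul_of_nonneg_left (by linarith [le_abs_self (h * h)]) K0
    have f2 : K * r2 ≤ K * C4 := mul_le_mul_of_nonneg_left ((le_abs_self _).trans e4) K0
    have f3 : t2 + K * C4 ≤ (M.gS u).dv (Ys M u) p + M.a2 u p ^ 2
        + (1 + C1 + C2 + K * C3 + K * C4) * W := by
      have := mul_le_mul_of_nonneg_left w3 (show 0 ≤ 1 + C1 + K * C3 + K * C4 by linarith)
      linarith [neg_abs_le ((M.gS u).dv (Ys M u) p + M.a2 u p ^ 2 - t2)]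
    refine le_trans ?_ (mul_le_mul_of_nonneg_left f3 (by linarith))
    have f4 := mul_le_mul_of_nonneg_right f2 a0
    have f5 := mul_le_mul_of_nonneg_right f1 t0
    have f6 : 0 ≤ (1 + C1 + C2 + K * C4) * t2 := mul_nonneg (by linarith) t0
    have f7 : 0 ≤ (1 + C1 + C2 + K * C3 + K * C4) * (K * C4) := mul_nonneg (by linarith) q4
    linarith

end Crest.Agent.N222

end
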