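import Crest.Agent.N222.B.Defs2
import Crest.Agent.N222.F.Lip
import Crest.Agent.N222.F.Hess

/-!
# Row 222, part B: STEP 0 (the truncated coordinate); GEN is in `B/Gen.lean`
-/

set_option autoImplicit false
set_option linter.unusedSectionVars false
open MeasureTheory Set Filter Topology Function Metric
open scoped ContDiff InnerProductSpace RealInnerProductSpace

noncomputable section

namespace Crest.Agent.N222

namespace St0

/-- the real inequality -/
theorem alg {s0 K t w a0 c0 B S k : ℝ} (ht : 0 < t) (hs : 0 < s0) (hK : 0 ≤ K) (hS : 0 ≤ S)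
    (hB : S - K * |w| ≤ B) (h0 : s0 ≤ B + a0 ^ 2 - c0)
    (hk : 2 * k * w ^ 4 ≤ (w ^ 2 / (w ^ 2 + t ^ 2)) ^ 2 * c0 + K * t ^ 2)
    (hc : t ≤ |w| ∨ s0 / 4 ≤ S) :
    s0 / 4 - K * t - K * t ^ 2 ≤ B + ((a0 / (w ^ 2 + t ^ 2)) ^ 2 - 2 * k) * w ^ 4 := by
  have hd : 0 < w ^ 2 + t ^ 2 := by positivity
  set l := w ^ 2 / (w ^ 2 + t ^ 2) with hl
  have l0 : 0 ≤ l := by positivity
  have l1 : l ≤ 1 := (div_le_one hd).2 (by nlinarith)
  have e1 : (a0 / (w ^ 2 + t ^ 2)) ^ 2 * w ^ 4 = l ^ 2 * a0 ^ 2 := by rw [hl]; field_simp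
  have e2 : (1 - l) * (2 * |w|) ≤ t := by
    have : 1 - l = t ^ 2 / (w ^ 2 + t ^ 2) := by rw [hl]; field_simp; ring
    rw [this, div_mul_eq_mul_div, div_le_iff₀ hd]
    nlinarith [mul_nonneg ht.le (sq_nonneg (|w| - t)), sq_abs w]
  have e3 : (1 - l ^ 2) * |w| ≤ t := by
    nlinarith [mul_nonneg (mul_nonneg (sub_nonneg.2 l1) (sub_nonneg.2 l1)) (abs_nonneg w)]
  have l2 : 0 ≤ 1 - l ^ 2 := by nlinarith
  have e4 : (1 - l ^ 2) * S - K * t ≤ (1 - l ^ 2) * B := by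
    nlinarith [mul_le_mul_of_nonneg_left hB l2, mul_le_mul_of_nonneg_left e3 hK]
  have e5 : s0 / 4 ≤ l ^ 2 * s0 + (1 - l ^ 2) * S := by
    rcases hc with h | h
    · have h1 : 1 / 2 ≤ l := by
        rw [hl, le_div_iff₀ hd]
        nlinarith [sq_abs w, abs_nonneg w]
      nlinarith [mul_nonneg l2 hS, mul_nonneg (sub_nonneg.2 h1) hs.le,
        mul_nonneg (mul_nonneg (sub_nonneg.2 h1) (sub_nonneg.2 h1)) hs.le]
    · nlinarith [mul_le_mul_of_nonneg_left h l2, mul_nonneg (sq_nonneg l) hs.le]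
  rw [sub_mul, e1]
  nlinarith [mul_le_mul_of_nonneg_left h0 (sq_nonneg l)]

variable {d : ℕ} {ι : Type} [Fintype ι] [DecidableEq ι] {X : Type} [TopologicalSpace X]
  [MeasurableSpace X] {M : Imm d ι X} {om a : X → ℝ}

theorem cost_eq (om a : X → ℝ) (p : X) : M.cost om a p =
    2 * ‖om p ^ 2 • M.grad a p - a p • M.grad (fun q => om q ^ 2) p‖ := by
  rw [Imm.cost, EuclideanSpace.norm_eq]
  simp [Imm.grad]

theorem grad_sq (ho : M.Sm om) (p : X) :
    M.grad (fun q => om q ^ 2) p = (2 * om p) • M.grad om p := by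
  ext c
  have := Imm.D_comp (ho.diffAt p) (hasDerivAt_pow 2 (om p)) c
  simpa [Imm.grad] using this

theorem continuous_cost (ho : M.Sm om) (ha : M.Sm a) : Continuous (M.cost om a) := by
  rw [funext (cost_eq (M := M) om a)]
  exact continuous_const.mul (((ho.continuous.pow 2).smul ha.grad.continuous).sub
    (ha.continuous.smul (ho.pow 2).grad.continuous)).norm

theorem cost_le (ho : M.Sm om) (a : X → ℝ) (p : X) : M.cost om a p ≤
    2 * (|om p| * ‖M.grad a p‖ + 2 * |a p| * ‖M.grad om p‖) * |om p| := by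
  rw [cost_eq, grad_sq ho]
  have := norm_sub_le (om p ^ 2 • M.grad a p) (a p • (2 * om p) • M.grad om p)
  simp only [norm_smul, Real.norm_eq_abs, abs_pow, abs_mul, abs_two] at this
  nlinarith

theorem grad_div (ho : M.Sm om) (ha : M.Sm a) {t : ℝ} (ht : 0 < t) (p : X) :
    (om p ^ 2 + t ^ 2) ^ 2 • M.grad (fun q => a q / (om q ^ 2 + t ^ 2)) p =
      om p ^ 2 • M.grad a p - a p • M.grad (fun q => om q ^ 2) p + t ^ 2 • M.grad a p := by
  have hd : ∀ q, om q ^ 2 + t ^ 2 ≠ 0 := fun q => by positivity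
  have h1 : M.Sm fun q => om q ^ 2 + t ^ 2 := (ho.pow 2).add (Imm.sm_const _)
  ext c
  have h2 := Imm.D_mul ((ha.div h1 hd).diffAt p) (h1.diffAt p) c
  rw [show (fun q => a q / (om q ^ 2 + t ^ 2) * (om q ^ 2 + t ^ 2)) = a from
    funext fun q => div_mul_cancel₀ _ (hd q),
    Imm.D_add ((ho.pow 2).diffAt p) ((Imm.sm_const _).diffAt p), Imm.D_const, add_zero] at h2
  simp only [Imm.grad, PiLp.add_apply, PiLp.sub_apply, PiLp.smul_apply, smul_eq_mul]
  have h3 := hd p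
  rw [h2]
  field_simp
  ring

/-- the gradient bound for the truncated function -/
theorem k_le (ho : M.Sm om) (ha : M.Sm a) {t K : ℝ} (ht : 0 < t) (p : X)
    (hK : 2 * ‖M.grad a p‖ + 2 * om p ^ 4 ≤ K) :
    2 * √(M.pre.gam (fun q => a q / (om q ^ 2 + t ^ 2)) (fun q => a q / (om q ^ 2 + t ^ 2)) p +
      t ^ 4) * om p ^ 4 ≤
      (om p ^ 2 / (om p ^ 2 + t ^ 2)) ^ 2 * M.cost om a p + K * t ^ 2 := by
  have hd : 0 < om p ^ 2 + t ^ 2 := by positivity
  set g := ‖M.grad (fun q => a q / (om q ^ 2 + t ^ 2)) p‖ with hg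
  have g0 : 0 ≤ g := norm_nonneg _
  have h1 : √(M.pre.gam (fun q => a q / (om q ^ 2 + t ^ 2))
      (fun q => a q / (om q ^ 2 + t ^ 2)) p + t ^ 4) ≤ g + t ^ 2 := by
    rw [Imm.gam_self_eq, ← hg]
    exact Real.sqrt_le_iff.2 ⟨by positivity, by nlinarith [mul_nonneg g0 (sq_nonneg t)]⟩
  have h2 : (om p ^ 2 + t ^ 2) ^ 2 * g ≤ M.cost om a p / 2 + t ^ 2 * ‖M.grad a p‖ := by
    have := (congrArg norm (grad_div ho ha ht p)).trans_le (norm_add_le _ _)
    rw [norm_smul, norm_smul, Real.norm_of_nonneg (sq_nonneg _),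
      Real.norm_of_nonneg (sq_nonneg _)] at this
    rw [cost_eq]
    linarith
  set l := om p ^ 2 / (om p ^ 2 + t ^ 2) with hl
  have l0 : 0 ≤ l := by positivity
  have l1 : l ≤ 1 := (div_le_one hd).2 (by nlinarith)
  have l2 : l ^ 2 ≤ 1 := by nlinarith
  have e1 : om p ^ 4 * g = l ^ 2 * ((om p ^ 2 + t ^ 2) ^ 2 * g) := by rw [hl]; field_simp
  have h3 := mul_le_mul_of_nonneg_left h2 (sq_nonneg l)
  have h4 : l ^ 2 * (t ^ 2 * ‖M.grad a p‖) ≤ t ^ 2 * ‖M.grad a p‖ :=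
    mul_le_of_le_one_left (by positivity) l2
  have h5 := mul_le_mul_of_nonneg_right h1 (show 0 ≤ om p ^ 4 by positivity)
  have h6 := mul_le_mul_of_nonneg_right hK (sq_nonneg t)
  nlinarith

end St0

open St0 in
theorem step0 : Step0Stmt := by
  intro m ι _ _ X _ _ _ _ _ _ M F om a hM hd r0 C hr0 hC
  obtain ⟨s0, hs, hI⟩ := hd.ineq
  have cV := hd.smF.EF.continuous
  have co := hd.smo.continuous
  have ca := fun i => (hd.sma i).continuous
  have cg := fun i => (hd.sma i).grad.continuous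
  have cg' := hd.smo.grad.continuous
  have hI' : ∀ p ∈ tsupport om, s0 + ∑ i, M.cost om (a i) p ≤
      M.pre.EF F p * om p ^ 4 + ∑ i, a i p ^ 2 := fun p hp =>
    closure_minimal (s := support om) hI (isClosed_le
      (continuous_const.add (continuous_finsetSum _ fun i _ => continuous_cost hd.smo (hd.sma i)))
      ((cV.mul (co.pow 4)).add (continuous_finsetSum _ fun i _ => (ca i).pow 2))) hp
  obtain ⟨K, K0, hK⟩ := Imm.exists_bound (f := fun p => |M.pre.EF F p| * |om p| ^ 3 +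
    ∑ i : Fin m, 2 * (|om p| * ‖M.grad (a i.succ) p‖ + 2 * |a i.succ p| * ‖M.grad om p‖) +
    (2 * ‖M.grad (a 0) p‖ + 2 * om p ^ 4))
    (((cV.abs.mul (co.abs.pow 3)).add (continuous_finsetSum _ fun i _ => continuous_const.mul
      ((co.abs.mul (cg _).norm).add ((continuous_const.mul (ca _).abs).mul cg'.norm)))).add
      ((continuous_const.mul (cg 0).norm).add (continuous_const.mul (co.pow 4))))
  obtain ⟨L, L0, hL⟩ := (hd.smo.prodMk (hd.sma 0)).exists_lip hM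
  set σ := √(s0 / 2) with hσ
  have σ0 : 0 < σ := Real.sqrt_pos.2 (by positivity)
  have σ2 : σ ^ 2 = s0 / 2 := Real.sq_sqrt (by positivity)
  obtain ⟨t, ht, t1, t2, t3, t4, t5⟩ : ∃ t : ℝ, 0 < t ∧ t ≤ 1 ∧ t ≤ s0 / (16 * K) ∧ t ≤ σ / 2 ∧
      t ≤ σ / (10 * C * L) ∧ t ≤ L * r0 :=
    ⟨min 1 (min (s0 / (16 * K)) (min (σ / 2) (min (σ / (10 * C * L)) (L * r0)))), by positivity,
      min_le_left _ _, by simp, by simp, by simp, by simp⟩
  have hKt : K * t ≤ s0 / 16 := by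
    rw [le_div_iff₀ (by positivity)] at t2
    linarith
  have hKt2 : K * t ^ 2 ≤ s0 / 16 := by nlinarith [mul_nonneg K0.le ht.le]
  have hden : ∀ q, 0 < om q ^ 2 + t ^ 2 := fun q => by positivity
  have sh : M.Sm fun q => a 0 q / (om q ^ 2 + t ^ 2) :=
    (hd.sma 0).div ((hd.smo.pow 2).add (Imm.sm_const _)) fun q => (hden q).ne'
  refine ⟨fun q => a 0 q / (om q ^ 2 + t ^ 2), fun p => √(M.pre.gam
    (fun q => a 0 q / (om q ^ 2 + t ^ 2)) (fun q => a 0 q / (om q ^ 2 + t ^ 2)) p + t ^ 4),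
    s0 / 8, sh, ((sh.gam sh).add (Imm.sm_const _)).sqrt fun p =>
      (add_pos_of_nonneg_of_pos (Imm.gam_self_nonneg _ p) (by positivity)).ne',
    fun p => Real.sqrt_le_sqrt (le_add_of_nonneg_right (by positivity)), by positivity,
    fun p hp => ?_⟩
  have h1 := hI' p hp
  rw [Fin.sum_univ_succ, Fin.sum_univ_succ] at h1
  have h2 := (le_abs_self _).trans (hK p)
  have n1 : 0 ≤ |M.pre.EF F p| * |om p| ^ 3 := by positivity
  have n2 : 0 ≤ ∑ i : Fin m,
      2 * (|om p| * ‖M.grad (a i.succ) p‖ + 2 * |a i.succ p| * ‖M.grad om p‖) :=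
    Finset.sum_nonneg fun i _ => by positivity
  have n3 : 0 ≤ 2 * ‖M.grad (a 0) p‖ + 2 * om p ^ 4 := by positivity
  have n4 : 0 ≤ ∑ i : Fin m, a i.succ p ^ 2 := Finset.sum_nonneg fun i _ => sq_nonneg _
  have n5 : 0 ≤ ∑ i : Fin m, M.cost om (a i.succ) p :=
    Finset.sum_nonneg fun i _ => by rw [cost_eq]; positivity
  have n6 : 0 ≤ M.cost om (a 0) p := by rw [cost_eq]; positivity
  have h3 : ∑ i : Fin m, M.cost om (a i.succ) p ≤ (∑ i : Fin m,
      2 * (|om p| * ‖M.grad (a i.succ) p‖ + 2 * |a i.succ p| * ‖M.grad om p‖)) * |om p| := by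
    rw [Finset.sum_mul]
    exact Finset.sum_le_sum fun i _ => cost_le hd.smo _ p
  have h4 : |M.pre.EF F p * om p ^ 4| = |M.pre.EF F p| * |om p| ^ 3 * |om p| := by
    rw [abs_mul, abs_pow]; ring
  have h5 : |M.pre.EF F p * om p ^ 4| + ∑ i : Fin m, M.cost om (a i.succ) p ≤ K * |om p| := by
    nlinarith [mul_le_mul_of_nonneg_right h2 (abs_nonneg (om p)),
      mul_nonneg n3 (abs_nonneg (om p))]
  by_cases hc : t ≤ |om p| ∨ s0 / 4 ≤ ∑ i : Fin m, a i.succ p ^ 2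
  · left
    have := alg (a0 := a 0 p) (B := M.pre.EF F p * om p ^ 4 + ∑ i : Fin m, a i.succ p ^ 2 -
      ∑ i : Fin m, M.cost om (a i.succ) p) ht hs K0.le n4
      (by linarith [neg_abs_le (M.pre.EF F p * om p ^ 4)]) (by linarith)
      (k_le hd.smo (hd.sma 0) ht p (K := K) (by linarith)) hc
    linarith
  · right
    rw [not_or, not_le, not_le] at hc
    have h6 : σ ≤ |a 0 p| := by
      refine Real.sqrt_le_iff.2 ⟨abs_nonneg _, ?_⟩
      rw [sq_abs]
      nlinarith [le_abs_self (M.pre.EF F p * om p ^ 4), mul_le_mul_of_nonneg_left hc.1.le K0.le]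
    have hr : 0 < t / L := by positivity
    have h7 : ∀ q, ‖M.x q - M.x p‖ < t / L →
        |a 0 q - a 0 p| ≤ t ∧ C / (t / L) * (om q ^ 2 + t ^ 2) ≤ σ / 2 := fun q hq => by
      have h8 : ‖(om q, a 0 q) - (om p, a 0 p)‖ ≤ t := (hL q p).trans (by
        rw [lt_div_iff₀ L0] at hq
        linarith)
      have h9 : |om q - om p| ≤ t := (norm_fst_le ((om q, a 0 q) - (om p, a 0 p))).trans h8
      refine ⟨(norm_snd_le ((om q, a 0 q) - (om p, a 0 p))).trans h8, ?_⟩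
      have h10 : |om q| ≤ 2 * t := by linarith [abs_sub_abs_le_abs_sub (om q) (om p), hc.1]
      have h11 : om q ^ 2 + t ^ 2 ≤ 5 * t ^ 2 := by
        nlinarith [sq_abs (om q), abs_nonneg (om q)]
      rw [le_div_iff₀ (by positivity)] at t4
      calc C / (t / L) * (om q ^ 2 + t ^ 2) ≤ C / (t / L) * (5 * t ^ 2) :=
            mul_le_mul_of_nonneg_left h11 (by positivity)
        _ = t * (10 * C * L) / 2 := by field_simp; ring
        _ ≤ σ / 2 := by linarith
    refine ⟨t / L, hr, by rw [div_le_iff₀' L0]; exact t5, ?_⟩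
    rcases le_abs.1 h6 with h | h
    · refine Or.inl ⟨σ0.trans_le h, fun q hq => ?_⟩
      rw [le_div_iff₀ (hden q)]
      linarith [(h7 q hq).2, (abs_le.1 (h7 q hq).1).1]
    · refine Or.inr ⟨by linarith, fun q hq => ?_⟩
      rw [div_le_iff₀ (hden q)]
      linarith [(h7 q hq).2, (abs_le.1 (h7 q hq).1).2]

end Crest.Agent.N222

end
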