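import Crest.Agent.N222.B.Defs
import Crest.Agent.N222.F.Meas

/-!
# Row 222, part B: tangent measures of a compact embedded manifold (helper85)
-/

set_option autoImplicit false
set_option linter.unusedSectionVars false
open MeasureTheory Set Filter Topology Function Metric
open scoped ContDiff InnerProductSpace RealInnerProductSpace

noncomputable section

namespace Crest.Agent.N222

namespace Tn

variable {d : ℕ} {ι : Type} [Fintype ι]

/-- polar decomposition -/
theorem exists_iso {J : E (Fin d) →L[ℝ] E ι} (hJ : Injective J) :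
    ∃ L : E (Fin d) →ₗᵢ[ℝ] E ι, range L = range J ∧
      ∀ f : E ι → ℝ, ∫ z, f (L z) = ∫ w, jac J * f (J w) := by
  set V := LinearMap.range (J : E (Fin d) →ₗ[ℝ] E ι) with hV
  have hd : Module.finrank ℝ V = d := by
    rw [hV, LinearMap.finrank_range_of_inj hJ]; simp
  let b : OrthonormalBasis (Fin d) ℝ V := (stdOrthonormalBasis ℝ V).reindex (finCongr hd)
  let L : E (Fin d) →ₗᵢ[ℝ] E ι := V.subtypeₗᵢ.comp b.repr.symm.toLinearIsometry
  let T : E (Fin d) ≃ₗ[ℝ] E (Fin d) :=
    (LinearEquiv.ofInjective (J : E (Fin d) →ₗ[ℝ] E ι) hJ).trans b.repr.toLinearEquiv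
  have hT : ∀ w, L (T w) = J w := fun w => by simp [L, T]
  refine ⟨L, ?_, fun f => ?_⟩
  · ext w
    constructor
    · rintro ⟨z, rfl⟩
      exact ⟨T.symm z, by rw [← hT, T.apply_symm_apply]⟩
    · rintro ⟨z, rfl⟩
      exact ⟨T z, hT z⟩
  · have h1 : jac L.toContinuousLinearMap = 1 := by
      have : ContinuousLinearMap.adjoint L.toContinuousLinearMap ∘L L.toContinuousLinearMap = 1 := by
        ext1 z
        refine ext_inner_right ℝ fun w => ?_
        rw [ContinuousLinearMap.comp_apply, ContinuousLinearMap.adjoint_inner_left]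
        exact L.inner_map_map z w
      rw [jac, this]
      simp [ContinuousLinearMap.det]
    have h2 : J = L.toContinuousLinearMap ∘L (T.toContinuousLinearEquiv : E (Fin d) →L[ℝ] E (Fin d)) :=
      ContinuousLinearMap.ext fun w => (hT w).symm
    have h3 := integral_image_eq_integral_abs_det_fderiv_smul volume MeasurableSet.univ
      (fun x _ => (T.toContinuousLinearEquiv : E (Fin d) →L[ℝ] E (Fin d)).hasFDerivAt.hasFDerivWithinAt)
      T.injective.injOn (fun z => f (L z))
    rw [image_univ_of_surjective (by exact T.surjective), Measure.restrict_univ] at h3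
    rw [h3]
    refine integral_congr_ae (Eventually.of_forall fun w => ?_)
    beta_reduce
    conv_rhs => rw [h2, jac_comp, h1, one_mul]
    rfl

theorem tendsto_quot {E' F α : Type} [NormedAddCommGroup E'] [NormedSpace ℝ E']
    [NormedAddCommGroup F] [NormedSpace ℝ F] {φ : E' → F} {J : E' →L[ℝ] F} {z0 : E'}
    (h : HasStrictFDerivAt φ J z0) {l : Filter α} {z : α → E'} {r : α → ℝ}
    (hz : Tendsto z l (𝓝 z0)) (hr : Tendsto r l (𝓝[>] 0)) (w : E') :
    Tendsto (fun j => (r j)⁻¹ • (φ (z j + r j • w) - φ (z j))) l (𝓝 (J w)) := by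
  have hr0 : Tendsto r l (𝓝 0) := tendsto_nhds_of_tendsto_nhdsWithin hr
  have h1 : Tendsto (fun j => (z j + r j • w, z j)) l (𝓝 (z0, z0)) :=
    Tendsto.prodMk_nhds (by simpa using hz.add (hr0.smul_const w)) hz
  have h2 := h.isLittleO.comp_tendsto h1
  have h3 : (fun j => z j + r j • w - z j) =O[l] r := by
    simp only [add_sub_cancel_left]
    exact Asymptotics.IsBigO.of_bound ‖w‖ (Eventually.of_forall fun j => by
      rw [norm_smul, mul_comm])
  have h4 := (h2.trans_isBigO h3).tendsto_inv_smul_nhds_zero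
  rw [← tendsto_sub_nhds_zero_iff]
  refine h4.congr' ?_
  filter_upwards [hr self_mem_nhdsWithin] with j hj
  have : r j ≠ 0 := (mem_Ioi.1 hj).ne'
  simp [smul_sub, this]

theorem exists_lower {φ : E (Fin d) → E ι} {J : E (Fin d) →L[ℝ] E ι} {z0 : E (Fin d)}
    (h : HasStrictFDerivAt φ J z0) (hJ : Injective J) :
    ∃ c > 0, ∃ s ∈ 𝓝 z0, ∀ a ∈ s, ∀ b ∈ s, c * ‖a - b‖ ≤ ‖φ a - φ b‖ := by
  obtain ⟨K, hK, hA⟩ := (J : E (Fin d) →ₗ[ℝ] E ι).exists_antilipschitzWith
    (LinearMap.ker_eq_bot.2 hJ)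
  have hK' : (0 : ℝ) < K := hK
  obtain ⟨s, hs, h1⟩ := h.approximates_deriv_on_nhds (c := K⁻¹ / 2) (Or.inr (by positivity))
  refine ⟨(K : ℝ)⁻¹ / 2, by positivity, s, hs, fun a ha b hb => ?_⟩
  have h2 := h1 a ha b hb
  have h3 : ‖a - b‖ ≤ K * ‖J (a - b)‖ := by
    simpa [dist_eq_norm] using hA.le_mul_dist a b
  have h4 := norm_sub_norm_le (J (a - b)) (φ a - φ b)
  rw [norm_sub_rev (J _)] at h4
  have h5 : (K : ℝ)⁻¹ * ‖a - b‖ ≤ ‖J (a - b)‖ := by rwa [inv_mul_le_iff₀ hK']
  push_cast at h2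
  linarith

end Tn

open Tn in
theorem tan : TanStmt := by
  intro d ι _ _ X _ _ _ _ _ M _ hi p0
  have he := M.isChart p0
  have hp0 := M.mem p0
  set e := M.ch p0 with hed
  set φ := M.x ∘ e.symm with hφ
  have hz0 := e.map_source hp0
  have hJ := he.inj _ hz0
  obtain ⟨L, hL, hLi⟩ := exists_iso hJ
  refine ⟨L, fun w => ?_, fun α l p r hp hr f hf hc => ?_⟩
  · rw [hL]
    refine ⟨fun h => h ▸ Imm.PL_mem_range he hp0 w, ?_⟩
    rintro ⟨v, rfl⟩
    exact Imm.PL_chart he hp0 v
  have hst : HasStrictFDerivAt φ (fderiv ℝ φ (e p0)) (e p0) :=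
    (he.sm.contDiffAt (e.open_target.mem_nhds hz0)).hasStrictFDerivAt (by simp)
  obtain ⟨c, hc0, s, hs, hlow⟩ := exists_lower hst hJ
  obtain ⟨ρ, hρ, hB⟩ := nhds_basis_closedBall.mem_iff.1 (inter_mem hs (e.open_target.mem_nhds hz0))
  have hBt : ball (e p0) ρ ⊆ e.target := fun z hz => (hB (ball_subset_closedBall hz)).2
  obtain ⟨R, hR⟩ := (hc.isCompact.image continuous_fst).isBounded.exists_norm_le
  have hR' : ∀ w q, R < ‖w‖ → f (w, q) = 0 := fun w q h =>
    image_eq_zero_of_notMem_tsupport fun h' => h.not_ge (hR _ (mem_image_of_mem _ h'))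
  obtain ⟨A, hA⟩ := hf.bounded_above_of_compact_support hc
  obtain ⟨A', hA'⟩ := (isCompact_closedBall (e p0) ρ).exists_bound_of_continuousOn
    ((Imm.continuousOn_jac he).mono fun z hz => (hB hz).2)
  -- the part of `X` away from `p0`
  have hN : IsOpen (e.source ∩ e ⁻¹' ball (e p0) ρ) := e.isOpen_inter_preimage isOpen_ball
  obtain ⟨δ, hδ, hfar⟩ : ∃ δ > 0, ∀ q ∉ e.source ∩ e ⁻¹' ball (e p0) ρ, δ ≤ ‖M.x q - M.x p0‖ := by
    obtain ⟨δ, hδ, h⟩ := hN.isClosed_compl.isCompact.exists_forall_le'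
      (f := fun q => ‖M.x q - M.x p0‖) (a := 0)
      (M.continuous_x.sub continuous_const).norm.continuousOn fun q hq =>
        norm_pos_iff.2 (sub_ne_zero.2 fun h => hq (by
          rw [hi h]; exact ⟨hp0, mem_ball_self hρ⟩))
    exact ⟨δ, hδ, h⟩
  set g : X × ℝ → E (Fin d) → ℝ := fun a z => (ball (e p0) ρ).indicator
    (fun z => jac (fderiv ℝ φ z) * f (a.2⁻¹ • (φ z - M.x a.1), e.symm z)) z with hg
  have hgm : ∀ a, Measurable (g a) := fun a => by
    classical
    refine ContinuousOn.measurable_piecewise (g := 0) ?_ continuousOn_const measurableSet_ball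
    exact (((Imm.continuousOn_jac he).mul (hf.comp_continuousOn
      (((he.sm.continuousOn.sub continuousOn_const).const_smul a.2⁻¹).prodMk
        e.continuousOn_symm)))).mono hBt
  set 𝓕 : Filter (X × ℝ) := 𝓝 p0 ×ˢ 𝓝[>] 0 with h𝓕
  have t1 : Tendsto (fun a : X × ℝ => e a.1) 𝓕 (𝓝 (e p0)) :=
    (e.continuousAt hp0).tendsto.comp tendsto_fst
  have t2 : Tendsto (fun a : X × ℝ => a.2) 𝓕 (𝓝[>] 0) := tendsto_snd
  have t2' : Tendsto (fun a : X × ℝ => a.2) 𝓕 (𝓝 0) := tendsto_nhds_of_tendsto_nhdsWithin t2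
  have ev1 : ∀ᶠ a : X × ℝ in 𝓕, a.1 ∈ e.source ∧ e a.1 ∈ ball (e p0) ρ :=
    tendsto_fst (hN.mem_nhds ⟨hp0, mem_ball_self hρ⟩)
  have ev2 : ∀ᶠ a : X × ℝ in 𝓕, 0 < a.2 := t2 self_mem_nhdsWithin
  have ev3 : ∀ᶠ a : X × ℝ in 𝓕, ‖M.x a.1 - M.x p0‖ + a.2 * R < δ := by
    have : Tendsto (fun a : X × ℝ => ‖M.x a.1 - M.x p0‖ + a.2 * R) 𝓕
        (𝓝 (‖M.x p0 - M.x p0‖ + 0 * R)) :=
      (((M.continuous_x.tendsto p0).comp tendsto_fst).sub_const _).norm.add (t2'.mul_const R)
    exact this.eventually (gt_mem_nhds (by simpa using hδ))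
  have key : Tendsto (fun a : X × ℝ => ∫ w, g a (e a.1 + a.2 • w)) 𝓕
      (𝓝 (∫ w, jac (fderiv ℝ φ (e p0)) * f (fderiv ℝ φ (e p0) w, p0))) := by
    refine tendsto_integral_filter_of_dominated_convergence
      ((closedBall (0 : E (Fin d)) (R / c)).indicator fun _ => A' * A)
      (Eventually.of_forall fun a => ((hgm a).comp (by fun_prop)).aestronglyMeasurable) ?_
      ((integrable_indicator_iff measurableSet_closedBall).2
        (integrableOn_const measure_closedBall_lt_top.ne)) (Eventually.of_forall fun w => ?_)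
    · filter_upwards [ev1, ev2] with a h1 h2
      refine Eventually.of_forall fun w => ?_
      have hA0 : 0 ≤ A' * A := mul_nonneg ((norm_nonneg _).trans (hA' _ (mem_closedBall_self hρ.le)))
        ((norm_nonneg _).trans (hA (0, p0)))
      by_cases hw : e a.1 + a.2 • w ∈ ball (e p0) ρ
      · rw [hg]
        simp only [indicator_of_mem hw]
        by_cases hw' : w ∈ closedBall (0 : E (Fin d)) (R / c)
        · rw [indicator_of_mem hw', norm_mul]
          exact mul_le_mul (hA' _ (ball_subset_closedBall hw)) (hA _) (norm_nonneg _)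
            ((norm_nonneg _).trans (hA' _ (mem_closedBall_self hρ.le)))
        · rw [indicator_of_notMem hw', hR', mul_zero, norm_zero]
          have h3 := hlow _ (hB (ball_subset_closedBall hw)).1 _ (hB (ball_subset_closedBall h1.2)).1
          have h4 : φ (e a.1) = M.x a.1 := congrArg M.x (e.left_inv h1.1)
          rw [h4, add_sub_cancel_left, norm_smul, Real.norm_of_nonneg h2.le] at h3
          rw [mem_closedBall_zero_iff, not_le, div_lt_iff₀ hc0] at hw'
          rw [norm_smul, norm_inv, Real.norm_of_nonneg h2.le, lt_inv_mul_iff₀ h2]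
          nlinarith
      · rw [hg]
        simp only [indicator_of_notMem hw, norm_zero]
        exact indicator_nonneg (fun _ _ => hA0) _
    · have t3 : Tendsto (fun a : X × ℝ => e a.1 + a.2 • w) 𝓕 (𝓝 (e p0)) := by
        simpa using t1.add (t2'.smul_const w)
      have t4 := ((Imm.continuousOn_jac he).continuousAt (e.open_target.mem_nhds hz0)).tendsto.comp t3
      have t5 := (hf.tendsto _).comp
        ((tendsto_quot hst t1 t2 w).prodMk_nhds ((e.tendsto_symm hp0).comp t3))
      refine (t4.mul t5).congr' ?_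
      filter_upwards [ev1, t3 (ball_mem_nhds _ hρ)] with a h1 h2
      have h4 : φ (e a.1) = M.x a.1 := congrArg M.x (e.left_inv h1.1)
      rw [hg]
      simp only [indicator_of_mem (mem_preimage.1 h2), comp_apply, ← h4]
      rfl
  rw [hLi fun w => f (w, p0)]
  refine ((key.congr' ?_).comp (hp.prodMk hr) :
    Tendsto ((fun a : X × ℝ => (∫ q, f (a.2⁻¹ • (M.x q - M.x a.1), q) ∂M.mu) / a.2 ^ d) ∘
      fun j => (p j, r j)) l _)
  filter_upwards [ev2, ev3] with a h2 h3
  have hsup : ∀ q, q ∉ e.source ∩ e ⁻¹' ball (e p0) ρ →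
      f (a.2⁻¹ • (M.x q - M.x a.1), q) = 0 := by
    intro q hq
    refine hR' _ _ ?_
    rw [norm_smul, norm_inv, Real.norm_of_nonneg h2.le, lt_inv_mul_iff₀ h2]
    have h5 := norm_sub_le_norm_sub_add_norm_sub (M.x q) (M.x a.1) (M.x p0)
    linarith [hfar q hq]
  rw [Imm.integral_chart he fun q hq => by_contra fun h => hq (hsup q fun h' => h h'.1),
    Measure.integral_comp_smul volume (fun z => g a (e a.1 + z)), integral_add_left_eq_self,
    ← integral_indicator e.open_target.measurableSet, finrank_euclideanSpace_fin,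
    abs_of_pos (by positivity), smul_eq_mul, div_eq_inv_mul]
  congr 2
  funext z
  by_cases hz : z ∈ ball (e p0) ρ
  · rw [hg, indicator_of_mem (hBt hz)]
    exact indicator_of_mem hz _
  · rw [hg]
    refine (indicator_of_notMem hz _).trans (indicator_apply_eq_zero.2 fun hz' => ?_).symm
    rw [hsup _ fun h => hz (by simpa only [mem_preimage, e.right_inv hz'] using h.2), smul_zero]

end Crest.Agent.N222
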