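import Crest.Agent.N222.B.E2

/-!
# Row 222, part B, ε-regularity block: mean value inequality for the curvature
-/

set_option autoImplicit false
set_option linter.unusedSectionVars false
open MeasureTheory Set Filter Topology Function Metric
open scoped ContDiff InnerProductSpace RealInnerProductSpace

noncomputable section

namespace Crest.Agent.N222
open EP

variable {d : ℕ} {ι : Type} [Fintype ι] [DecidableEq ι] {X : Type} [TopologicalSpace X]
  [T2Space X] [SecondCountableTopology X] [MeasurableSpace X] [BorelSpace X] [CompactSpace X]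
  {M : Imm d ι X}

/-- mean value inequality for `|A|²` -/
theorem EP.mv_a2 (hMon : MonStmt) (hMon2 : Mon2Stmt) (hM : Injective M.x) (C C' : ℝ) :
    ∃ K : ℝ, ∀ (u : X → ℝ) (κ : ℝ) (Z : Option ι → X → ℝ) (p : X) (ρ : ℝ), M.Sm u → M.Sheet C u →
    M.Sim κ C' u Z → 0 ≤ κ → 1 ≤ C' → 0 < ρ → ρ ≤ 1 →
    (∀ q, ‖M.gx u q - M.gx u p‖ < ρ → ρ ^ 2 * M.a2 u q ≤ 4) →
    (∀ t, 0 < t → t ≤ ρ → M.gTh u (M.gx u p) t ≤ 2 * cPhi d) →
    cPhi d * (ρ ^ 2 * M.a2 u p) - cPhi d / 2 - K * ρ ≤
      ρ ^ 2 * bl M u (ρ / 10) fun q => M.a2 u q * ph M u (M.gx u p) (ρ / 10) q := by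
  refine ⟨cPhi d * (3 / 10 * C' + 2 * Fintype.card (Option ι) * C' + 4 / 5 * C), ?_⟩
  intro u κ Z p ρ hu hS hZ hκ hC' hρ hρ1 ha hΘ
  have ha0 : ∀ q, 0 ≤ M.a2 u q := fun q => Imm.a2_nonneg _ _ _
  have hsa : M.Sm (M.a2 u) := hu.a2
  have hb : ∀ q, ‖M.gx u q - M.gx u p‖ < ρ → M.a2 u q ≤ 4 / ρ ^ 2 := fun q hq => by
    rw [le_div_iff₀ (by positivity), mul_comm]; exact ha q hq
  have h1 : 1 ≤ 1 / ρ ^ 2 := by
    rw [le_div_iff₀ (by positivity), one_mul]; exact pow_le_one₀ hρ.le hρ1
  have hb1 : ∀ q, ‖M.gx u q - M.gx u p‖ < ρ → 1 + M.a2 u q ≤ 5 / ρ ^ 2 := fun q hq => by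
    have := hb q hq
    have e : 5 / ρ ^ 2 = 1 / ρ ^ 2 + 4 / ρ ^ 2 := by ring
    linarith
  set S : ℝ := 16 / ρ ^ 4 + 15 * C' / ρ ^ 3 with hSd
  have hS0 : 0 ≤ S := by have : 0 ≤ C' := by linarith
                         positivity
  have hdv : ∀ q, ‖M.gx u q - M.gx u p‖ < ρ → -(M.gS u).dv Z q ≤ S := fun q hq => by
    have g0 : 0 ≤ (M.gS u).gam (M.a2 u) (M.a2 u) q := by
      rw [← Imm.graph_pre hu]; exact Imm.gam_self_nonneg _ _
    have g1 := (mul_nonneg hκ (div_nonneg g0 (by norm_num : (0 : ℝ) ≤ 4))).trans (hZ.dv q)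
    have g2 := (mul_nonneg_iff_of_pos_left (by linarith [ha0 q])).1 g1
    have g3 : M.a2 u q ^ 2 ≤ 16 / ρ ^ 4 :=
      (pow_le_pow_left₀ (ha0 q) (hb q hq) 2).trans_eq (by ring)
    have g4 : √(1 + M.a2 u q) ≤ 3 / ρ := by
      refine Real.sqrt_le_iff.2 ⟨by positivity, (hb1 q hq).trans ?_⟩
      rw [div_pow]
      exact div_le_div_of_nonneg_right (by norm_num) (by positivity)
    have g5 : (1 + M.a2 u q) * √(1 + M.a2 u q) ≤ 5 / ρ ^ 2 * (3 / ρ) :=
      mul_le_mul (hb1 q hq) g4 (Real.sqrt_nonneg _) (by positivity)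
    have g6 := mul_le_mul_of_nonneg_left g5 (by linarith : 0 ≤ C')
    have e : C' * (5 / ρ ^ 2 * (3 / ρ)) = 15 * C' / ρ ^ 3 := by ring
    linarith
  have key := g_mean_value hMon hMon2 hM hu hS hsa ha0 p (ρ := ρ / 10) (B := 4 / ρ ^ 2)
    (K := S * (ρ / 10) + Fintype.card (Option ι) * (10 * C' / ρ ^ 2)) (Θ := 2 * cPhi d)
    (by positivity) (by have : 0 ≤ C' := by linarith
                        positivity) (fun q hq => hb q (by linarith))
    (fun t ht htρ => hΘ t ht (by linarith)) fun t ht htρ => by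
      have hD : ∀ a, Continuous ((M.gS u).D a (ps M u (M.gx u p) t)) := fun a => by
        rw [← Imm.graph_pre hu]; exact (c1_ps hu _ t).cont a
      have i1 : Integrable (fun q => ∑ a, Z a q * (M.gS u).D a (ps M u (M.gx u p) t) q)
          (M.gmu u) := integrable_gmu hu
        (continuous_finsetSum _ fun a _ => (hZ.sm a).continuous.mul (hD a))
      have i2 : Integrable (fun q => ∑ a, ((M.gS u).D a (M.a2 u) q - 2 * Z a q) *
          (M.gS u).D a (ps M u (M.gx u p) t) q) (M.gmu u) := integrable_gmu hu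
        (continuous_finsetSum _ fun a _ => ((sm_gD hu hsa a).continuous.sub
          (continuous_const.mul (hZ.sm a).continuous)).mul (hD a))
      have e1 : ∫ q, ∑ a, (M.gS u).D a (M.a2 u) q * (M.gS u).D a (ps M u (M.gx u p) t) q
          ∂M.gmu u = 2 * (∫ q, ∑ a, Z a q * (M.gS u).D a (ps M u (M.gx u p) t) q ∂M.gmu u) +
            ∫ q, ∑ a, ((M.gS u).D a (M.a2 u) q - 2 * Z a q) *
              (M.gS u).D a (ps M u (M.gx u p) t) q ∂M.gmu u := by
        rw [← integral_const_mul, ← integral_add (i1.const_mul 2) i2]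
        refine integral_congr_ae (.of_forall fun q => ?_)
        simp only [Finset.mul_sum, ← Finset.sum_add_distrib]
        exact Finset.sum_congr rfl fun a _ => by ring
      have e2 := (le_abs_self _).trans (abs_int_D_ps_le hu ht (y := M.gx u p)
        (Z := fun a q => (M.gS u).D a (M.a2 u) q - 2 * Z a q) (B := 10 * C' / ρ ^ 2)
        fun q hq a => by
          have g1 := hZ.near a q
          have g2 := mul_le_mul_of_nonneg_left (hb1 q (by linarith)) (by linarith : 0 ≤ C')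
          have e : (M.gS u).D a (M.a2 u) q - 2 * Z a q =
              -2 * (Z a q - (M.gS u).D a (M.a2 u) q / 2) := by ring
          have e' : 10 * C' / ρ ^ 2 = 2 * (C' * (5 / ρ ^ 2)) := by ring
          rw [e, abs_mul, abs_neg, abs_two, e']
          linarith)
      have e3 : ∫ q, ∑ a, Z a q * (M.gS u).D a (ps M u (M.gx u p) t) q ∂M.gmu u ≤
          S * (M.gTh u (M.gx u p) t * t ^ d) := by
        rw [← neg_neg (∫ q, ∑ a, Z a q * _ ∂M.gmu u), ← g_ibp hu (c1_ps hu _ t) hZ.sm hZ.tan,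
          ← integral_neg, ← integral_ph ht, ← integral_const_mul]
        refine integral_mono (integrable_gmu hu ((c1_ps hu _ t).continuous.mul
          (sm_gdv hu hZ.sm).continuous).neg) (integrable_gmu hu
            (continuous_const.mul (sm_ph hu _ t).continuous)) fun q => ?_
        have p0 : 0 ≤ ps M u (M.gx u p) t q := Psi_nonneg _
        have p1 : ps M u (M.gx u p) t q ≤ ph M u (M.gx u p) t q := Psi_le_Phi (by positivity)
        by_cases h : ph M u (M.gx u p) t q = 0
        · have : ps M u (M.gx u p) t q = 0 := le_antisymm (h ▸ p1) p0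
          simp only [this, h, zero_mul, neg_zero, mul_zero, le_refl]
        · have g1 := mul_le_mul_of_nonneg_left (hdv q (by linarith [lt_of_ph_ne ht h])) p0
          have g2 := mul_le_mul_of_nonneg_right p1 hS0
          simp only
          linarith
      have hG : 0 ≤ M.gTh u (M.gx u p) t * t ^ d := mul_nonneg (gTh_nonneg ht _) (by positivity)
      have e4 : 2 * S ≤ S * (ρ / 10) * (2 / t) := by
        have := mul_le_mul_of_nonneg_right (mul_le_mul_of_nonneg_left htρ hS0)
          (by positivity : 0 ≤ 2 / t)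
        refine le_of_eq_of_le ?_ this
        field_simp
      have e5 := mul_le_mul_of_nonneg_right e4 hG
      rw [e1]
      linarith
  have k2 := mul_le_mul_of_nonneg_left key (sq_nonneg ρ)
  refine le_trans ?_ k2
  have e : ρ ^ 2 * (cPhi d * M.a2 u p - (S * (ρ / 10) + Fintype.card (Option ι) *
      (10 * C' / ρ ^ 2) + 4 / ρ ^ 2 * C) * (2 * cPhi d) * (ρ / 10)) =
      cPhi d * (ρ ^ 2 * M.a2 u p) - 8 / 25 * cPhi d -
        cPhi d * (3 / 10 * C' + 2 * Fintype.card (Option ι) * C' + 4 / 5 * C) * ρ := by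
    rw [hSd]
    field_simp
    ring
  rw [e]
  linarith [cPhi_pos d]

end Crest.Agent.N222

end
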