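import Crest.Agent.N222.B.WEn
import Crest.Agent.N222.B.WMv
import Crest.Agent.N222.B.Mon2

/-!
# Row 222, part B, ε-regularity block (helper16): W, the curvature bound
-/

set_option autoImplicit false
set_option linter.unusedSectionVars false
open MeasureTheory Set Filter Topology Function Metric
open scoped ContDiff InnerProductSpace RealInnerProductSpace

noncomputable section

namespace Crest.Agent.N222
namespace EP

variable {d : ℕ} {ι : Type} [Fintype ι] [DecidableEq ι] {X : Type} [TopologicalSpace X]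
  [T2Space X] [SecondCountableTopology X] [MeasurableSpace X] [BorelSpace X] [CompactSpace X]
  {M : Imm d ι X} {C : ℝ}

section One
variable {u : X → ℝ}

/-- point picking -/
theorem pick (hu : M.Sm u) {y : E (Option ι)} {r k : ℝ} (hk : 0 ≤ k) {q0 : X}
    (hq : ‖M.gx u q0 - y‖ < r / 2) (hK : 16 * k ^ 2 < r ^ 2 * M.a2 u q0) :
    ∃ p ρ, 0 < ρ ∧ ρ ^ 2 * M.a2 u p = 1 ∧ k * ρ ≤ r ∧ ∀ q, ‖M.gx u q - M.gx u p‖ ≤ k * ρ →
      ρ ^ 2 * M.a2 u q ≤ 4 ∧ ‖M.gx u q - y‖ < r := by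
  have hr : 0 < r := by linarith [norm_nonneg (M.gx u q0 - y)]
  have hx := (Imm.sm_gx hu).continuous
  have ha := hu.a2.continuous
  obtain ⟨p, -, hp⟩ := isCompact_univ.exists_isMaxOn ⟨q0, mem_univ _⟩
    (f := fun q => max (r - ‖M.gx u q - y‖) 0 ^ 2 * M.a2 u q) (by fun_prop)
  have hp' : ∀ q (s : ℝ), 0 ≤ s → s ≤ r - ‖M.gx u q - y‖ →
      s ^ 2 * M.a2 u q ≤ max (r - ‖M.gx u p - y‖) 0 ^ 2 * M.a2 u p := fun q s h0 h1 =>
    (mul_le_mul_of_nonneg_right (pow_le_pow_left₀ h0 (le_max_of_le_left h1) 2)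
      (M.a2_nonneg u q)).trans (hp (mem_univ q))
  have h1 : 4 * k ^ 2 < max (r - ‖M.gx u p - y‖) 0 ^ 2 * M.a2 u p := by
    have := hp' q0 (r / 2) (by positivity) (by linarith)
    linarith
  have h2 : 0 < max (r - ‖M.gx u p - y‖) 0 ^ 2 * M.a2 u p := lt_of_le_of_lt (by positivity) h1
  have h3 : 0 < M.a2 u p := (M.a2_nonneg u p).lt_of_ne fun h => by simp [← h] at h2
  have h4 : 0 < r - ‖M.gx u p - y‖ := by
    by_contra h
    simp [max_eq_right (not_lt.1 h)] at h2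
  rw [max_eq_left h4.le] at h1 hp'
  set t := r - ‖M.gx u p - y‖
  have h5 : (√(M.a2 u p))⁻¹ ^ 2 * M.a2 u p = 1 := by
    rw [inv_pow, Real.sq_sqrt h3.le, inv_mul_cancel₀ h3.ne']
  have h6 : 0 < (√(M.a2 u p))⁻¹ := by positivity
  generalize (√(M.a2 u p))⁻¹ = ρ at h5 h6
  have h7 : k * ρ ≤ t / 2 := by
    refine (abs_le_of_sq_le_sq' ?_ (by positivity)).2
    have := mul_lt_mul_of_pos_left h1 (pow_pos h6 2)
    nlinarith
  refine ⟨p, ρ, h6, h5, by linarith [norm_nonneg (M.gx u p - y)], fun q hq => ?_⟩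
  have h8 := norm_sub_le_norm_sub_add_norm_sub (M.gx u q) (M.gx u p) y
  refine ⟨?_, by linarith⟩
  have h9 := mul_le_mul_of_nonneg_left (hp' q (t / 2) (by positivity) (by linarith)) (sq_nonneg ρ)
  refine le_of_mul_le_mul_left ?_ (by positivity : 0 < (t / 2) ^ 2)
  nlinarith

theorem sq_inner_le_perp (hu : M.Sm u) (y : E (Option ι)) (q : X) :
    ⟪M.gx u q - y, M.nuv u q⟫ ^ 2 ≤ (M.graph u hu).perp y q := by
  have h1 : ⟪M.gx u q - y - (M.graph u hu).PL q (M.gx u q - y), M.nuv u q⟫ =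
      ⟪M.gx u q - y, M.nuv u q⟫ := by
    rw [Imm.graph_PL, inner_sub_left _ (_ - _), inner_sub_left (M.PbL _ _), PbL_symm,
      Imm.PbL_nuv hu, inner_smul_left, real_inner_self_eq_norm_sq, Imm.norm_nuv hu,
      real_inner_comm (M.nuv u q)]
    simp
  have h2 := abs_real_inner_le_norm (M.gx u q - y - (M.graph u hu).PL q (M.gx u q - y)) (M.nuv u q)
  rw [h1, Imm.norm_nuv hu, mul_one] at h2
  rw [← sq_abs]
  exact pow_le_pow_left₀ (abs_nonneg _) h2 2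

/-- the integrand of the remainder -/
def rm {F : Type} [NormedAddCommGroup F] [InnerProductSpace ℝ F] (s : (F × ℝ) × F × F) : ℝ :=
  -2 * deriv Phi (‖s.2.1 - s.1.1‖ ^ 2 * s.1.2) * ⟪s.2.1 - s.1.1, s.2.2⟫ ^ 2

section Rm
variable {F : Type} [NormedAddCommGroup F] [InnerProductSpace ℝ F]

theorem continuous_rm : Continuous (rm (F := F)) := by
  have := Mn.continuous_dPhi
  unfold rm; fun_prop

theorem rm_nonneg (s : (F × ℝ) × F × F) : 0 ≤ rm s :=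
  mul_nonneg (mul_nonneg_of_nonpos_of_nonpos (by norm_num) (Mn.deriv_Phi_nonpos _)) (sq_nonneg _)

theorem rm_far {z : F} {τ R σ : ℝ} (hτ : 0 < τ) (h1 : τ ≤ σ) (hz : ‖z‖ ≤ R) (s : F × F)
    (hs : R + σ < ‖s.1‖) : rm ((z, (τ ^ 2)⁻¹), s) = 0 := by
  have h2 : 1 < ‖s.1 - z‖ ^ 2 * (τ ^ 2)⁻¹ := by
    rw [← div_eq_mul_inv, one_lt_div (by positivity)]
    exact pow_lt_pow_left₀ (by linarith [norm_sub_norm_le s.1 z]) hτ.le two_ne_zero
  have h3 : Phi =ᶠ[𝓝 (‖s.1 - z‖ ^ 2 * (τ ^ 2)⁻¹)] fun _ => 0 :=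
    (lt_mem_nhds h2).mono fun t ht => Phi_of_ge ht.le
  simp only [rm, h3.deriv_eq, deriv_const, mul_zero, zero_mul]

end Rm

/-- the remainder is small at some scale -/
theorem exists_rm_le (hMon2 : Mon2Stmt) (hM : Injective M.x) (hu : M.Sm u) (hS : M.Sheet C u)
    (p q' : X) {ρ σ1 σ2 δ : ℝ} (hρ : 0 < ρ) (h1 : 0 < σ1) (h2 : σ1 < σ2)
    (h : Real.exp (C * (σ2 * ρ)) * M.gTh u (M.gx u q') (σ2 * ρ) ≤ (1 + δ) * cPhi d) :
    ∃ τ ∈ Icc σ1 σ2, bl M u ρ (fun q => rm ((ry M u p ρ q', (τ ^ 2)⁻¹), ry M u p ρ q, M.nuv u q)) ≤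
      δ * (cPhi d * σ2 ^ (d + 3) / (σ2 - σ1)) := by
  have a1 : 0 < σ1 * ρ := mul_pos h1 hρ
  have a2 : σ1 * ρ ≤ σ2 * ρ := mul_le_mul_of_nonneg_right h2.le hρ.le
  have hc := (Mn.continuousOn_Rem (M.graph u hu) (M.gx u q') a1).mono
    (Icc_subset_Ici_self : Icc _ (σ2 * ρ) ⊆ _)
  obtain ⟨t, ht, hmin⟩ := isCompact_Icc.exists_isMinOn (nonempty_Icc.2 a2) hc
  have b1 := intervalIntegral.integral_mono_on a2 intervalIntegrable_const
    (hc.intervalIntegrable_of_Icc (μ := volume) a2) fun s hs => hmin hs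
  have b2 := (hMon2 d _ X (M.graph u hu) inferInstance C (graph_Hv_le hu hS)).1 (M.gx u q') _ _ a1 a2
  rw [Imm.graph_Th hu, Imm.graph_Th hu] at b2
  have b3 := gTh_low hMon2 hM hu hS q' a1
  rw [intervalIntegral.integral_const, smul_eq_mul] at b1
  have b4 : (σ2 * ρ - σ1 * ρ) * Mn.Rem (M.graph u hu) (M.gx u q') t ≤ δ * cPhi d := by
    have : ∫ s in σ1 * ρ..σ2 * ρ, Mn.Rem (M.graph u hu) (M.gx u q') s ≤ δ * cPhi d := by
      simp only [Mn.Rem]; linarith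
    linarith
  have ht0 : 0 < t := a1.trans_le ht.1
  have b5 := Mn.Rem_nonneg (M.graph u hu) (M.gx u q') ht0.le
  obtain ⟨τ, rfl⟩ : ∃ τ, t = τ * ρ := ⟨t / ρ, by field_simp⟩
  have hτ : τ ∈ Icc σ1 σ2 := ⟨le_of_mul_le_mul_right ht.1 hρ, le_of_mul_le_mul_right ht.2 hρ⟩
  have hτ0 : 0 < τ := h1.trans_le hτ.1
  refine ⟨τ, hτ, ?_⟩
  have hx := (Imm.sm_gx hu).continuous
  have b6 : bl M u ρ (fun q => rm ((ry M u p ρ q', (τ ^ 2)⁻¹), ry M u p ρ q, M.nuv u q)) ≤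
      ρ * Mn.Rem (M.graph u hu) (M.gx u q') (τ * ρ) * τ ^ (d + 3) := by
    refine (bl_mono hu hρ (continuous_rm.comp (continuous_const.prodMk
      ((continuous_ry hu p ρ).prodMk hu.nuv.continuous))) (g := fun q => (ρ ^ 2)⁻¹ * (-2 * deriv Phi
        (‖M.gx u q - M.gx u q'‖ ^ 2 / (τ * ρ) ^ 2) * (M.graph u hu).perp (M.gx u q') q))
      (continuous_const.mul ((continuous_const.mul (Mn.continuous_dPhi.comp (by fun_prop))).mul
        (Mn.continuous_perp _ _))) fun q => ?_).trans_eq ?_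
    · simp only [comp_apply, rm, ry_sub, norm_ry hρ]
      rw [ry, inner_smul_left, conj_trivial, mul_pow, inv_pow, mul_left_comm,
        show (‖M.gx u q - M.gx u q'‖ / ρ) ^ 2 * (τ ^ 2)⁻¹ = ‖M.gx u q - M.gx u q'‖ ^ 2 / (τ * ρ) ^ 2
          by field_simp]
      exact mul_le_mul_of_nonneg_left (mul_le_mul_of_nonneg_left (sq_inner_le_perp hu _ q)
        (mul_nonneg_of_nonpos_of_nonpos (by norm_num) (Mn.deriv_Phi_nonpos _))) (by positivity)
    · rw [bl_const_mul, bl, Mn.Rem, Imm.graph_mu, Imm.graph_x]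
      field_simp
      ring
  refine b6.trans ?_
  rw [← mul_div_assoc, le_div_iff₀ (sub_pos.2 h2)]
  have b7 := mul_le_mul b4 (pow_le_pow_left₀ hτ0.le hτ.2 (d + 3)) (by positivity)
    ((mul_nonneg (sub_nonneg.2 a2) b5).trans b4)
  linarith

end One

theorem exists_rat_scale {a : ℝ} (ha : 0 < a) : ∃ σ1 σ2 : ℚ, (0 : ℝ) < σ1 ∧ (σ1 : ℝ) < σ2 ∧
    ∀ τ ∈ Icc (σ1 : ℝ) σ2, deriv Phi (a ^ 2 * (τ ^ 2)⁻¹) ≠ 0 := by
  obtain ⟨s, hs, h⟩ := exists_deriv_eq_slope Phi one_half_lt_one continuous_Phi.continuousOn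
    (fun s _ => (Mn.hasDerivAt_Phi s).differentiableAt.differentiableWithinAt)
  have hs0 : 0 < s := one_half_pos.trans hs.1
  have h0 : 0 < a / √s := by positivity
  have h1 : ContinuousAt (fun τ : ℝ => deriv Phi (a ^ 2 * (τ ^ 2)⁻¹)) (a / √s) :=
    Mn.continuous_dPhi.continuousAt.comp
      (continuousAt_const.mul ((continuousAt_id.pow 2).inv₀ (pow_pos h0 2).ne'))
  have h2 := h1.eventually_ne (y := 0) (by
    rw [div_pow, Real.sq_sqrt hs0.le, show a ^ 2 * (a ^ 2 / s)⁻¹ = s by field_simp, h,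
      Phi_of_ge le_rfl, Phi_of_le le_rfl]
    norm_num)
  obtain ⟨l, v, hl, h3⟩ := mem_nhds_iff_exists_Ioo_subset.1 (h2.and (lt_mem_nhds h0))
  obtain ⟨σ1, a1, a2⟩ := exists_rat_btwn hl.1
  obtain ⟨σ2, a3, a4⟩ := exists_rat_btwn hl.2
  exact ⟨σ1, σ2, (h3 ⟨a1, a2.trans hl.2⟩).2, a2.trans a3,
    fun τ hτ => (h3 ⟨a1.trans_le hτ.1, hτ.2.trans_lt a4⟩).1⟩

/-- density almost one at all points and scales: the limit is a cone from every point -/
theorem Out.cone {𝒰 : Ultrafilter ℕ} {u : ℕ → X → ℝ} {p : ℕ → X} {r : ℕ → ℝ} {p0 : X}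
    {L : Y d →ₗᵢ[ℝ] E (Option ι)} {V : Measure (Y d × Y d)} (O : Out M 𝒰 u p r p0 L V)
    (hMon2 : Mon2Stmt) (hM : Injective M.x) (hu : ∀ j, M.Sm (u j)) (hS : ∀ j, M.Sheet C (u j))
    {C' : ℝ} (hA : ∀ j, Area M C' (u j)) (hr : Tendsto r 𝒰 (𝓝[>] 0)) {δ : ℕ → ℝ}
    (hδ : Tendsto δ 𝒰 (𝓝 0)) (h : ∀ R, 0 < R → ∀ᶠ j in (𝒰 : Filter ℕ), ∀ q,
      ‖ry M (u j) (p j) (r j) q‖ ≤ R → ∀ σ, 0 < σ → σ ≤ R → Real.exp (C * (σ * r j)) *
        M.gTh (u j) (M.gx (u j) q) (σ * r j) ≤ (1 + δ j) * cPhi d)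
    (y : Y d) (hy : InSupp V y) : ∀ᵐ q ∂V, ⟪q.1 - y, q.2⟫ = 0 := by
  obtain ⟨q', hq'⟩ := O.supp y hy
  have key : ∀ σ1 σ2 : ℝ, 0 < σ1 → σ1 < σ2 → ∃ τ ∈ Icc σ1 σ2,
      ∀ᵐ q ∂V, rm ((y, (τ ^ 2)⁻¹), q) = 0 := fun σ1 σ2 h1 h2 => by
    have hz := hq'.norm.eventually_le_const (lt_add_one _)
    have h3 : ∀ j, ∃ τ ∈ Icc σ1 σ2, 0 < r j → Real.exp (C * (σ2 * r j)) *
        M.gTh (u j) (M.gx (u j) (q' j)) (σ2 * r j) ≤ (1 + δ j) * cPhi d →
        bl M (u j) (r j) (fun q => rm ((ry M (u j) (p j) (r j) (q' j), (τ ^ 2)⁻¹),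
          ry M (u j) (p j) (r j) q, M.nuv (u j) q)) ≤ δ j * (cPhi d * σ2 ^ (d + 3) / (σ2 - σ1)) :=
      fun j => by
        by_cases a : 0 < r j ∧ Real.exp (C * (σ2 * r j)) *
          M.gTh (u j) (M.gx (u j) (q' j)) (σ2 * r j) ≤ (1 + δ j) * cPhi d
        · obtain ⟨τ, b1, b2⟩ := exists_rm_le hMon2 hM (hu j) (hS j) (p j) (q' j) a.1 h1 h2 a.2
          exact ⟨τ, b1, fun _ _ => b2⟩
        · exact ⟨σ1, left_mem_Icc.2 h2.le, fun b1 b2 => (a ⟨b1, b2⟩).elim⟩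
    choose τ hτ h3 using h3
    obtain ⟨τ0, hτ0, h4⟩ := (isCompact_Icc (a := σ1) (b := σ2)).ultrafilter_le_nhds (𝒰.map τ)
      (le_principal_iff.2 (mem_map.2 (univ_mem' hτ)))
    have h4 : Tendsto τ 𝒰 (𝓝 τ0) := h4
    have h5 : 0 < τ0 := h1.trans_le hτ0.1
    have h6 := O.move hu hA hr continuous_rm (hq'.prodMk_nhds ((h4.pow 2).inv₀ (pow_pos h5 2).ne'))
      (‖L y‖ + 1 + σ2) (hz.mono fun j hj => rm_far (h1.trans_le (hτ j).1) (hτ j).2 hj)
      (rm_far h5 hτ0.2 (le_add_of_nonneg_right one_pos.le))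
    have h7 : ∀ q : Y d × Y d, rm ((L y, (τ0 ^ 2)⁻¹), L q.1, L q.2) = rm ((y, (τ0 ^ 2)⁻¹), q) :=
      fun q => by simp only [rm, ← L.map_sub, L.norm_map, L.inner_map_map]
    simp only [h7] at h6
    have h8 := le_of_tendsto_of_tendsto h6 (hδ.mul_const _) (by
      filter_upwards [ev_pos hr, hz, h (‖L y‖ + 1 + σ2) (by linarith [norm_nonneg (L y)])]
        with j a1 a2 a3
      exact h3 j a1 (a3 _ (by linarith) σ2 (h1.trans h2) (by linarith [norm_nonneg (L y)])))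
    rw [zero_mul] at h8
    exact ⟨τ0, hτ0, (integral_eq_zero_iff_of_nonneg (fun q => rm_nonneg _)
      (O.lim.integrable (continuous_rm.comp (Continuous.prodMk_right _)) _
        (rm_far h5 hτ0.2 le_rfl))).1 (h8.antisymm (integral_nonneg fun q => rm_nonneg _))⟩
  have key2 : ∀ σ : ℚ × ℚ, ∀ᵐ q ∂V, (0 : ℝ) < σ.1 → (σ.1 : ℝ) < σ.2 →
      ∃ τ ∈ Icc (σ.1 : ℝ) σ.2, rm ((y, (τ ^ 2)⁻¹), q) = 0 := fun σ => by
    by_cases a : (0 : ℝ) < σ.1 ∧ (σ.1 : ℝ) < σ.2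
    · obtain ⟨τ, b1, b2⟩ := key _ _ a.1 a.2
      exact b2.mono fun q hq _ _ => ⟨τ, b1, hq⟩
    · exact .of_forall fun q b1 b2 => (a ⟨b1, b2⟩).elim
  filter_upwards [ae_all_iff.2 key2] with q hq
  rcases eq_or_ne (q.1 - y) 0 with h0 | h0
  · rw [h0, inner_zero_left]
  obtain ⟨σ1, σ2, a1, a2, a3⟩ := exists_rat_scale (norm_pos_iff.2 h0)
  obtain ⟨τ, b1, b2⟩ := hq (σ1, σ2) a1 a2
  simpa [rm, a3 τ b1] using b2

end EP
open EP

theorem w (hMon : MonStmt) (hMon2 : Mon2Stmt) (hS : SheetStmt) (hSim : SimStmt) (hCal : CalStmt)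
    (hB : BlowStmt) (h3 : LV3Stmt) : WStmt := by
  intro d ι _ _ X _ _ _ _ _ _ M F hM hF Λ
  by_contra hc
  push Not at hc
  choose u hu y r h0 hr hf q0 hq0 hK using fun j : ℕ =>
    hc (1 / ((j : ℝ) + 1)) (16 * ((j : ℝ) + 1) ^ 2) (by positivity)
  have hu' := fun j => (hu j).sm
  choose p ρ hρ h1 hρr hb using fun j : ℕ => pick (hu' j) (by positivity) (hq0 j) (hK j)
  have hj : ∀ j : ℕ, ρ j ≤ (j + 1) * ρ j := fun j =>
    le_mul_of_one_le_left (hρ j).le (by linarith [j.cast_nonneg (α := ℝ)])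
  have hρ' := tendsto_hyper hρ fun j => ((hj j).trans (hρr j)).trans (hr j)
  obtain ⟨p0, L, V, O⟩ := exists_out hB hM hF (hyperfilter ℕ) p hu hρ'
  obtain ⟨C, hC, hS⟩ := hS d ι X M F hM hF Λ
  obtain ⟨C', -, hA⟩ := hCal d ι X M F hM hF Λ
  obtain ⟨κ, C'', hκ, hC'', hY⟩ := hSim d ι X M F hM hF Λ
  have hS' := fun j => hS _ (hu j)
  have hA' : ∀ j, Area M C' (u j) := fun j => (hA _ (hu j)).2.1
  have hle : (hyperfilter ℕ : Filter ℕ) ≤ atTop := Nat.cofinite_eq_atTop ▸ hyperfilter_le_cofinite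
  have hδ : Tendsto (fun j : ℕ => Real.exp (C * (1 / ((j : ℝ) + 1))) * (1 + 1 / ((j : ℝ) + 1)) - 1)
      (hyperfilter ℕ) (𝓝 0) := by
    have a := (tendsto_one_div_add_atTop_nhds_zero_nat (𝕜 := ℝ)).mono_left hle
    simpa using ((a.const_mul C).rexp.mul (a.const_add 1)).sub_const 1
  have hd : ∀ (j : ℕ) q, ‖M.gx (u j) q - M.gx (u j) (p j)‖ ≤ (j + 1) * ρ j → ∀ t, 0 < t →
      t ≤ (j + 1) * ρ j → Real.exp (C * t) * M.gTh (u j) (M.gx (u j) q) t ≤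
        (1 + (Real.exp (C * (1 / ((j : ℝ) + 1))) * (1 + 1 / ((j : ℝ) + 1)) - 1)) * cPhi d :=
    fun j q hq t ht ht' => by
      rw [add_sub_cancel, mul_assoc]
      exact (gTh_mono hMon2 (hu' j) (hS' j) _ ht (ht'.trans (hρr j))).trans (mul_le_mul
        (Real.exp_le_exp.2 (mul_le_mul_of_nonneg_left (hr j) hC)) (hf j q (hb j q hq).2)
        (gTh_nonneg (h0 j) _) (Real.exp_pos _).le)
  obtain ⟨e, he, hV⟩ := h3 d V O.lim (O.cone hMon2 hM hu' hS' hA' hρ' hδ fun R hR => by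
    filter_upwards [((tendsto_natCast_atTop_atTop (R := ℝ)).mono_left hle).eventually_ge_atTop R]
      with j a q hq σ b1 b2
    exact hd j q ((norm_ry_le (hρ j)).1 (hq.trans (by linarith))) _ (mul_pos b1 (hρ j))
      (mul_le_mul_of_nonneg_right (by linarith) (hρ j).le))
  obtain ⟨K, hE⟩ := energy_le M C
  obtain ⟨K', hV'⟩ := mv_a2 hMon hMon2 hM C C''
  have hz : Tendsto ρ (hyperfilter ℕ) (𝓝 0) := hρ'.mono_right nhdsWithin_le_nhds
  have h4 := O.move hu' hA' hρ'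
    (G := fun s => (√(1 - ⟪s.2.2, L e⟫ ^ 2) + s.1) * Phi (‖s.2.1‖ ^ 2)) (by fun_prop) hz 1
    (.of_forall fun j s hs => by simp only [Phi_of_ge (one_le_pow₀ hs.le), mul_zero])
    fun s hs => by simp only [Phi_of_ge (one_le_pow₀ hs.le), mul_zero]
  rw [integral_congr_ae (g := fun _ => 0) (by
    filter_upwards [hV] with q hq
    rcases hq with hq | hq <;> simp [hq, L.inner_map_map, real_inner_self_eq_norm_sq, he]),
    integral_zero] at h4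
  have h5 := le_of_tendsto_of_tendsto ((hz.const_mul K').const_sub (cPhi d / 2))
    (h4.const_mul (10 ^ d * K)) (by
      filter_upwards [ev_mul_le hρ' 1 one_pos, hδ.eventually_le_const one_pos] with j a1 a2
      rw [one_mul] at a1
      have a3 := fun q (hq : ‖M.gx (u j) q - M.gx (u j) (p j)‖ < ρ j) =>
        (hb j q (hq.le.trans (hj j))).1
      obtain ⟨Z, hZ⟩ := hY _ (hu j)
      have a4 := hV' _ κ Z (p j) _ (hu' j) (hS' j) hZ (by linarith) hC'' (hρ j) a1 a3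
        fun t ht ht' => (le_mul_of_one_le_left (gTh_nonneg ht _) (Real.one_le_exp (by positivity))).trans
          ((hd j (p j) (by simpa using (hρ j).le.trans (hj j)) t ht (ht'.trans (hj j))).trans
            (mul_le_mul_of_nonneg_right (by linarith) (cPhi_pos d).le))
      have a5 := div_le_div_of_nonneg_right (hE _ (p j) _ (L e) (hu' j) (hS' j) (hρ j) a1
        (by rw [L.norm_map, he]) a3) (pow_pos (by linarith [hρ j] : 0 < ρ j / 10) d).le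
      rw [h1, bl, ← mul_div_assoc] at a4
      refine le_trans (by linarith) (a5.trans_eq ?_)
      simp only [bl, ph, norm_ry (hρ j), div_pow]
      field_simp)
  linarith [cPhi_pos d]

end Crest.Agent.N222

end
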