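import Crest.Agent.N222.B.E2

/-!
# Row 222, part B, ε-regularity block: W2 (the normal is almost constant)
-/

set_option autoImplicit false
set_option linter.unusedSectionVars false
open MeasureTheory Set Filter Topology Function Metric
open scoped ContDiff InnerProductSpace RealInnerProductSpace

noncomputable section

namespace Crest.Agent.N222
open EP

variable {d : ℕ} {ι : Type} [Fintype ι] [DecidableEq ι] {X : Type} [TopologicalSpace X]
  [T2Space X] [SecondCountableTopology X] [MeasurableSpace X] [BorelSpace X] [CompactSpace X]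
  {M : Imm d ι X}

namespace W2
variable {u : X → ℝ} {C : ℝ}

theorem step1 (hMon : MonStmt) (hMon2 : Mon2Stmt) (hM : Injective M.x) (hu : M.Sm u)
    (hS : M.Sheet C u) (p : X) {ρ A Θ : ℝ} (hρ : 0 < ρ)
    (hA : ∀ q, ‖M.gx u q - M.gx u p‖ < ρ → √(M.a2 u q) ≤ A)
    (hΘ : ∀ t, 0 < t → t ≤ ρ → M.gTh u (M.gx u p) t ≤ Θ) :
    bl M u ρ (fun q => ‖M.nuv u q - M.nuv u p‖ ^ 2 * ph M u (M.gx u p) ρ q) ≤
      4 * Θ - 4 * cPhi d +
        2 * ((Fintype.card (Option ι) * (Fintype.card (Option ι) * (A + C)) + 2 * C) * Θ * ρ) := by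
  have hC : 0 ≤ C := (norm_nonneg _).trans (hS.H p)
  have hA0 : 0 ≤ A := (Real.sqrt_nonneg _).trans (hA p (by simpa using hρ))
  have hn := Imm.norm_nuv hu
  have hi := sm_inner_nuv hu (M.nuv u p)
  have hv : M.Sm fun q => 1 + ⟪M.nuv u q, M.nuv u p⟫ := (Imm.sm_const 1).add hi
  have hb : ∀ q, |⟪M.nuv u q, M.nuv u p⟫| ≤ 1 := fun q => by
    simpa only [hn, mul_one] using abs_real_inner_le_norm (M.nuv u q) (M.nuv u p)
  have h1 := g_mean_value hMon hMon2 hM hu hS hv (fun q => by linarith [abs_le.1 (hb q)]) p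
    (B := 2) (K := Fintype.card (Option ι) * (Fintype.card (Option ι) * (A + C))) hρ
    (by positivity) (fun q _ => by linarith [abs_le.1 (hb q)]) hΘ fun t ht htρ =>
      (le_abs_self _).trans (abs_int_D_ps_le hu ht fun q hq a => by
        have e : (M.gS u).D a (fun q => 1 + ⟪M.nuv u q, M.nuv u p⟫) q =
            (M.gS u).D a (fun q => ⟪M.nuv u q, M.nuv u p⟫) q := by
          rw [← Imm.graph_pre hu, Imm.D_add (g_diffAt hu (Imm.sm_const 1) q) (g_diffAt hu hi q),
            Imm.D_const, zero_add]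
        rw [e, D_inner_nuv hu]
        refine (Finset.abs_sum_le_sum_abs _ _).trans ((Finset.sum_le_card_nsmul _ _ (A + C)
          fun c _ => ?_).trans_eq (by rw [nsmul_eq_mul, Finset.card_univ]))
        rw [abs_mul]
        refine (mul_le_of_le_one_left (abs_nonneg _)
          ((PiLp.norm_apply_le (M.nuv u p) c).trans_eq (hn p))).trans
          ((abs_D_nu_le hS a c q).trans ?_)
        linarith [hA q (hq.trans_le htρ)])
  have hp := (sm_ph hu (M.gx u p) ρ).continuous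
  have e : (fun q => ‖M.nuv u q - M.nuv u p‖ ^ 2 * ph M u (M.gx u p) ρ q) = fun q =>
      4 * ph M u (M.gx u p) ρ q - 2 * ((1 + ⟪M.nuv u q, M.nuv u p⟫) * ph M u (M.gx u p) ρ q) := by
    funext q
    rw [norm_sub_sq_real, hn, hn]
    ring
  rw [real_inner_self_eq_norm_sq, hn] at h1
  rw [e, bl_sub hu (continuous_const.fun_mul hp)
    (continuous_const.fun_mul (hv.continuous.fun_mul hp)), bl_const_mul, bl_const_mul]
  have h2 : bl M u ρ (ph M u (M.gx u p) ρ) ≤ Θ := hΘ ρ hρ le_rfl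
  linarith

theorem step2 (hMon2 : Mon2Stmt) (hM : Injective M.x) (hu : M.Sm u) (hS : M.Sheet C u) {p p' : X}
    {ρ e : ℝ} (hρ : 0 < ρ) (h : ‖M.gx u p - M.gx u p'‖ ≤ ρ / 4)
    (h1 : bl M u ρ (fun q => ‖M.nuv u q - M.nuv u p‖ ^ 2 * ph M u (M.gx u p) ρ q) ≤ e)
    (h2 : bl M u ρ (fun q => ‖M.nuv u q - M.nuv u p'‖ ^ 2 * ph M u (M.gx u p') ρ q) ≤ e) :
    ‖M.nuv u p - M.nuv u p'‖ ^ 2 * cPhi d ≤ Real.exp (C * (ρ / 4)) * (4 ^ d * (4 * e)) := by
  have h4 : 0 < ρ / 4 := by positivity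
  have hc := hu.nuv.continuous
  have hp := fun y t => (sm_ph hu y t).continuous
  have c1 : ∀ p, Continuous fun q => ‖M.nuv u q - M.nuv u p‖ ^ 2 * ph M u (M.gx u p) ρ q :=
    fun p => ((hc.sub continuous_const).norm.pow 2).mul (hp _ _)
  have h3 := bl_mono (r := ρ) hu hρ (continuous_const.mul (hp (M.gx u p) (ρ / 4)))
    ((continuous_const.mul (c1 p)).add (continuous_const.mul (c1 p')))
    (f := fun q => ‖M.nuv u p - M.nuv u p'‖ ^ 2 * ph M u (M.gx u p) (ρ / 4) q)
    (g := fun q => 2 * (‖M.nuv u q - M.nuv u p‖ ^ 2 * ph M u (M.gx u p) ρ q) +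
      2 * (‖M.nuv u q - M.nuv u p'‖ ^ 2 * ph M u (M.gx u p') ρ q)) fun q => by
      by_cases h0 : ph M u (M.gx u p) (ρ / 4) q = 0
      · rw [h0, mul_zero]
        exact add_nonneg (mul_nonneg zero_le_two (mul_nonneg (sq_nonneg _) (Phi_nonneg _)))
          (mul_nonneg zero_le_two (mul_nonneg (sq_nonneg _) (Phi_nonneg _)))
      have a1 := lt_of_ph_ne h4 h0
      have a2 := norm_sub_le_norm_sub_add_norm_sub (M.gx u q) (M.gx u p) (M.gx u p')
      have a3 := norm_sub_le_norm_sub_add_norm_sub (M.nuv u p) (M.nuv u q) (M.nuv u p')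
      rw [norm_sub_rev (M.nuv u p) (M.nuv u q)] at a3
      rw [show ph M u (M.gx u p) ρ q = 1 from Phi_ball_one hρ (by linarith),
        show ph M u (M.gx u p') ρ q = 1 from Phi_ball_one hρ (by linarith)]
      refine (mul_le_of_le_one_right (sq_nonneg _) (Phi_le_one _)).trans ?_
      nlinarith [pow_le_pow_left₀ (norm_nonneg _) a3 2,
        sq_nonneg (‖M.nuv u q - M.nuv u p‖ - ‖M.nuv u q - M.nuv u p'‖)]
  rw [bl_add hu (continuous_const.fun_mul (c1 p)) (continuous_const.fun_mul (c1 p')),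
    bl_const_mul, bl_const_mul, bl_const_mul, bl, integral_ph h4, div_pow, mul_div_assoc, div_right_comm,
    div_self (pow_pos hρ d).ne', mul_one_div, ← mul_div_assoc, div_le_iff₀ (by positivity)] at h3
  refine (mul_le_mul_of_nonneg_left (gTh_low hMon2 hM hu hS p h4) (sq_nonneg _)).trans ?_
  rw [mul_left_comm]
  refine mul_le_mul_of_nonneg_left (h3.trans ?_) (Real.exp_pos _).le
  rw [mul_comm]
  gcongr
  linarith

end W2

theorem w2 (hMon : MonStmt) (hMon2 : Mon2Stmt) (hS : SheetStmt) (hW : WStmt) : W2Stmt := by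
  intro d ι _ _ X _ _ _ _ _ _ M F hM hF Λ η hη
  obtain ⟨C, hC, hS⟩ := hS d ι X M F hM hF Λ
  obtain ⟨ε0, C0, hε0, hW⟩ := hW d ι X M F hM hF Λ
  have hc := cPhi_pos d
  set N : ℝ := (Fintype.card (Option ι) : ℝ) with hN
  have hN0 : 0 ≤ N := Nat.cast_nonneg _
  let Θ : ℝ → ℝ := fun s => Real.exp (C * s) * ((1 + s) * cPhi d)
  let e : ℝ → ℝ := fun s =>
    4 * Θ s - 4 * cPhi d + 2 * ((N * (N * (√C0 + C)) + 2 * C) * s * Θ s)
  have h0 : Continuous fun s => Real.exp (C * s) * (4 ^ d * (4 * e s)) := by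
    simp only [e, Θ]; fun_prop
  have h1 := ((h0.tendsto' 0 0 (by simp [e, Θ])).eventually
    (ge_mem_nhds (show 0 < η ^ 2 * cPhi d by positivity))).filter_mono
    (nhdsWithin_le_nhds (s := Ioi 0))
  obtain ⟨s, hs, hs0, hs1⟩ := (h1.and (Ioc_mem_nhdsGT
    (lt_min hε0 (show (0 : ℝ) < 1 / 4 by norm_num)))).exists
  obtain ⟨hs1, hs2⟩ := le_min_iff.1 hs1
  refine ⟨s, s / 8, C0, hs0, by positivity, fun u hu y r hr hrs hfl => ?_⟩
  have hsr : s * r ≤ r / 4 := by nlinarith
  have hsr0 : 0 < s * r := by positivity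
  have hW := hW u hu y r hr (hrs.trans hs1) fun q hq => (hfl q hq).trans (by gcongr)
  have key : ∀ p, ‖M.gx u p - y‖ < s / 8 * r → bl M u (s * r) (fun q =>
      ‖M.nuv u q - M.nuv u p‖ ^ 2 * ph M u (M.gx u p) (s * r) q) ≤ e s := fun p hp => by
    have hΘ : ∀ t, 0 < t → t ≤ s * r → M.gTh u (M.gx u p) t ≤ Θ s := fun t ht htr =>
      (le_mul_of_one_le_left (gTh_nonneg ht _) (Real.one_le_exp (by positivity))).trans
        ((gTh_mono hMon2 hu.sm (hS u hu) _ ht (show t ≤ r by linarith)).trans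
          (mul_le_mul (by gcongr) (hfl p (by linarith)) (gTh_nonneg hr _) (Real.exp_pos _).le))
    refine (W2.step1 hMon hMon2 hM hu.sm (hS u hu) p (A := √C0 / r) hsr0 (fun q hq => ?_)
      hΘ).trans ?_
    · have := Real.sqrt_le_sqrt (hW q (by
        linarith [norm_sub_le_norm_sub_add_norm_sub (M.gx u q) (M.gx u p) y]))
      rwa [Real.sqrt_mul (sq_nonneg r), Real.sqrt_sq hr.le, ← le_div_iff₀' hr] at this
    · have a0 : 0 ≤ Θ s := by positivity
      have a1 : (N * (N * (√C0 / r + C)) + 2 * C) * (s * r) ≤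
          (N * (N * (√C0 + C)) + 2 * C) * s := by
        have : (N * (N * (√C0 / r + C)) + 2 * C) * (s * r) =
            (N * (N * (√C0 + C * r)) + 2 * (C * r)) * s := by field_simp
        have a2 : C * r ≤ C := mul_le_of_le_one_right hC (by linarith)
        rw [this]
        gcongr
      have a2 := mul_le_mul_of_nonneg_right a1 a0
      simp only [e]
      linarith
  intro q q' hq hq'
  refine ⟨hW q (by linarith), le_of_sq_le_sq (le_of_mul_le_mul_right ?_ hc) hη.le⟩
  have h2 := W2.step2 hMon2 hM hu.sm (hS u hu) hsr0 (by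
    linarith [norm_sub_le_norm_sub_add_norm_sub (M.gx u q) y (M.gx u q'),
      norm_sub_rev y (M.gx u q')]) (key q hq) (key q' hq')
  have h3 : 0 ≤ e s := (bl_nonneg hsr0 fun x => mul_nonneg (sq_nonneg _) (Phi_nonneg _)).trans
    (key q hq)
  refine h2.trans (le_trans ?_ hs)
  gcongr
  linarith

end Crest.Agent.N222

end
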