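import Crest.Agent.N222.B.Pic

/-!
# Row 222, part B: the form inequality with a positive weight (helper38)
-/

set_option autoImplicit false
set_option linter.unusedSectionVars false
open MeasureTheory Set Filter Topology Function Metric
open scoped ContDiff InnerProductSpace RealInnerProductSpace

noncomputable section

namespace Crest.Agent.N222

namespace Wg

variable {d : ℕ} {ι : Type} [Fintype ι] [DecidableEq ι] {X : Type} [TopologicalSpace X]
  {M : Imm d ι X} {z F : X → ℝ}

theorem sm_half (hF : M.Sm F) : M.Sm fun q => Real.exp (-(1 / 2) * F q) :=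
  ((Imm.sm_const _).mul hF).exp

theorem D_tilt (hz : M.Sm z) (hF : M.Sm F) (a : ι) (p : X) :
    M.pre.D a (fun q => z q * Real.exp (-(1 / 2) * F q)) p =
      (M.pre.D a z p - z p * M.pre.D a F p / 2) * Real.exp (-(1 / 2) * F p) := by
  have h1 : HasDerivAt (fun t : ℝ => Real.exp (-(1 / 2) * t))
      (Real.exp (-(1 / 2) * F p) * (-(1 / 2) * 1)) (F p) :=
    ((hasDerivAt_id (F p)).const_mul (-(1 / 2))).exp
  rw [Imm.D_mul (hz.diffAt p) ((sm_half hF).diffAt p), Imm.D_comp (hF.diffAt p) h1]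
  ring

theorem exp_half (t : ℝ) : Real.exp (-(1 / 2) * t) * Real.exp (-(1 / 2) * t) * Real.exp t = 1 := by
  rw [← Real.exp_add, ← Real.exp_add, show -(1 / 2) * t + -(1 / 2) * t + t = 0 by ring,
    Real.exp_zero]

end Wg

open Pc Wg in
/-- WEIGHT: the form inequality with a positive weight -/
theorem weight : WeightStmt := by
  intro d ι _ _ X _ _ _ _ _ M F G w hF hG hw h0 H z hz
  have hne : ∀ p, w p ≠ 0 := fun p => (h0 p).ne'
  have z0 : ∀ p, p ∉ tsupport z → z p = 0 := fun p hp => image_eq_zero_of_notMem_tsupport hp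
  have hy : M.Tst fun q => z q * Real.exp (-(1 / 2) * F q) :=
    ⟨hz.sm.mul (sm_half hF), hz.cs.mul_right⟩
  have H1 := H _ hy
  have e0 : ∀ p, (2 * M.pre.gam (fun q => z q * Real.exp (-(1 / 2) * F q))
      (fun q => z q * Real.exp (-(1 / 2) * F q)) p + (M.pre.EF F p - G p) *
      (z p * Real.exp (-(1 / 2) * F p)) ^ 2) * Real.exp (F p) =
      2 * (M.pre.gam z z p - z p * M.pre.gam z F p + z p ^ 2 * M.pre.gam F F p / 4) +
        (M.pre.EF F p - G p) * z p ^ 2 := by
    intro p
    have h1 : M.pre.gam (fun q => z q * Real.exp (-(1 / 2) * F q))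
        (fun q => z q * Real.exp (-(1 / 2) * F q)) p =
        (M.pre.gam z z p - z p * M.pre.gam z F p + z p ^ 2 * M.pre.gam F F p / 4) *
          (Real.exp (-(1 / 2) * F p) * Real.exp (-(1 / 2) * F p)) := by
      simp only [Imm.gam_apply, D_tilt hz.sm hF, Finset.mul_sum, Finset.sum_mul, Finset.sum_div,
        ← Finset.sum_sub_distrib, ← Finset.sum_add_distrib]
      exact Finset.sum_congr rfl fun a _ => by ring
    rw [h1]
    linear_combination (2 * (M.pre.gam z z p - z p * M.pre.gam z F p +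
      z p ^ 2 * M.pre.gam F F p / 4) + (M.pre.EF F p - G p) * z p ^ 2) * exp_half (F p)
  simp only [e0] at H1
  have hz2 : M.Sm fun q => z q ^ 2 := hz.sm.pow 2
  have hc2 : HasCompactSupport fun q => z q ^ 2 := by simpa using hcs_sq_mul hz.cs fun _ => 1
  have hf : M.Sm fun q => z q ^ 2 * (w q)⁻¹ := hz2.mul (hw.inv hne)
  have hc := hcs_sq_mul hz.cs fun q => (w q)⁻¹
  have e1 := Imm.integral_mul_lap hf.c1 hc hw
  have e2 := Imm.integral_mul_lap hz2.c1 hc2 hF
  have g1 : ∀ p, M.pre.gam (fun q => z q ^ 2 * (w q)⁻¹) w p =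
      2 * z p * M.pre.gam z w p / w p - z p ^ 2 * M.pre.gam w w p / w p ^ 2 := by
    intro p
    simp only [Imm.gam_apply, D_sq_div hz.sm hw hne, Finset.mul_sum, Finset.sum_div,
      ← Finset.sum_sub_distrib]
    exact Finset.sum_congr rfl fun a _ => by ring
  have g2 : ∀ p, M.pre.gam (fun q => z q ^ 2) F p = 2 * z p * M.pre.gam z F p := by
    intro p
    simp only [Imm.gam_apply, D_sq hz.sm, Finset.mul_sum]
    exact Finset.sum_congr rfl fun a _ => by ring
  have i0 : Integrable (fun p => 2 * (M.pre.gam z z p - z p * M.pre.gam z F p +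
      z p ^ 2 * M.pre.gam F F p / 4) + (M.pre.EF F p - G p) * z p ^ 2) M.mu :=
    Imm.integrable_of_support hz.cs (((Imm.sm_const 2).mul ((((hz.sm.gam hz.sm).sub
      (hz.sm.mul (hz.sm.gam hF))).add ((hz2.mul (hF.gam hF)).div (Imm.sm_const 4)
        fun _ => by norm_num)))).add ((hF.EF.sub hG).mul hz2)).continuous fun p hp => by
      simp [z0 p hp, gam_eq_zero z hp]
  have i1 : Integrable (fun p => z p ^ 2 * (w p)⁻¹ * M.pre.lap w p) M.mu :=
    Imm.integrable_of_support hz.cs (hf.mul hw.lap).continuous fun p hp => by simp [z0 p hp]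
  have i2 : Integrable (M.pre.gam (fun q => z q ^ 2 * (w q)⁻¹) w) M.mu :=
    Imm.integrable_of_support hz.cs (hf.gam hw).continuous fun p hp => by simp [g1, z0 p hp]
  have i3 : Integrable (fun p => z p ^ 2 * M.pre.lap F p) M.mu :=
    Imm.integrable_of_support hz.cs (hz2.mul hF.lap).continuous fun p hp => by simp [z0 p hp]
  have i4 : Integrable (M.pre.gam (fun q => z q ^ 2) F) M.mu :=
    Imm.integrable_of_support hz.cs (hz2.gam hF).continuous fun p hp => by simp [g2, z0 p hp]
  have i12 : Integrable (fun p => z p ^ 2 * (w p)⁻¹ * M.pre.lap w p +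
      M.pre.gam (fun q => z q ^ 2 * (w q)⁻¹) w p) M.mu := i1.add i2
  have i34 : Integrable (fun p => 2 * (z p ^ 2 * M.pre.lap F p +
      M.pre.gam (fun q => z q ^ 2) F p)) M.mu := (i3.add i4).const_mul 2
  have i14 : Integrable (fun p => (z p ^ 2 * (w p)⁻¹ * M.pre.lap w p +
      M.pre.gam (fun q => z q ^ 2 * (w q)⁻¹) w p) + 2 * (z p ^ 2 * M.pre.lap F p +
      M.pre.gam (fun q => z q ^ 2) F p)) M.mu := i12.add i34
  have e3 : ∫ p, (2 * (M.pre.gam z z p - z p * M.pre.gam z F p +
      z p ^ 2 * M.pre.gam F F p / 4) + (M.pre.EF F p - G p) * z p ^ 2 +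
      ((z p ^ 2 * (w p)⁻¹ * M.pre.lap w p + M.pre.gam (fun q => z q ^ 2 * (w q)⁻¹) w p) +
        2 * (z p ^ 2 * M.pre.lap F p + M.pre.gam (fun q => z q ^ 2) F p))) ∂M.mu =
      ∫ p, (2 * (M.pre.gam z z p - z p * M.pre.gam z F p +
        z p ^ 2 * M.pre.gam F F p / 4) + (M.pre.EF F p - G p) * z p ^ 2) ∂M.mu := by
    rw [integral_add i0 i14, integral_add i12 i34, integral_const_mul, integral_add i1 i2,
      integral_add i3 i4, e1, e2]
    simp
  refine H1.trans (e3.symm.trans_le ?_)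
  have hV : M.Sm fun q => G q - M.pre.lapF F w q / w q + M.pre.gam w w q / (2 * w q ^ 2) :=
    (hG.sub ((hF.lapF hw).div hw hne)).add ((hw.gam hw).div ((Imm.sm_const 2).mul (hw.pow 2))
      fun p => by have := hne p; positivity)
  refine integral_mono (i0.add i14)
    (Imm.integrable_of_support hz.cs
    (((Imm.sm_const 4).mul (hz.sm.gam hz.sm)).add ((M.sm_scal.sub hV).mul hz2)).continuous
    fun p hp => by simp [z0 p hp, gam_eq_zero z hp]) fun p => ?_
  have h3 : 0 ≤ ∑ a, (M.pre.D a z p - z p * (M.pre.D a F p + M.pre.D a w p / w p) / 2) ^ 2 :=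
    Finset.sum_nonneg fun a _ => sq_nonneg _
  have h4 : ∑ a, (M.pre.D a z p - z p * (M.pre.D a F p + M.pre.D a w p / w p) / 2) ^ 2 =
      M.pre.gam z z p - z p * M.pre.gam z F p - z p * M.pre.gam z w p / w p +
        z p ^ 2 * M.pre.gam F F p / 4 + z p ^ 2 * M.pre.gam F w p / (2 * w p) +
        z p ^ 2 * M.pre.gam w w p / (4 * w p ^ 2) := by
    simp only [Imm.gam_apply, Finset.mul_sum, Finset.sum_div, ← Finset.sum_sub_distrib,
      ← Finset.sum_add_distrib]
    refine Finset.sum_congr rfl fun a _ => ?_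
    have := hne p
    field_simp
    ring
  simp only [g1, g2, Imm.EF_apply, Imm.lapF_apply]
  rw [h4] at h3
  have h5 : 4 * M.pre.gam z z p + (M.pre.scal p - (G p - (M.pre.lap w p + M.pre.gam F w p) / w p +
      M.pre.gam w w p / (2 * w p ^ 2))) * z p ^ 2 =
      2 * (M.pre.gam z z p - z p * M.pre.gam z F p + z p ^ 2 * M.pre.gam F F p / 4) +
        (M.pre.scal p - 2 * M.pre.lap F p - M.pre.gam F F p - G p) * z p ^ 2 +
      ((z p ^ 2 * (w p)⁻¹ * M.pre.lap w p +
        (2 * z p * M.pre.gam z w p / w p - z p ^ 2 * M.pre.gam w w p / w p ^ 2)) +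
        2 * (z p ^ 2 * M.pre.lap F p + 2 * z p * M.pre.gam z F p)) +
      2 * (M.pre.gam z z p - z p * M.pre.gam z F p - z p * M.pre.gam z w p / w p +
        z p ^ 2 * M.pre.gam F F p / 4 + z p ^ 2 * M.pre.gam F w p / (2 * w p) +
        z p ^ 2 * M.pre.gam w w p / (4 * w p ^ 2)) := by
    have := hne p
    field_simp
    ring
  rw [h5]
  linarith

end Crest.Agent.N222

end
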