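import Crest.Agent.N222.B.Ind
import Crest.Agent.N222.B.Blow
import Crest.Agent.N222.B.Box
import Crest.Agent.N222.B.Cal
import Crest.Agent.N222.B.Close
import Crest.Agent.N222.B.Dbl
import Crest.Agent.N222.B.Emb
import Crest.Agent.N222.B.Ess
import Crest.Agent.N222.B.FL
import Crest.Agent.N222.B.FL2
import Crest.Agent.N222.B.Gen
import Crest.Agent.N222.B.LV1
import Crest.Agent.N222.B.LV2
import Crest.Agent.N222.B.Mon2
import Crest.Agent.N222.B.Pic
import Crest.Agent.N222.B.QReg
import Crest.Agent.N222.B.Riesz
import Crest.Agent.N222.B.SSY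
import Crest.Agent.N222.B.Seq
import Crest.Agent.N222.B.Sheet
import Crest.Agent.N222.B.Shield
import Crest.Agent.N222.B.Sim
import Crest.Agent.N222.B.Step0
import Crest.Agent.N222.B.Tan
import Crest.Agent.N222.B.W
import Crest.Agent.N222.B.W2
import Crest.Agent.N222.B.Weight
import Crest.Agent.N222.L.AllHt
import Crest.Agent.N222.L.Conv
import Crest.Agent.N222.L.Cyl
import Crest.Agent.N222.L.Lim
import Crest.Agent.N222.L.Net
import Crest.Agent.N222.J.Main
import Crest.Agent.N222.J.Imm
import Crest.Agent.N222.J.LinA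

/-!
# Row 222, part B: assembly (helper10)
-/

namespace Crest.Agent.N222

theorem mon2' : Mon2Stmt := mon2 mon tan
theorem blow' : BlowStmt := blow tan mon2' sheet cal
theorem fl' : FLStmt := fl sheet cal blow' lv1 lv2
theorem fl2' : FL2Stmt := fl2 blow' lv1
theorem w' : WStmt := w mon mon2' sheet sim cal blow' lv3
theorem w2' : W2Stmt := w2 mon mon2' sheet w'
theorem ssy' : SSYStmt := ssy sim cal
theorem cyl' : CylStmt := cyl_of sheet mon2' cal
theorem net' : NetStmt := net_of w2' fl' ssy' cal
theorem box' : BoxStmt := box cyl' mon2' sheet qReg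
theorem allHt' : AllHtStmt := allHt_of cyl' box' fl2' w2'
theorem conv' : ConvStmt := conv_of cyl' net' box' allHt'
theorem lim' : LimStmt := lim_of net' conv' pic sheet
theorem shield' : ShieldStmt := shield gen riesz weight ess1 ess3

/-- **B** from the two solvers -/
theorem b_of_solvers (hJ : JangStmt) (hL : LinAStmt) : BStmt :=
  b_of (close dbl hL ess4) emb (seq hJ bar) step0 lim' ess2 shield'

/-- **B** -/
theorem b_all : BStmt := b_of_solvers (jang J.perron') linA

end Crest.Agent.N222
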