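import Crest.Agent.N222.B.Defs
import Crest.Agent.N222.F.Meas

/-!
# Row 222, part B: the monotonicity identity (helper85)
-/

set_option autoImplicit false
set_option linter.unusedSectionVars false
open MeasureTheory Set Filter Topology Function Metric
open scoped ContDiff InnerProductSpace RealInnerProductSpace

noncomputable section

namespace Crest.Agent.N222

namespace Mn

theorem contDiff_Phi : ContDiff ℝ ∞ Phi :=
  Real.smoothTransition.contDiff.comp (by fun_prop)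

theorem Phi_nonneg (s : ℝ) : 0 ≤ Phi s := Real.smoothTransition.nonneg _

theorem Phi_eq_zero {s : ℝ} (h : 1 ≤ s) : Phi s = 0 :=
  Real.smoothTransition.zero_of_nonpos (by linarith)

theorem deriv_Phi_nonpos (s : ℝ) : deriv Phi s ≤ 0 :=
  Antitone.deriv_nonpos fun _ _ h => Real.smoothTransition.monotone (by linarith)

theorem hasDerivAt_Phi (s : ℝ) : HasDerivAt Phi (deriv Phi s) s :=
  (contDiff_Phi.differentiable (by simp) s).hasDerivAt

theorem continuous_dPhi : Continuous (deriv Phi) := contDiff_Phi.continuous_deriv (by simp)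

theorem hasDerivAt_Psi (s : ℝ) : HasDerivAt Psi (-Phi s) s :=
  intervalIntegral.integral_hasDerivAt_left (contDiff_Phi.continuous.intervalIntegrable _ _)
    (contDiff_Phi.continuous.stronglyMeasurableAtFilter _ _) contDiff_Phi.continuous.continuousAt

variable {d : ℕ} {ι : Type} [Fintype ι] [DecidableEq ι] {X : Type} [TopologicalSpace X]
  [T2Space X] [SecondCountableTopology X] [MeasurableSpace X] [BorelSpace X] [CompactSpace X]
  (M : Imm d ι X)

theorem intg {f : X → ℝ} (hf : Continuous f) : Integrable f M.mu :=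
  hf.integrable_of_hasCompactSupport (HasCompactSupport.of_compactSpace f)

theorem sm_sq (y : E ι) (r : ℝ) : M.Sm fun q => ‖M.x q - y‖ ^ 2 / r ^ 2 :=
  M.sm_x.comp (g := fun w => ‖w - y‖ ^ 2 / r ^ 2)
    (((contDiff_norm_sq ℝ).comp (contDiff_id.sub contDiff_const)).div_const _)

theorem continuous_Hv : Continuous M.Hv :=
  (Imm.sm_euclid.2 fun c => M.sm_H c : M.Sm M.Hv).continuous

theorem continuous_perp (y : E ι) : Continuous (M.perp y) :=
  ((M.continuous_x.sub continuous_const).sub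
    (M.sm_PL.continuous.clm_apply (M.continuous_x.sub continuous_const))).norm.pow 2

theorem perp_eq (y : E ι) (p : X) :
    M.perp y p = ‖M.x p - y‖ ^ 2 - ⟪M.PL p (M.x p - y), M.x p - y⟫ := by
  rw [Imm.perp, norm_sub_sq_real, ← real_inner_self_eq_norm_sq (M.PL p _), M.PL_symm, M.PL_PL,
    M.PL_symm]
  ring

theorem D_ker {g : ℝ → ℝ} {g' : ℝ} (y : E ι) (r : ℝ) (p : X)
    (hg : HasDerivAt g g' (‖M.x p - y‖ ^ 2 / r ^ 2)) (a : ι) :
    M.pre.D a (fun q => g (‖M.x q - y‖ ^ 2 / r ^ 2)) p =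
      g' * (2 * M.PL p (M.x p - y) a / r ^ 2) := by
  rw [Imm.D_comp ((sm_sq M y r).diffAt p) hg]
  congr 1
  have h1 : M.DiffAt (fun q => ‖M.x q - y‖ ^ 2) p := by
    simpa using (sm_sq M y 1).diffAt p
  simp only [div_eq_inv_mul]
  rw [Imm.D_const_mul _ h1, Imm.D_normSq]

theorem inner_eq_sum (v w : E ι) : ⟪v, w⟫ = ∑ a, v a * w a := by
  simp [PiLp.inner_apply, mul_comm]

/-- first variation for the radial field -/
theorem first_var {v : X → ℝ} (hv : M.Sm v) (y : E ι) {r : ℝ} (hr : 0 < r) :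
    -(r ^ 2 / 2) * (∫ p, M.pre.gam v (fun q => Psi (‖M.x q - y‖ ^ 2 / r ^ 2)) p ∂M.mu)
      + (∫ p, v p * (-2 * deriv Phi (‖M.x p - y‖ ^ 2 / r ^ 2)) * (M.perp y p / r ^ 2) ∂M.mu)
      + ∫ p, v p * Phi (‖M.x p - y‖ ^ 2 / r ^ 2) * ⟪M.x p - y, M.Hv p⟫ ∂M.mu =
    (∫ p, v p * (-2 * deriv Phi (‖M.x p - y‖ ^ 2 / r ^ 2)) * (‖M.x p - y‖ ^ 2 / r ^ 2) ∂M.mu) -
      d * ∫ p, v p * Phi (‖M.x p - y‖ ^ 2 / r ^ 2) ∂M.mu := by
  have hs := sm_sq M y r
  have hP : M.Sm fun q => Phi (‖M.x q - y‖ ^ 2 / r ^ 2) := hs.comp contDiff_Phi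
  have hx : ∀ c, M.Sm fun q => M.x q c - y c := fun c => (M.sm_coord c).sub (Imm.sm_const _)
  have hZ : ∀ c, M.Sm fun q => v q * Phi (‖M.x q - y‖ ^ 2 / r ^ 2) * (M.x q c - y c) :=
    fun c => (hv.mul hP).mul (hx c)
  have h1 := Finset.sum_congr (rfl : (Finset.univ : Finset ι) = _) fun c _ =>
    Imm.integral_D (hZ c).c1 (HasCompactSupport.of_compactSpace _) c
  rw [Finset.sum_neg_distrib, ← integral_finsetSum _ fun c _ => intg M ((hZ c).D c).continuous,
    ← integral_finsetSum _ fun c _ => intg M ((M.sm_H c).mul (hZ c)).continuous] at h1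
  have h2 : ∀ p, ∑ c, M.pre.H c p * (v p * Phi (‖M.x p - y‖ ^ 2 / r ^ 2) * (M.x p c - y c)) =
      v p * Phi (‖M.x p - y‖ ^ 2 / r ^ 2) * ⟪M.x p - y, M.Hv p⟫ := by
    intro p
    rw [inner_eq_sum, Finset.mul_sum]
    exact Finset.sum_congr rfl fun c _ => by rw [mul_comm, mul_assoc]; rfl
  have hdP := continuous_dPhi.comp hs.continuous
  have h3 : ∀ p, ∑ c, M.pre.D c (fun q => v q * Phi (‖M.x q - y‖ ^ 2 / r ^ 2) * (M.x q c - y c)) p =
      d * (v p * Phi (‖M.x p - y‖ ^ 2 / r ^ 2)) +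
        -(r ^ 2 / 2) * M.pre.gam v (fun q => Psi (‖M.x q - y‖ ^ 2 / r ^ 2)) p +
        v p * (-2 * deriv Phi (‖M.x p - y‖ ^ 2 / r ^ 2)) * (M.perp y p / r ^ 2) -
        v p * (-2 * deriv Phi (‖M.x p - y‖ ^ 2 / r ^ 2)) * (‖M.x p - y‖ ^ 2 / r ^ 2) := by
    intro p
    have e1 : ∀ c, M.pre.D c (fun q => M.x q c - y c) p = M.pre.P c c p := fun c => by
      rw [Imm.D_sub ((M.sm_coord c).diffAt p) ((Imm.sm_const _).diffAt p), Imm.D_const, sub_zero]
      rfl
    have e2 : ∑ c, M.pre.D c v p * M.PL p (M.x p - y) c = ∑ c, M.pre.D c v p * (M.x p c - y c) := by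
      have := M.PL_symm p (M.grad v p) (M.x p - y)
      rw [Imm.PL_grad, inner_eq_sum, inner_eq_sum] at this
      exact this.symm
    simp only [fun c => Imm.D_mul ((hv.mul hP).diffAt p) ((hx c).diffAt p) c,
      Imm.D_mul (hv.diffAt p) (hP.diffAt p), e1, D_ker M y r p (hasDerivAt_Phi _),
      Imm.gam_apply, D_ker M y r p (hasDerivAt_Psi _), perp_eq, inner_eq_sum, PiLp.sub_apply,
      Finset.sum_add_distrib, ← Finset.mul_sum, M.tr_P, add_mul]
    have e3 : ∑ c, M.pre.D c v p * (-Phi (‖M.x p - y‖ ^ 2 / r ^ 2) *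
        (2 * M.PL p (M.x p - y) c / r ^ 2)) = -Phi (‖M.x p - y‖ ^ 2 / r ^ 2) * (2 / r ^ 2) *
          ∑ c, M.pre.D c v p * (M.x p c - y c) := by
      rw [← e2, Finset.mul_sum]; exact Finset.sum_congr rfl fun c _ => by ring
    have e4 : ∑ c, v p * (deriv Phi (‖M.x p - y‖ ^ 2 / r ^ 2) *
        (2 * M.PL p (M.x p - y) c / r ^ 2)) * (M.x p c - y c) =
        v p * deriv Phi (‖M.x p - y‖ ^ 2 / r ^ 2) * (2 / r ^ 2) *
          ∑ c, M.PL p (M.x p - y) c * (M.x p c - y c) := by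
      rw [Finset.mul_sum]; exact Finset.sum_congr rfl fun c _ => by ring
    have e5 : ∑ c, M.pre.D c v p * Phi (‖M.x p - y‖ ^ 2 / r ^ 2) * (M.x p c - y c) =
        Phi (‖M.x p - y‖ ^ 2 / r ^ 2) * ∑ c, M.pre.D c v p * (M.x p c - y c) := by
      rw [Finset.mul_sum]; exact Finset.sum_congr rfl fun c _ => by ring
    rw [e3, e4, e5]
    field_simp
    ring
  have i1 := intg M (hv.mul hP).continuous
  have i2 : Integrable (M.pre.gam v fun q => Psi (‖M.x q - y‖ ^ 2 / r ^ 2)) M.mu := by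
    refine intg M ?_
    have : (M.pre.gam v fun q => Psi (‖M.x q - y‖ ^ 2 / r ^ 2)) = fun p => ∑ c, M.pre.D c v p *
        (-Phi (‖M.x p - y‖ ^ 2 / r ^ 2) * (2 * M.PL p (M.x p - y) c / r ^ 2)) := by
      funext p; simp only [Imm.gam_apply, D_ker M y r p (hasDerivAt_Psi _)]
    rw [this]
    refine continuous_finsetSum _ fun c _ => (hv.D c).continuous.mul (hP.continuous.neg.mul
      ((continuous_const.mul ?_).div_const _))
    exact (EuclideanSpace.proj c).continuous.comp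
      (M.sm_PL.continuous.clm_apply (M.continuous_x.sub continuous_const))
  have i3 := intg M ((hv.continuous.mul ((continuous_const (y := (-2 : ℝ))).mul hdP)).mul
    ((continuous_perp M y).div_const (r ^ 2)))
  have i4 := intg M ((hv.continuous.mul ((continuous_const (y := (-2 : ℝ))).mul hdP)).mul
    hs.continuous)
  simp only [h2, h3] at h1
  rw [integral_sub, integral_add, integral_add, integral_const_mul, integral_const_mul] at h1
  · linarith
  exacts [i1.const_mul _, i2.const_mul _, (i1.const_mul _).add (i2.const_mul _), i3,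
    ((i1.const_mul _).add (i2.const_mul _)).add i3, i4]

theorem hasDerivAt_int {v : X → ℝ} (hv : Continuous v) (y : E ι) {r : ℝ} (hr : 0 < r) :
    HasDerivAt (fun t : ℝ => ∫ p, v p * Phi (‖M.x p - y‖ ^ 2 / t ^ 2) ∂M.mu)
      ((∫ p, v p * (-2 * deriv Phi (‖M.x p - y‖ ^ 2 / r ^ 2)) * (‖M.x p - y‖ ^ 2 / r ^ 2) ∂M.mu) / r)
      r := by
  have hn : Continuous fun p => ‖M.x p - y‖ ^ 2 := (M.continuous_x.sub continuous_const).norm.pow 2
  set F' : ℝ → X → ℝ := fun t p =>
    v p * (-2 * deriv Phi (‖M.x p - y‖ ^ 2 / t ^ 2)) * (‖M.x p - y‖ ^ 2 / t ^ 2) / t with hF'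
  have hc : ContinuousOn (fun z : ℝ × X => F' z.1 z.2) (Icc (r / 2) (2 * r) ×ˢ univ) := by
    have h0 : ∀ z ∈ Icc (r / 2) (2 * r) ×ˢ (univ : Set X), z.1 ≠ 0 := fun z hz =>
      (lt_of_lt_of_le (half_pos hr) hz.1.1).ne'
    have h1 : ContinuousOn (fun z : ℝ × X => ‖M.x z.2 - y‖ ^ 2 / z.1 ^ 2)
        (Icc (r / 2) (2 * r) ×ˢ univ) :=
      (hn.comp continuous_snd).continuousOn.div (by fun_prop) fun z hz => pow_ne_zero _ (h0 z hz)
    exact (((hv.comp continuous_snd).continuousOn.mul (continuousOn_const.mul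
      (continuous_dPhi.comp_continuousOn h1))).mul h1).div continuousOn_fst h0
  obtain ⟨C, hC⟩ := (isCompact_Icc.prod isCompact_univ).exists_bound_of_continuousOn hc
  have hm : ∀ t : ℝ, Continuous fun p => v p * Phi (‖M.x p - y‖ ^ 2 / t ^ 2) := fun t =>
    hv.mul (contDiff_Phi.continuous.comp (hn.div_const _))
  have hm' : Continuous (F' r) := ((hv.mul (continuous_const.mul
    (continuous_dPhi.comp (hn.div_const _)))).mul (hn.div_const _)).div_const _
  have := (hasDerivAt_integral_of_dominated_loc_of_deriv_le (μ := M.mu) (F' := F')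
    (F := fun t p => v p * Phi (‖M.x p - y‖ ^ 2 / t ^ 2)) (bound := fun _ => C)
    (Icc_mem_nhds (half_lt_self hr) (by linarith : r < 2 * r))
    (Eventually.of_forall fun t => (hm t).aestronglyMeasurable) (intg M (hm r))
    hm'.aestronglyMeasurable (Eventually.of_forall fun p t ht => hC (t, p) ⟨ht, mem_univ _⟩)
    (integrable_const C) (Eventually.of_forall fun p t ht => ?_)).2
  · rwa [hF', integral_div] at this
  · have ht0 : t ≠ 0 := (lt_of_lt_of_le (half_pos hr) ht.1).ne'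
    have h1 := ((hasDerivAt_Phi _).comp t ((hasDerivAt_const t (‖M.x p - y‖ ^ 2)).div
      (hasDerivAt_pow 2 t) (pow_ne_zero _ ht0))).const_mul (v p)
    refine h1.congr_deriv ?_
    simp only [hF', Pi.div_apply]
    field_simp
    ring

end Mn

open Mn in
theorem mon : MonStmt := by
  intro d ι _ _ X _ _ _ _ _ M _ v y r hv hr
  have h1 := (hasDerivAt_int M hv.continuous y hr).div (hasDerivAt_pow d r) (pow_pos hr d).ne'
  refine h1.congr_deriv ?_
  rw [first_var M hv y hr]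
  generalize (∫ p, v p * Phi (‖M.x p - y‖ ^ 2 / r ^ 2) ∂M.mu) = A
  generalize (∫ p, v p * (-2 * deriv Phi (‖M.x p - y‖ ^ 2 / r ^ 2)) *
    (‖M.x p - y‖ ^ 2 / r ^ 2) ∂M.mu) = B
  rcases d with _ | d
  · simp
  · simp only [Nat.add_sub_cancel]
    field_simp
    ring

end Crest.Agent.N222
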