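import Crest.Agent.N222.B.Defs2
import Crest.Agent.N222.F.Lip
import Crest.Agent.N222.F.Ker

/-!
# Row 222, part B: regularised Riesz kernels (helper85)
-/

set_option autoImplicit false
set_option linter.unusedSectionVars false
open MeasureTheory Set Filter Topology Function Metric
open scoped ContDiff InnerProductSpace RealInnerProductSpace

noncomputable section

namespace Crest.Agent.N222.Rz

variable {d : ℕ} {ι : Type} [Fintype ι] [DecidableEq ι] {X : Type} [TopologicalSpace X]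
  [MeasurableSpace X] (M : Imm d ι X) {a t : ℝ} {F : X → ℝ}

/-- regularised squared distance -/
def sg (y : E ι) (t : ℝ) (p : X) : ℝ := ‖M.x p - y‖ ^ 2 + t ^ 2

/-- regularised kernel -/
def kr (a : ℝ) (y : E ι) (t : ℝ) (p : X) : ℝ := sg M y t p ^ (-a)

theorem sm_rho (y : E ι) : M.Sm fun q => ‖M.x q - y‖ ^ 2 :=
  M.sm_x.comp (g := fun w => ‖w - y‖ ^ 2) ((contDiff_norm_sq ℝ).comp (contDiff_id.sub contDiff_const))

theorem sm_sg (y : E ι) (t : ℝ) : M.Sm (sg M y t) := (sm_rho M y).add (Imm.sm_const _)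

theorem sg_pos (y : E ι) (ht : 0 < t) (p : X) : 0 < sg M y t p := by unfold sg; positivity

theorem kr_pos (a : ℝ) (y : E ι) (ht : 0 < t) (p : X) : 0 < kr M a y t p :=
  Real.rpow_pos_of_pos (sg_pos M y ht p) _

theorem sm_kr (a : ℝ) (y : E ι) (ht : 0 < t) : M.Sm (kr M a y t) := fun p =>
  (sm_sg M y t p).rpow_const_of_ne fun _ _ => (sg_pos M y ht _).ne'

variable {M} in
theorem grad_comp {f : X → ℝ} {p : X} (hf : M.DiffAt f p) {g : ℝ → ℝ} {g' : ℝ}
    (hg : HasDerivAt g g' (f p)) : M.grad (fun q => g (f q)) p = g' • M.grad f p := by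
  ext c; exact Imm.D_comp hf hg c

theorem grad_sg (y : E ι) (t : ℝ) (p : X) :
    M.grad (sg M y t) p = (2 : ℝ) • M.PL p (M.x p - y) := by
  ext c
  change M.pre.D c (fun q => ‖M.x q - y‖ ^ 2 + t ^ 2) p = _
  rw [Imm.D_add ((sm_rho M y).diffAt p) ((Imm.sm_const _).diffAt p), Imm.D_const, add_zero,
    Imm.D_normSq]
  rfl

theorem norm_grad_sg (y : E ι) (t : ℝ) (p : X) : ‖M.grad (sg M y t) p‖ ≤ 2 * ‖M.x p - y‖ := by
  rw [grad_sg, norm_smul, Real.norm_two]
  exact mul_le_mul_of_nonneg_left (M.norm_PL_le _ _) two_pos.le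

theorem lap_sg (y : E ι) (t : ℝ) (p : X) :
    M.pre.lap (sg M y t) p = 2 * d + 2 * ⟪M.x p - y, M.Hv p⟫ := by
  change M.pre.lap (fun q => ‖M.x q - y‖ ^ 2 + t ^ 2) p = _
  rw [Imm.lap_add (sm_rho M y) (Imm.sm_const _), Imm.lap_const, add_zero, Imm.lap_normSq]
  simp [PiLp.inner_apply, Imm.Hv, mul_comm]

theorem grad_kr (a : ℝ) (y : E ι) (ht : 0 < t) (p : X) :
    M.grad (kr M a y t) p = (-a * sg M y t p ^ (-a - 1)) • M.grad (sg M y t) p :=
  grad_comp ((sm_sg M y t).diffAt p) (Real.hasDerivAt_rpow_const (Or.inl (sg_pos M y ht p).ne'))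

theorem norm_grad_kr (ha : 0 ≤ a) (y : E ι) (ht : 0 < t) (p : X) :
    ‖M.grad (kr M a y t) p‖ ≤ a / t * kr M a y t p := by
  have h0 := sg_pos M y ht p
  have h1 := kr_pos M a y ht p
  rw [grad_kr M a y ht, norm_smul, Real.rpow_sub_one h0.ne', neg_mul, norm_neg,
    Real.norm_of_nonneg (by unfold kr at h1; positivity)]
  change a * (kr M a y t p / _) * _ ≤ _
  have h2 : ‖M.grad (sg M y t) p‖ ≤ sg M y t p / t := (norm_grad_sg M y t p).trans (by
    rw [le_div_iff₀ ht, sg]; nlinarith [sq_nonneg (‖M.x p - y‖ - t)])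
  refine (mul_le_mul_of_nonneg_left h2 (by positivity)).trans (le_of_eq ?_)
  field_simp

theorem lapF_kr (ha : 0 ≤ a) (hd : 4 * (a + 1) + 1 / 4 ≤ 2 * d) (y : E ι) (ht : 0 < t) (p : X)
    {K : ℝ} (hK : 2 * (‖M.Hv p‖ + ‖M.grad F p‖) ≤ K) :
    a * sg M y t p ^ (-a - 1) * (1 / 4 - K * ‖M.x p - y‖) ≤ -M.pre.lapF F (kr M a y t) p := by
  have h0 := sg_pos M y ht p
  have h1 : M.pre.lap (kr M a y t) p = _ := Imm.lap_comp (sm_sg M y t)
    (φ := fun s => s ^ (-a)) (Real.contDiffAt_rpow_const_of_ne h0.ne')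
  rw [Real.deriv_rpow_const', deriv_const_mul_field, Real.deriv_rpow_const,
    Real.rpow_sub_one h0.ne' (-a - 1), lap_sg, Imm.gam_self_eq] at h1
  rw [Imm.lapF_apply, h1, Imm.gam_eq_inner, grad_kr M a y ht, inner_smul_right]
  have h2 := norm_grad_sg M y t p
  have h3 : ‖M.grad (sg M y t) p‖ ^ 2 / sg M y t p ≤ 4 := by
    rw [div_le_iff₀ h0, sg]
    nlinarith [norm_nonneg (M.grad (sg M y t) p), sq_nonneg t]
  have h4 := (abs_le.1 (abs_real_inner_le_norm (M.x p - y) (M.Hv p))).1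
  have h5 := (abs_le.1 (abs_real_inner_le_norm (M.grad F p) (M.grad (sg M y t) p))).1
  have h6 := mul_le_mul_of_nonneg_left h2 (norm_nonneg (M.grad F p))
  have h7 := mul_le_mul_of_nonneg_right hK (norm_nonneg (M.x p - y))
  have h8 := mul_le_mul_of_nonneg_left h3 (by linarith : 0 ≤ a + 1)
  have h9 : 0 ≤ a * sg M y t p ^ (-a - 1) := mul_nonneg ha (Real.rpow_nonneg h0.le _)
  have h10 := mul_le_mul_of_nonneg_left (show 1 / 4 - K * ‖M.x p - y‖ ≤
    2 * d + 2 * ⟪M.x p - y, M.Hv p⟫ + ⟪M.grad F p, M.grad (sg M y t) p⟫ -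
      (a + 1) * (‖M.grad (sg M y t) p‖ ^ 2 / sg M y t p) by nlinarith) h9
  refine h10.trans (le_of_eq ?_)
  ring

/-- the real inequality for one term -/
theorem term {a K D r s θ : ℝ} (ha : 0 < a) (hK : 0 < K) (hr : 0 ≤ r) (hD : r ≤ D) (hs0 : 0 < s)
    (hs : r ^ 2 ≤ s) (hθ : 0 < θ) (hθ' : θ ≤ (1 / (8 * K)) ^ 2) :
    -(a * ((1 / (8 * K)) ^ 2) ^ (-a - 1) * (K * D)) ≤ a * s ^ (-a - 1) * (1 / 4 - K * r) ∧
    a / (8 * θ) * (s ^ (-a) - θ ^ (-a)) - a * ((1 / (8 * K)) ^ 2) ^ (-a - 1) * (K * D) ≤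
      a * s ^ (-a - 1) * (1 / 4 - K * r) := by
  have hC : 0 ≤ a * ((1 / (8 * K)) ^ 2) ^ (-a - 1) * (K * D) := by
    have := hr.trans hD
    positivity
  have hp : 0 < a * s ^ (-a - 1) := by positivity
  have h1 : r ≤ 1 / (8 * K) → a * s ^ (-a - 1) * (1 / 8) ≤ a * s ^ (-a - 1) * (1 / 4 - K * r) := by
    intro h
    rw [le_div_iff₀ (by positivity)] at h
    exact mul_le_mul_of_nonneg_left (by linarith) hp.le
  have h2 : -(a * ((1 / (8 * K)) ^ 2) ^ (-a - 1) * (K * D)) ≤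
      a * s ^ (-a - 1) * (1 / 4 - K * r) := by
    rcases le_or_gt r (1 / (8 * K)) with h | h
    · linarith [h1 h]
    · have h3 : s ^ (-a - 1) ≤ ((1 / (8 * K)) ^ 2) ^ (-a - 1) :=
        Real.rpow_le_rpow_of_nonpos (by positivity)
          ((pow_le_pow_left₀ (by positivity) h.le 2).trans hs) (by linarith)
      have h4 : a * s ^ (-a - 1) * (K * r) ≤ a * ((1 / (8 * K)) ^ 2) ^ (-a - 1) * (K * D) := by
        gcongr
      nlinarith
  refine ⟨h2, ?_⟩
  rcases le_or_gt s θ with h | h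
  · have h3 := h1 (abs_le_of_sq_le_sq' (hs.trans (h.trans hθ')) (by positivity)).2
    have h4 : a / (8 * θ) * s ^ (-a) ≤ a * s ^ (-a - 1) * (1 / 8) := by
      rw [Real.rpow_sub_one hs0.ne']
      calc a / (8 * θ) * s ^ (-a) ≤ a / (8 * s) * s ^ (-a) := by gcongr
        _ = _ := by field_simp
    have h5 : 0 ≤ a / (8 * θ) * θ ^ (-a) := by positivity
    linarith [mul_sub (a / (8 * θ)) (s ^ (-a)) (θ ^ (-a))]
  · have h3 : s ^ (-a) ≤ θ ^ (-a) := Real.rpow_le_rpow_of_nonpos hθ h.le (by linarith)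
    have := mul_nonpos_of_nonneg_of_nonpos (by positivity : 0 ≤ a / (8 * θ)) (sub_nonpos.2 h3)
    linarith

variable {M}

theorem grad_sum {κ : Type} (s : Finset κ) {f : κ → X → ℝ} (hf : ∀ k, M.Sm (f k)) (c : ℝ) (p : X) :
    M.grad (fun q => 1 + c * ∑ k ∈ s, f k q) p = c • ∑ k ∈ s, M.grad (f k) p := by
  have hs : M.Sm fun q => ∑ k ∈ s, f k q := Imm.sm_sum s fun k _ => hf k
  ext a
  change M.pre.D a _ p = _
  rw [Imm.D_add ((Imm.sm_const _).diffAt p) (((Imm.sm_const c).mul hs).diffAt p),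
    Imm.D_const, Imm.D_const_mul c (hs.diffAt p), Imm.D_sum s fun k _ => (hf k).diffAt p]
  simp [Imm.grad]

theorem lapF_sum {κ : Type} (s : Finset κ) {f : κ → X → ℝ} (hf : ∀ k, M.Sm (f k)) (c : ℝ) (p : X) :
    M.pre.lapF F (fun q => 1 + c * ∑ k ∈ s, f k q) p = c * ∑ k ∈ s, M.pre.lapF F (f k) p := by
  have hs : ∀ s : Finset κ, M.Sm fun q => ∑ k ∈ s, f k q := fun s => Imm.sm_sum s fun k _ => hf k
  have h1 : M.pre.lap (fun q => ∑ k ∈ s, f k q) p = ∑ k ∈ s, M.pre.lap (f k) p := by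
    classical
    induction s using Finset.induction_on with
    | empty => simpa using Imm.lap_const (M := M) 0 p
    | insert k s hk ih =>
      simp only [Finset.sum_insert hk]
      rw [Imm.lap_add (hf k) (hs s), ih]
  simp only [Imm.lapF_apply, Imm.gam_eq_inner]
  rw [Imm.lap_add (Imm.sm_const _) ((Imm.sm_const c).mul (hs s)), Imm.lap_const,
    Imm.lap_const_mul c (hs s), h1, grad_sum s hf, inner_smul_right, inner_sum,
    Finset.sum_add_distrib, zero_add, mul_add]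

end Crest.Agent.N222.Rz
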