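import Crest.Agent.N222.B.Stab

/-!
# Row 222, part B: the Schoen-Simon-Yau `L⁴` estimate (helper31)
-/

set_option autoImplicit false
set_option linter.unusedSectionVars false
open MeasureTheory Set Filter Topology Function Metric
open scoped ContDiff InnerProductSpace RealInnerProductSpace

noncomputable section

namespace Crest.Agent.N222

namespace Sy

open Sb

variable {d : ℕ} {ι : Type} [Fintype ι] [DecidableEq ι] {X : Type} [TopologicalSpace X]
  [T2Space X] [SecondCountableTopology X] [MeasurableSpace X] [BorelSpace X] [CompactSpace X]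

/-- the divergence term -/
theorem dir_le {N : Imm d ι X} {w z : X → ℝ} {Y : ι → X → ℝ} (hz : N.Sm z) {C ε : ℝ} (hε : 0 < ε)
    (hC : 0 ≤ C) (p : X) (hY : ∀ a, |Y a p - w p * N.pre.D a w p| ≤ C * w p ^ 2) :
    -N.pre.dir Y (fun q => z q ^ 2) p ≤ ε * (z p ^ 2 * N.pre.gam w w p) +
      (1 / ε + C) * (w p ^ 2 * N.pre.gam z z p) + Fintype.card ι * C * (w p ^ 2 * z p ^ 2) := by
  have e : (Fintype.card ι : ℝ) * C * (w p ^ 2 * z p ^ 2) =
      ∑ _a : ι, C * (w p ^ 2 * z p ^ 2) := by simp [mul_assoc]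
  rw [e]
  simp only [Imm.dir_apply, Imm.gam_apply, Pc.D_sq hz, Finset.mul_sum, ← Finset.sum_add_distrib,
    ← Finset.sum_neg_distrib]
  refine Finset.sum_le_sum fun a _ => ?_
  have h1 : 0 ≤ (ε * (z p * N.pre.D a w p) + w p * N.pre.D a z p) ^ 2 / ε := by positivity
  have h2 : (ε * (z p * N.pre.D a w p) + w p * N.pre.D a z p) ^ 2 / ε =
      ε * (z p ^ 2 * (N.pre.D a w p * N.pre.D a w p)) +
        1 / ε * (w p ^ 2 * (N.pre.D a z p * N.pre.D a z p)) +
      w p * N.pre.D a w p * (2 * z p * N.pre.D a z p) := by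
    field_simp
    ring
  have h3 : |(Y a p - w p * N.pre.D a w p) * (2 * z p * N.pre.D a z p)| ≤
      C * w p ^ 2 * (z p ^ 2 + N.pre.D a z p * N.pre.D a z p) := by
    rw [abs_mul]
    refine mul_le_mul (hY a) (abs_le.2 ⟨?_, ?_⟩) (abs_nonneg _) (by positivity)
    · nlinarith [sq_nonneg (z p + N.pre.D a z p)]
    · nlinarith [sq_nonneg (z p - N.pre.D a z p)]
  have h4 := neg_abs_le ((Y a p - w p * N.pre.D a w p) * (2 * z p * N.pre.D a z p))
  nlinarith

theorem arith {κ ε I P J K1 K2 : ℝ} (hε : 0 < ε) (hε1 : ε ≤ 1) (hκ : 1 + 9 * ε ≤ κ) (hI : 0 ≤ I)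
    (hJ : 0 ≤ J) (hK1 : 0 ≤ K1) (h1 : P ≤ (1 + ε) ^ 2 * I + K1 * J)
    (h2 : κ * I ≤ ε * I + (1 + ε) * P + K2 * J) : P ≤ (4 * ((2 * K1 + K2) / ε) + K1) * J := by
  have h3 : (1 + ε) * P ≤ (1 + ε) * ((1 + ε) ^ 2 * I + K1 * J) := by gcongr
  have h4 : (1 + ε) ^ 3 * I ≤ (1 + 7 * ε) * I := by
    gcongr
    nlinarith [mul_pos hε hε, mul_le_mul hε1 hε1 hε.le zero_le_one]
  have h5 : (1 + ε) * (K1 * J) ≤ 2 * (K1 * J) := by
    gcongr
    linarith
  have h6 : (1 + 9 * ε) * I ≤ κ * I := by gcongr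
  have h7 : I ≤ (2 * K1 + K2) / ε * J := by
    rw [div_mul_eq_mul_div, le_div_iff₀ hε]
    nlinarith
  have h8 : (1 + ε) ^ 2 * I ≤ 4 * I := by
    gcongr
    nlinarith
  nlinarith

/-- the core estimate -/
theorem core {κ C ε Cs : ℝ} (hC : 1 ≤ C) (hε : 0 < ε) (hε1 : ε ≤ 1) (hκ : 1 + 9 * ε ≤ κ) :
    ∃ K : ℝ, 0 ≤ K ∧ ∀ (N : Imm d ι X) (a : X → ℝ) (Y : ι → X → ℝ), N.Sm a → (∀ p, 0 ≤ a p) →
      (∀ c, N.Sm (Y c)) → N.pre.Tan Y → (∀ c p, |Y c p - N.pre.D c a p / 2| ≤ C * (1 + a p)) →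
      (∀ p, κ * (N.pre.gam a a p / 4) ≤ (a p + C) *
        (N.pre.dv Y p + a p ^ 2 + C * ((1 + a p) * √(1 + a p)))) →
      (∀ z, N.Sm z → ∫ p, a p * z p ^ 2 ∂N.mu ≤
        (1 + ε) * (∫ p, N.pre.gam z z p ∂N.mu) + Cs * ∫ p, z p ^ 2 ∂N.mu) →
      ∀ z, N.Sm z → ∫ p, a p ^ 2 * z p ^ 2 ∂N.mu ≤
        K * ∫ p, (a p + C) * (z p ^ 2 + N.pre.gam z z p) ∂N.mu := by
  set K1 := (1 + ε) * (1 + 1 / ε) + |Cs| with hK1
  set K2 := 1 / ε + C + Fintype.card ι * C + (ε * C + C ^ 2 / ε) with hK2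
  have hK10 : 0 ≤ K1 := by positivity
  have hC0 : 0 < C := by linarith
  refine ⟨4 * ((2 * K1 + K2) / ε) + K1, by positivity, fun N a Y ha ha0 hY ht hn hd hs z hz => ?_⟩
  have hpos : ∀ p, 0 < a p + C := fun p => by linarith [ha0 p]
  have hac : N.Sm fun p => a p + C := ha.add (Imm.sm_const C)
  set w : X → ℝ := fun p => √(a p + C) with hw
  have sw : N.Sm w := hac.sqrt fun p => (hpos p).ne'
  have w2 : ∀ p, w p ^ 2 = a p + C := fun p => Real.sq_sqrt (hpos p).le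
  have w0 : ∀ p, 0 < w p := fun p => Real.sqrt_pos.2 (hpos p)
  have Da : ∀ c p, N.pre.D c a p = 2 * w p * N.pre.D c w p := fun c p => by
    rw [← Pc.D_sq sw, funext w2, Imm.D_add (ha.diffAt p) ((Imm.sm_const C).diffAt p), Imm.D_const,
      add_zero]
  have z2 := hz.pow 2
  have iI := int (z2.mul (sw.gam sw))
  have iP := int (ha.mul ((sw.mul hz).pow 2))
  have i0 := int ((sw.pow 2).mul z2)
  have i1 := int ((sw.pow 2).mul (hz.gam hz))
  have n0 : 0 ≤ ∫ p, w p ^ 2 * z p ^ 2 ∂N.mu := integral_nonneg fun p => by positivity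
  have n1 : 0 ≤ ∫ p, w p ^ 2 * N.pre.gam z z p ∂N.mu := integral_nonneg fun p =>
    mul_nonneg (sq_nonneg _) (Imm.gam_self_nonneg z p)
  have eJ : ∫ p, (a p + C) * (z p ^ 2 + N.pre.gam z z p) ∂N.mu =
      (∫ p, w p ^ 2 * z p ^ 2 ∂N.mu) + ∫ p, w p ^ 2 * N.pre.gam z z p ∂N.mu := by
    rw [← integral_add i0 i1]
    simp only [w2, mul_add]
  have h0 : ∫ p, a p ^ 2 * z p ^ 2 ∂N.mu ≤ ∫ p, a p * (w p * z p) ^ 2 ∂N.mu := by
    refine integral_mono (int ((ha.pow 2).mul z2)) iP fun p => ?_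
    simp only [mul_pow, w2]
    nlinarith [mul_nonneg (ha0 p) (sq_nonneg (z p))]
  refine h0.trans ?_
  rw [eJ]
  refine arith (I := ∫ p, z p ^ 2 * N.pre.gam w w p ∂N.mu) hε hε1 hκ (integral_nonneg fun p =>
    mul_nonneg (sq_nonneg _) (Imm.gam_self_nonneg w p)) (add_nonneg n0 n1) hK10 ?_ ?_
  · have h1 := hs _ (sw.mul hz)
    have h2 : ∫ p, N.pre.gam (fun q => w q * z q) (fun q => w q * z q) p ∂N.mu ≤
        (1 + ε) * (∫ p, z p ^ 2 * N.pre.gam w w p ∂N.mu) +
          (1 + 1 / ε) * ∫ p, w p ^ 2 * N.pre.gam z z p ∂N.mu := by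
      rw [← integral_const_mul, ← integral_const_mul,
        ← integral_add (iI.const_mul _) (i1.const_mul _)]
      exact integral_mono (int ((sw.mul hz).gam (sw.mul hz)))
        ((iI.const_mul _).add (i1.const_mul _)) (gam_mul_le sw hz hε)
    have h3 := mul_le_mul_of_nonneg_left h2 (show 0 ≤ 1 + ε by positivity)
    simp only [mul_pow] at h1 ⊢
    have h4 := mul_le_mul_of_nonneg_right (le_abs_self Cs) n0
    have h5 : 0 ≤ (1 + ε) * (1 + 1 / ε) * ∫ p, w p ^ 2 * z p ^ 2 ∂N.mu := by positivity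
    have h6 := mul_nonneg (abs_nonneg Cs) n1
    rw [hK1]
    nlinarith
  · have e := Imm.integral_mul_dv z2.c1 (hcs _) (fun c => (hY c).c1) ht
    have iD := int (z2.mul (Imm.sm_dv hY))
    have h1 : ∫ p, κ * (z p ^ 2 * N.pre.gam w w p) ∂N.mu ≤
        ∫ p, (z p ^ 2 * N.pre.dv Y p + (1 + ε) * (a p * (w p * z p) ^ 2) +
          (ε * C + C ^ 2 / ε) * (w p ^ 2 * z p ^ 2)) ∂N.mu := by
      refine integral_mono (iI.const_mul _) ((iD.add (iP.const_mul _)).add (i0.const_mul _))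
        fun p => ?_
      have e1 : N.pre.gam a a p / 4 = (a p + C) * N.pre.gam w w p := by
        simp only [Imm.gam_apply, Da, Finset.sum_div, Finset.mul_sum, ← w2]
        exact Finset.sum_congr rfl fun c _ => by ring
      have e2 := hd p
      rw [e1, mul_left_comm] at e2
      have e3 := le_of_mul_le_mul_left e2 (hpos p)
      have e4 : (1 + a p) * √(1 + a p) ≤ w p ^ 2 * w p := by
        rw [w2]
        exact mul_le_mul (by linarith) (Real.sqrt_le_sqrt (by linarith)) (Real.sqrt_nonneg _)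
          (hpos p).le
      have e5 : C * w p ≤ ε * w p ^ 2 + C ^ 2 / ε := by
        have : 0 ≤ (ε * w p - C) ^ 2 / ε := by positivity
        have e : (ε * w p - C) ^ 2 / ε = ε * w p ^ 2 + C ^ 2 / ε - 2 * (C * w p) := by
          field_simp
          ring
        nlinarith [mul_pos hC0 (w0 p)]
      have e6 : C * ((1 + a p) * √(1 + a p)) ≤ w p ^ 2 * (ε * (a p + C) + C ^ 2 / ε) := by
        rw [← w2]
        calc _ ≤ C * (w p ^ 2 * w p) := by gcongr
          _ = w p ^ 2 * (C * w p) := by ring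
          _ ≤ _ := by gcongr
      have e7 : a p ^ 2 ≤ a p * w p ^ 2 := by
        rw [w2]
        nlinarith [ha0 p]
      have e8 : κ * N.pre.gam w w p ≤ N.pre.dv Y p + (1 + ε) * (a p * w p ^ 2) +
          (ε * C + C ^ 2 / ε) * w p ^ 2 := by linarith
      have e9 := mul_le_mul_of_nonneg_left e8 (sq_nonneg (z p))
      simp only
      linarith
    have h2 : ∫ p, -N.pre.dir Y (fun q => z q ^ 2) p ∂N.mu ≤
        ∫ p, (ε * (z p ^ 2 * N.pre.gam w w p) + (1 / ε + C) * (w p ^ 2 * N.pre.gam z z p) +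
          Fintype.card ι * C * (w p ^ 2 * z p ^ 2)) ∂N.mu := by
      refine integral_mono (int (Imm.sm_dir hY z2).neg)
        (((iI.const_mul _).add (i1.const_mul _)).add (i0.const_mul _))
        fun p => dir_le hz hε hC0.le p fun c => ?_
      have := hn c p
      rw [Da, show 2 * w p * N.pre.D c w p / 2 = w p * N.pre.D c w p by ring] at this
      refine this.trans ?_
      rw [w2]
      exact mul_le_mul_of_nonneg_left (by linarith) hC0.le
    rw [integral_add ((iI.const_mul _).fun_add (i1.const_mul _)) (i0.const_mul _),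
      integral_add (iI.const_mul _) (i1.const_mul _), integral_neg, ← e] at h2
    rw [integral_add (iD.fun_add (iP.const_mul _)) (i0.const_mul _),
      integral_add iD (iP.const_mul _)] at h1
    simp only [integral_const_mul] at h1 h2
    have p1 : 0 ≤ (1 / ε + C) * ∫ p, w p ^ 2 * z p ^ 2 ∂N.mu := by positivity
    have p2 : 0 ≤ (Fintype.card ι * C + (ε * C + C ^ 2 / ε)) *
        ∫ p, w p ^ 2 * N.pre.gam z z p ∂N.mu := by positivity
    rw [hK2]
    linarith

/-- cut-off functions of the height -/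
theorem cutoff {T : ℝ} (hT : 0 < T) : ∃ B : ℝ, 0 ≤ B ∧ ∀ (N : Imm d ι X) (u : X → ℝ), N.Sm u →
    (∀ p, N.pre.gam u u p ≤ 1) → ∃ z, N.Sm z ∧ ∀ f : X → ℝ, N.Sm f → (∀ p, 0 ≤ f p) →
      ∫ p in {p | |u p| ≤ T}, f p ∂N.mu ≤ ∫ p, f p * z p ^ 2 ∂N.mu ∧
      ∫ p, f p * (z p ^ 2 + N.pre.gam z z p) ∂N.mu ≤ B * ∫ p in {p | |u p| ≤ T + 1}, f p ∂N.mu := by
  let χ : ContDiffBump (0 : ℝ) := ⟨T, T + 1, hT, by linarith⟩
  have hχ : ContDiff ℝ ∞ χ := χ.contDiff
  obtain ⟨B, hB⟩ := (hχ.continuous_deriv (by simp)).bounded_above_of_compact_support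
    χ.hasCompactSupport.deriv
  refine ⟨1 + B ^ 2, by positivity, fun N u hu h1 => ⟨fun p => χ (u p), hu.comp hχ,
    fun f hf h0 => ?_⟩⟩
  have hz := hu.comp hχ
  have m : ∀ S : ℝ, MeasurableSet {p | |u p| ≤ S} := fun S =>
    (isClosed_le hu.continuous.abs continuous_const).measurableSet
  have eg : ∀ p, N.pre.gam (fun p => χ (u p)) (fun p => χ (u p)) p =
      deriv χ (u p) ^ 2 * N.pre.gam u u p := fun p => by
    simp only [Imm.gam_apply, Finset.mul_sum, Imm.D_comp (hu.diffAt p)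
      (hχ.differentiable (by simp) (u p)).hasDerivAt]
    exact Finset.sum_congr rfl fun c _ => by ring
  constructor
  · rw [← integral_indicator (m T)]
    refine integral_mono ((int hf).indicator (m T)) (int (hf.mul (hz.pow 2))) fun p => ?_
    by_cases hp : p ∈ {p | |u p| ≤ T}
    · have : χ (u p) = 1 := χ.one_of_mem_closedBall (by simpa using hp)
      simp [indicator_of_mem hp, this]
    · rw [indicator_of_notMem hp]
      exact mul_nonneg (h0 p) (sq_nonneg _)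
  · rw [← integral_indicator (m _), ← integral_const_mul]
    refine integral_mono (int (hf.mul ((hz.pow 2).add (hz.gam hz))))
      (((int hf).indicator (m _)).const_mul _) fun p => ?_
    simp only [eg]
    by_cases hp : p ∈ {p | |u p| ≤ T + 1}
    · rw [indicator_of_mem hp, mul_comm]
      refine mul_le_mul_of_nonneg_right (add_le_add (pow_le_one₀ χ.nonneg χ.le_one) ?_) (h0 p)
      have e1 : deriv χ (u p) ^ 2 ≤ B ^ 2 := by
        rw [← sq_abs]
        exact pow_le_pow_left₀ (abs_nonneg _) (hB _) 2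
      nlinarith [h1 p, Imm.gam_self_nonneg (M := N) u p, sq_nonneg (deriv χ (u p))]
    · have e0 : u p ∉ tsupport χ := by
        rw [χ.tsupport_eq]
        simpa using hp
      have e1 : deriv χ (u p) = 0 := by
        by_contra h
        exact e0 (support_deriv_subset h)
      simp [indicator_of_notMem hp, image_eq_zero_of_notMem_tsupport e0, e1]

end Sy

open Sy Sb in
/-- Schoen-Simon-Yau -/
theorem ssy (hS : SimStmt) (hC : CalStmt) : SSYStmt := by
  intro d ι _ _ X _ _ _ _ _ _ M F hi hF Λ T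
  obtain ⟨κ, C, hκ, hC1, hsim⟩ := hS d ι X M F hi hF Λ
  obtain ⟨Ca, hCa, hcal⟩ := hC d ι X M F hi hF Λ
  have hε : 0 < min 1 ((κ - 1) / 9) := lt_min one_pos (by linarith)
  obtain ⟨Cs, hst⟩ := stab d ι X M F hi hF Λ _ hε
  obtain ⟨K, hK, hcore⟩ := core (d := d) (ι := Option ι) (X := X) (κ := κ) (Cs := Cs) hC1 hε
    (min_le_left _ _) (by linarith [min_le_right 1 ((κ - 1) / 9)])
  have hT : 0 < |T| + 1 := by positivity
  obtain ⟨B1, hB1, hc1⟩ := cutoff (d := d) (ι := Option ι) (X := X) hT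
  obtain ⟨B2, hB2, hc2⟩ := cutoff (d := d) (ι := Option ι) (X := X) (T := |T| + 1 + 1)
    (by positivity)
  refine ⟨K * (B1 * ((2 + |Cs|) * (B2 * (Ca * (1 + (|T| + 1 + 1 + 1)))) +
    C * (Ca * (1 + (|T| + 1 + 1))))), fun u hu => ?_⟩
  obtain ⟨Y, hY⟩ := hsim u hu
  have hs := hu.sm
  have harea := (hcal u hu).2.2
  have hst' := hst u hu
  set N := M.graph u hs with hN
  have eP : N.pre = M.gS u := Imm.graph_pre hs
  have eμ : N.mu = M.gmu u := Imm.graph_mu hs
  have h1 : ∀ p, N.pre.gam u u p ≤ 1 := fun p => by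
    rw [eP, M.gS_gam_u]
    nlinarith [sq_nonneg (M.vv u p)]
  have ha : N.Sm (M.a2 u) := hs.a2
  have hcore' := hcore N (M.a2 u) Y ha (M.a2_nonneg u) hY.sm (eP ▸ hY.tan) (eP ▸ hY.near)
    (eP ▸ hY.dv) (by rw [eP, eμ]; exact hst')
  rw [← eP, ← eμ] at hst'
  rw [← eμ] at harea ⊢
  obtain ⟨z1, hz1, hf1⟩ := hc1 N u hs h1
  obtain ⟨z2, hz2, hf2⟩ := hc2 N u hs h1
  have a0 := M.a2_nonneg u
  have s1 : ∫ p in {p | |u p| ≤ T}, M.a2 u p ^ 2 ∂N.mu ≤
      ∫ p in {p | |u p| ≤ |T| + 1}, M.a2 u p ^ 2 ∂N.mu :=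
    setIntegral_mono_set (int (ha.pow 2)).integrableOn
      (Eventually.of_forall fun p => sq_nonneg _) (LE.le.eventuallyLE fun p hp =>
        (show |u p| ≤ T from hp).trans (by linarith [le_abs_self T]))
  have s2 := (hf1 _ (ha.pow 2) fun p => sq_nonneg _).1
  have s3 := (hf1 _ (ha.add (Imm.sm_const C)) fun p => by linarith [a0 p]).2
  have s4 := (hf2 _ ha a0).1
  have s5 := (hf2 _ (Imm.sm_const 1) fun _ => zero_le_one).2
  have s6 := hst' z2 hz2
  have i1 := int (hz2.pow 2)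
  have i2 := int (hz2.gam hz2)
  have n1 : 0 ≤ ∫ p, z2 p ^ 2 ∂N.mu := integral_nonneg fun p => sq_nonneg _
  have n2 : 0 ≤ ∫ p, N.pre.gam z2 z2 p ∂N.mu := integral_nonneg (Imm.gam_self_nonneg z2)
  simp only [one_mul, integral_add i1 i2, setIntegral_const, smul_eq_mul, mul_one] at s5
  rw [integral_add (int ha).integrableOn (int (Imm.sm_const C)).integrableOn, setIntegral_const,
    smul_eq_mul] at s3
  have s7 : ∫ p, M.a2 u p * z2 p ^ 2 ∂N.mu ≤
      (2 + |Cs|) * (B2 * (Ca * (1 + (|T| + 1 + 1 + 1)))) := by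
    have t1 := mul_le_mul_of_nonneg_right (le_abs_self Cs) n1
    have t2 := mul_le_mul_of_nonneg_right (min_le_left 1 ((κ - 1) / 9)) n2
    have t3 := mul_nonneg (abs_nonneg Cs) n2
    have t4 := s5.trans (mul_le_mul_of_nonneg_left (harea _ (by positivity)) hB2)
    have t5 := mul_le_mul_of_nonneg_left t4 (show 0 ≤ 2 + |Cs| by positivity)
    nlinarith
  refine s1.trans (s2.trans ((hcore' z1 hz1).trans (mul_le_mul_of_nonneg_left (s3.trans
    (mul_le_mul_of_nonneg_left (add_le_add (s4.trans s7) ?_) hB1)) hK)))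
  rw [mul_comm C]
  exact mul_le_mul_of_nonneg_right (harea _ (by positivity)) (by linarith)

end Crest.Agent.N222

end
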