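import Crest.Agent.N222.F.Lip
import Crest.Agent.N222.B.Defs2

/-!
# Row 222, part B: the shield, real inequalities and the cost function (helper51)
-/

set_option autoImplicit false
set_option linter.unusedSectionVars false
open MeasureTheory Set Filter Topology Function
open scoped ContDiff InnerProductSpace RealInnerProductSpace

noncomputable section

namespace Crest.Agent.N222.Sh

/-! ### the profile -/

theorem exists_sig : ∃ σ σ' : ℝ → ℝ, ContDiff ℝ ∞ σ ∧ (∀ l, HasDerivAt σ (σ' l) l) ∧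
    (∀ l, 0 ≤ σ l ∧ 0 ≤ σ' l ∧ σ' l ≤ 1 ∧ l - 2 ≤ σ l) ∧ ∀ l ≤ 1, σ l = 0 ∧ σ' l = 0 := by
  refine ⟨fun l => (l - 1) * expNegInvGlue (l - 1),
    fun l => expNegInvGlue (l - 1) * (1 + (l - 1)⁻¹), ?_, fun l => ?_, fun l => ?_, fun l hl => ?_⟩
  · exact (contDiff_id.sub contDiff_const).mul
      ((expNegInvGlue.contDiff (n := ⊤)).comp (contDiff_id.sub contDiff_const))
  · have h1 : HasDerivAt expNegInvGlue (((l - 1)⁻¹) ^ 2 * expNegInvGlue (l - 1)) (l - 1) := by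
      simpa using expNegInvGlue.hasDerivAt_polynomial_eval_inv_mul 1 (l - 1)
    have h2 : HasDerivAt (fun l : ℝ => l - 1) 1 l := (hasDerivAt_id l).sub_const 1
    have h3 : HasDerivAt (fun l : ℝ => expNegInvGlue (l - 1))
        (((l - 1)⁻¹) ^ 2 * expNegInvGlue (l - 1)) l := HasDerivAt.comp_sub_const l 1 h1
    refine (h2.mul h3).congr_deriv ?_
    by_cases h : l - 1 = 0
    · simp [h]
    · field_simp
  · by_cases h : l - 1 ≤ 0
    · simp only [expNegInvGlue.zero_of_nonpos h, mul_zero, zero_mul]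
      exact ⟨le_rfl, le_rfl, zero_le_one, by linarith⟩
    · have ht : 0 < l - 1 := not_le.1 h
      have hg : expNegInvGlue (l - 1) = Real.exp (-(l - 1)⁻¹) := by simp only [expNegInvGlue, if_neg h]
      have hi : 0 < (l - 1)⁻¹ := inv_pos.2 ht
      have h1 := Real.add_one_le_exp (l - 1)⁻¹
      have h2 := Real.add_one_le_exp (-(l - 1)⁻¹)
      have h3 : Real.exp (-(l - 1)⁻¹) * Real.exp (l - 1)⁻¹ = 1 := by rw [← Real.exp_add]; simp
      have h4 := Real.exp_pos (-(l - 1)⁻¹)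
      have h5 : (l - 1) * (l - 1)⁻¹ = 1 := mul_inv_cancel₀ ht.ne'
      simp only [hg]
      refine ⟨by positivity, by positivity, by nlinarith, by nlinarith⟩
  · simp only [expNegInvGlue.zero_of_nonpos (sub_nonpos.2 hl), mul_zero, zero_mul, and_self]

theorem exists_lam (α C1 : ℝ) (hα : 0 < α) : ∃ (lam lam' : ℝ → ℝ) (Λ κ : ℝ), 0 < κ ∧ 0 ≤ Λ ∧
    ContDiff ℝ ∞ lam ∧ (∀ l, HasDerivAt lam (lam' l) l) ∧ (∀ l, 0 ≤ lam l ∧ 0 ≤ lam' l) ∧
    (∀ l ≤ 1, lam l = 0 ∧ lam' l = 0) ∧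
    (∀ l, (lam' l ≤ 2 * α ∧ lam l ≤ Λ) ∨ (C1 ≤ lam l ∧ lam' l ≤ 2 / 3 * lam l)) ∧
    ∀ l, κ * (Real.exp (3 / 5 * (l - 2)) - 1) ≤ lam l := by
  obtain ⟨σ, σ', hs, hd, hb, h0⟩ := exists_sig
  set s1 := max (5 / 2) (C1 / α) with hs1
  have hs1a : 5 / 2 ≤ s1 := le_max_left _ _
  have hs1b : C1 ≤ α * s1 := by
    rw [mul_comm]; exact (div_le_iff₀ hα).1 (le_max_right _ _)
  set κ := α * Real.exp (-(3 / 5 * s1)) with hκ
  have hκ0 : 0 < κ := by positivity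
  have hκα : κ ≤ α := by
    have : Real.exp (-(3 / 5 * s1)) ≤ 1 := Real.exp_le_one_iff.2 (by linarith)
    nlinarith
  refine ⟨fun l => α * σ l + κ * (Real.exp (3 / 5 * σ l) - 1),
    fun l => σ' l * (α + 3 / 5 * (κ * Real.exp (3 / 5 * σ l))), α * s1 + α, κ, hκ0, by positivity,
    ?_, fun l => ?_, fun l => ?_, fun l hl => ?_, fun l => ?_, fun l => ?_⟩
  · exact (contDiff_const.mul hs).add
      (contDiff_const.mul ((contDiff_const.mul hs).exp.sub contDiff_const))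
  · refine (((hd l).const_mul α).add
      (((((hd l).const_mul (3 / 5)).exp).sub_const 1).const_mul κ)).congr_deriv ?_
    ring
  · obtain ⟨h1, h2, -, -⟩ := hb l
    have : 1 ≤ Real.exp (3 / 5 * σ l) := Real.one_le_exp (by linarith)
    exact ⟨add_nonneg (by positivity) (mul_nonneg hκ0.le (by linarith)), by positivity⟩
  · simp [(h0 l hl).1, (h0 l hl).2]
  · obtain ⟨h1, h2, h3, -⟩ := hb l
    have hE : 1 ≤ Real.exp (3 / 5 * σ l) := Real.one_le_exp (by linarith)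
    have hκE : 0 < κ * Real.exp (3 / 5 * σ l) := by positivity
    have hl' : σ' l * (α + 3 / 5 * (κ * Real.exp (3 / 5 * σ l))) ≤
        α + 3 / 5 * (κ * Real.exp (3 / 5 * σ l)) := mul_le_of_le_one_left (by positivity) h3
    rcases le_total (σ l) s1 with h | h
    · left
      have h4 : κ * Real.exp (3 / 5 * σ l) ≤ α := by
        rw [hκ, mul_assoc, ← Real.exp_add]
        exact mul_le_of_le_one_right hα.le (Real.exp_le_one_iff.2 (by linarith))
      have h5 : α * σ l ≤ α * s1 := mul_le_mul_of_nonneg_left h hα.le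
      exact ⟨by linarith, by nlinarith⟩
    · right
      have h5 : α * s1 ≤ α * σ l := mul_le_mul_of_nonneg_left h hα.le
      have h6 : α * (5 / 2) ≤ α * s1 := mul_le_mul_of_nonneg_left hs1a hα.le
      exact ⟨by nlinarith, by nlinarith⟩
  · obtain ⟨h1, -, -, h4⟩ := hb l
    have h5 : Real.exp (3 / 5 * (l - 2)) ≤ Real.exp (3 / 5 * σ l) :=
      Real.exp_le_exp.2 (by linarith)
    have h6 : 0 ≤ α * σ l := by positivity
    nlinarith

theorem exists_t2 {c κ : ℝ} (hc : 0 < c) (hκ : 0 < κ) {D : ℝ} (hD : 0 < D) :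
    ∃ t2 : ℝ, 0 < t2 ∧ t2 ≤ 1 ∧ ∀ t1 w : ℝ, 0 < t1 → t1 ≤ t2 → c / t1 ^ (7 / 4 : ℝ) ≤ w →
      D / t1 ≤ κ * Real.exp (3 / 5 * (Real.log w - 2)) := by
  set T := max 0 (20 * (Real.log D - Real.log κ - 3 / 5 * Real.log c + 6 / 5)) with hT
  have hT0 : 0 ≤ T := le_max_left _ _
  have hT1 := le_max_right 0 (20 * (Real.log D - Real.log κ - 3 / 5 * Real.log c + 6 / 5))
  refine ⟨Real.exp (-T), Real.exp_pos _, Real.exp_le_one_iff.2 (by linarith), fun t w ht h hw => ?_⟩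
  have h1 : Real.log t ≤ -T := (Real.log_le_iff_le_exp ht).2 h
  have h2 := Real.log_le_log (by positivity) hw
  rw [Real.log_div hc.ne' (by positivity), Real.log_rpow ht] at h2
  rw [← Real.exp_log (div_pos hD ht), ← Real.exp_log hκ, ← Real.exp_add, Real.log_div hD.ne' ht.ne',
    Real.exp_le_exp]
  linarith

theorem exists_young (A : ℝ) {η : ℝ} (hη : 0 < η) :
    ∃ V : ℝ, 0 ≤ V ∧ ∀ o : ℝ, A * |o| ≤ η / 4 + V * o ^ 4 := by
  refine ⟨η / 4 * (4 * A / η) ^ 4, by positivity, fun o => ?_⟩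
  have h1 : ∀ x : ℝ, x ≤ 1 + x ^ 4 := fun x => by nlinarith [sq_nonneg (x ^ 2 - 1), sq_nonneg (x - 1)]
  have h2 := mul_le_mul_of_nonneg_left (h1 (4 * A / η * |o|)) (by positivity : 0 ≤ η / 4)
  have h3 : |o| ^ 4 = o ^ 4 := Even.pow_abs (by decide) o
  have h4 : η / 4 * (4 * A / η * |o|) = A * |o| := by field_simp
  rw [mul_pow, h3, h4] at h2
  linarith

/-! ### the three regions -/

theorem regA {o G Z u cs Q T s s' δ : ℝ} (hT : T ≤ cs) (hI : s + cs ≤ G * o ^ 4 + Q) (hZ : -δ ≤ Z)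
    (hδ : δ * o ^ 4 ≤ s / 2) (hs : s' ≤ s / 2) : s' + T ≤ (G + Z + u ^ 2 / 2) * o ^ 4 + Q := by
  have h4 : 0 ≤ o ^ 4 := by positivity
  nlinarith [mul_le_mul_of_nonneg_right hZ h4, mul_nonneg (sq_nonneg u) h4]

theorem regB {o G Z u cs gp lam lam' b0 B T K s' η Λ V : ℝ}
    (hT : T ≤ cs + 2 * o ^ 2 * (lam' * u) + 2 * lam * gp) (hZ : K + V ≤ Z) (hB : η ≤ B)
    (hl' : 2 * lam' ^ 2 ≤ η / 2) (hl0 : 0 ≤ lam) (hl : lam ≤ Λ) (hcs : cs ≤ K * |o|)
    (hgp : gp ≤ K * |o|) (hK : 0 ≤ K) (hG : |G| ≤ K)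
    (hV : K * (1 + 2 * Λ) * |o| ≤ η / 4 + V * o ^ 4) (hs : s' ≤ η / 4) :
    s' + T ≤ (G + Z + u ^ 2 / 2) * o ^ 4 + ((b0 + lam) ^ 2 + B) := by
  have h4 : 0 ≤ o ^ 4 := by positivity
  have h1 : 2 * o ^ 2 * (lam' * u) ≤ u ^ 2 / 2 * o ^ 4 + 2 * lam' ^ 2 := by
    nlinarith [sq_nonneg (u * o ^ 2 - 2 * lam')]
  have h2 : lam * gp ≤ Λ * (K * |o|) :=
    (mul_le_mul_of_nonneg_left hgp hl0).trans (mul_le_mul_of_nonneg_right hl (by positivity))
  have h3 : V * o ^ 4 ≤ (G + Z) * o ^ 4 :=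
    mul_le_mul_of_nonneg_right (by linarith [neg_abs_le G]) h4
  nlinarith [sq_nonneg (b0 + lam)]

theorem regC {o χ G Z u cs gp gc lam lam' b0 B T K s' : ℝ}
    (hT : T ≤ χ ^ 2 * (cs + 2 * o ^ 2 * (lam' * u) + 2 * lam * gp) + 4 * o ^ 2 * χ * gc * (K + lam))
    (hZ : 0 ≤ Z) (hB : 0 ≤ B) (hl0 : 0 ≤ lam') (hl' : lam' ≤ 2 / 3 * lam)
    (hl : 54 * K + 9 + 72 * K * gc ≤ lam) (hgc : 0 ≤ gc) (hχ0 : 0 ≤ χ) (hχ : χ ≤ 1)
    (hcs : cs ≤ K) (hgp : gp ≤ K) (hK : 1 ≤ K) (ho : o ^ 2 ≤ K) (hG : |G| * o ^ 4 ≤ K)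
    (hb : |b0| ≤ K) (hs : s' ≤ 1) :
    s' + T ≤ (G + Z + u ^ 2 / 2) * (o * χ) ^ 4 + ((b0 + lam) ^ 2 + B) := by
  have hKg : 0 ≤ K * gc := by positivity
  have hl1 : K ≤ lam := by linarith
  have hlam : 0 ≤ lam := by linarith
  have hχ2 : χ ^ 2 ≤ 1 := pow_le_one₀ hχ0 hχ
  have hχ4 : χ ^ 4 ≤ 1 := pow_le_one₀ hχ0 hχ
  have h1 : χ ^ 2 * (2 * o ^ 2 * (lam' * u)) ≤ u ^ 2 / 2 * (o * χ) ^ 4 + 2 * lam' ^ 2 := by
    nlinarith [sq_nonneg (u * (o * χ) ^ 2 - 2 * lam')]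
  have h2 : χ ^ 2 * (cs + 2 * lam * gp) ≤ K + 2 * lam * K := by
    have h21 : cs + 2 * lam * gp ≤ K + 2 * lam * K := by nlinarith
    have h22 : 0 ≤ K + 2 * lam * K := by positivity
    nlinarith [mul_le_mul_of_nonneg_left h21 (sq_nonneg χ)]
  have h3 : 4 * o ^ 2 * χ * gc * (K + lam) ≤ 8 * (K * gc) * lam := by
    have h31 : o ^ 2 * χ ≤ K := (mul_le_of_le_one_right (sq_nonneg o) hχ).trans ho
    have h32 : o ^ 2 * χ * gc ≤ K * gc := mul_le_mul_of_nonneg_right h31 hgc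
    have h33 : o ^ 2 * χ * gc * (K + lam) ≤ K * gc * (2 * lam) :=
      mul_le_mul h32 (by linarith) (by linarith) hKg
    linarith
  have h4 : -K ≤ G * (o * χ) ^ 4 := by
    have h41 : |G| * (o * χ) ^ 4 ≤ |G| * o ^ 4 := by
      rw [mul_pow]
      exact mul_le_mul_of_nonneg_left (mul_le_of_le_one_right (by positivity) hχ4) (abs_nonneg G)
    have h42 : -|G| * (o * χ) ^ 4 ≤ G * (o * χ) ^ 4 :=
      mul_le_mul_of_nonneg_right (neg_abs_le G) (by positivity)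
    linarith
  have h5 : 0 ≤ Z * (o * χ) ^ 4 := by positivity
  have h6 : lam ^ 2 - 2 * K * lam ≤ (b0 + lam) ^ 2 := by
    nlinarith [mul_le_mul_of_nonneg_right (neg_le_of_abs_le hb) hlam, sq_nonneg b0]
  have h7 : lam' ^ 2 ≤ (2 / 3 * lam) ^ 2 := pow_le_pow_left₀ hl0 hl' 2
  have h8 : (54 * K + 9 + 72 * K * gc) * lam ≤ lam * lam := mul_le_mul_of_nonneg_right hl hlam
  have h9 : (2 * K + 1) * 1 ≤ (2 * K + 1) * lam :=
    mul_le_mul_of_nonneg_left (by linarith) (by linarith)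
  nlinarith

/-! ### the cost function -/

variable {d : ℕ} {ι : Type} [Fintype ι] [DecidableEq ι] {X : Type} [TopologicalSpace X]
  [MeasurableSpace X] {M : Imm d ι X} {p : X}

theorem cost_eq (om a : X → ℝ) (p : X) : M.cost om a p =
    2 * ‖om p ^ 2 • M.grad a p - a p • M.grad (fun q => om q ^ 2) p‖ := by
  rw [Imm.cost, EuclideanSpace.norm_eq]
  simp [Imm.grad]

theorem cost_nonneg (om a : X → ℝ) (p : X) : 0 ≤ M.cost om a p := by
  rw [cost_eq]; positivity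

theorem grad_add {f g : X → ℝ} (hf : M.DiffAt f p) (hg : M.DiffAt g p) :
    M.grad (fun q => f q + g q) p = M.grad f p + M.grad g p := by
  ext c; simp [Imm.grad, Imm.D_add hf hg]

theorem grad_mul {f g : X → ℝ} (hf : M.DiffAt f p) (hg : M.DiffAt g p) :
    M.grad (fun q => f q * g q) p = f p • M.grad g p + g p • M.grad f p := by
  ext c; simp [Imm.grad, Imm.D_mul hf hg, mul_comm]

theorem grad_comp {f : X → ℝ} (hf : M.DiffAt f p) {g : ℝ → ℝ} {g' : ℝ} (hg : HasDerivAt g g' (f p)) :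
    M.grad (fun q => g (f q)) p = g' • M.grad f p := by
  ext c; simp [Imm.grad, Imm.D_comp hf hg]

theorem grad_const (c : ℝ) (p : X) : M.grad (fun _ => c) p = 0 := by
  ext a; simp [Imm.grad, Imm.D_const]

theorem grad_sq {f : X → ℝ} (hf : M.DiffAt f p) :
    M.grad (fun q => f q ^ 2) p = (2 * f p) • M.grad f p := by
  simpa using grad_comp hf (hasDerivAt_pow 2 (f p))

theorem norm_grad_sq {f : X → ℝ} (hf : M.DiffAt f p) :
    ‖M.grad (fun q => f q ^ 2) p‖ = 2 * ‖M.grad f p‖ * |f p| := by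
  rw [grad_sq hf, norm_smul, Real.norm_eq_abs, abs_mul, abs_two]; ring

theorem cost_add_le (om : X → ℝ) {f g : X → ℝ} (hf : M.DiffAt f p) (hg : M.DiffAt g p) :
    M.cost om (fun q => f q + g q) p ≤ M.cost om f p + 2 * om p ^ 2 * ‖M.grad g p‖ +
      2 * |g p| * ‖M.grad (fun q => om q ^ 2) p‖ := by
  rw [cost_eq, cost_eq, grad_add hf hg]
  have h : om p ^ 2 • (M.grad f p + M.grad g p) - (f p + g p) • M.grad (fun q => om q ^ 2) p =
      (om p ^ 2 • M.grad f p - f p • M.grad (fun q => om q ^ 2) p) + om p ^ 2 • M.grad g p -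
        g p • M.grad (fun q => om q ^ 2) p := by module
  have h1 := norm_sub_le ((om p ^ 2 • M.grad f p - f p • M.grad (fun q => om q ^ 2) p) +
    om p ^ 2 • M.grad g p) (g p • M.grad (fun q => om q ^ 2) p)
  have h2 := norm_add_le (om p ^ 2 • M.grad f p - f p • M.grad (fun q => om q ^ 2) p)
    (om p ^ 2 • M.grad g p)
  rw [norm_smul, Real.norm_eq_abs] at h1 h2
  rw [abs_of_nonneg (sq_nonneg _)] at h2
  rw [h]; linarith

theorem cost_mul_le {om χ : X → ℝ} (ho : M.DiffAt om p) (hχ : M.DiffAt χ p) (f : X → ℝ) :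
    M.cost (fun q => om q * χ q) f p ≤ χ p ^ 2 * M.cost om f p +
      4 * om p ^ 2 * |χ p| * ‖M.grad χ p‖ * |f p| := by
  have hd : M.DiffAt (fun q => om q * χ q) p := DifferentiableAt.mul ho hχ
  rw [cost_eq, cost_eq, grad_sq hd, grad_sq ho, grad_mul ho hχ]
  have h : (om p * χ p) ^ 2 • M.grad f p - f p • (2 * (om p * χ p)) •
      (om p • M.grad χ p + χ p • M.grad om p) =
      χ p ^ 2 • (om p ^ 2 • M.grad f p - f p • (2 * om p) • M.grad om p) -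
        (2 * om p ^ 2 * χ p * f p) • M.grad χ p := by module
  have h1 := norm_sub_le (χ p ^ 2 • (om p ^ 2 • M.grad f p - f p • (2 * om p) • M.grad om p))
    ((2 * om p ^ 2 * χ p * f p) • M.grad χ p)
  rw [norm_smul, norm_smul, Real.norm_eq_abs, Real.norm_eq_abs, abs_of_nonneg (sq_nonneg _),
    abs_mul, abs_mul, abs_of_nonneg (by positivity : 0 ≤ 2 * om p ^ 2)] at h1
  rw [h]; linarith

theorem cost_le {om : X → ℝ} (ho : M.DiffAt om p) (f : X → ℝ) :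
    M.cost om f p ≤ 2 * (|om p| * ‖M.grad f p‖ + 2 * |f p| * ‖M.grad om p‖) * |om p| := by
  have h1 := norm_sub_le (om p ^ 2 • M.grad f p) (f p • M.grad (fun q => om q ^ 2) p)
  rw [norm_smul, norm_smul, norm_grad_sq ho, Real.norm_eq_abs, Real.norm_eq_abs, abs_pow] at h1
  rw [cost_eq]; linarith

end Crest.Agent.N222.Sh

end
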