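import Crest.Agent.N222.B.Pic
import Crest.Agent.N222.F.Graph

/-!
# Row 222, part B: the stability inequality (helper31)
-/

set_option autoImplicit false
set_option linter.unusedSectionVars false
open MeasureTheory Set Filter Topology Function Metric
open scoped ContDiff InnerProductSpace RealInnerProductSpace

noncomputable section

namespace Crest.Agent.N222

namespace Sb

variable {d : ℕ} {ι : Type} [Fintype ι] [DecidableEq ι] {X : Type} [TopologicalSpace X]
  [T2Space X] [SecondCountableTopology X] [MeasurableSpace X] [BorelSpace X] [CompactSpace X]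
  {M : Imm d ι X} {z w F u : X → ℝ}

theorem exists_abs_le {f : X → ℝ} (hf : Continuous f) : ∃ C : ℝ, 0 ≤ C ∧ ∀ p, |f p| ≤ C := by
  obtain ⟨C, hC⟩ := isCompact_univ.exists_bound_of_continuousOn hf.continuousOn
  exact ⟨max C 0, le_max_right _ _, fun p => (hC p trivial).trans (le_max_left _ _)⟩

theorem hcs (f : X → ℝ) : HasCompactSupport f := HasCompactSupport.of_compactSpace f

theorem tst (hz : M.Sm z) : M.Tst z := ⟨hz, hcs z⟩

theorem int {f : X → ℝ} (hf : M.Sm f) : Integrable f M.mu :=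
  hf.continuous.integrable_of_hasCompactSupport (hcs f)

/-- the gradient of a product -/
theorem gam_mul_le (hw : M.Sm w) (hz : M.Sm z) {ε : ℝ} (hε : 0 < ε) (p : X) :
    M.pre.gam (fun q => w q * z q) (fun q => w q * z q) p ≤
      (1 + ε) * (z p ^ 2 * M.pre.gam w w p) + (1 + 1 / ε) * (w p ^ 2 * M.pre.gam z z p) := by
  simp only [Imm.gam_apply, Finset.mul_sum, ← Finset.sum_add_distrib,
    Imm.D_mul (hw.diffAt p) (hz.diffAt p)]
  refine Finset.sum_le_sum fun a _ => ?_
  have h1 : 0 ≤ (ε * (z p * M.pre.D a w p) - w p * M.pre.D a z p) ^ 2 / ε := by positivity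
  have h2 : (ε * (z p * M.pre.D a w p) - w p * M.pre.D a z p) ^ 2 / ε =
      (1 + ε) * (z p ^ 2 * (M.pre.D a w p * M.pre.D a w p)) +
        (1 + 1 / ε) * (w p ^ 2 * (M.pre.D a z p * M.pre.D a z p)) -
      (w p * M.pre.D a z p + M.pre.D a w p * z p) * (w p * M.pre.D a z p + M.pre.D a w p * z p) := by
    field_simp
    ring
  linarith

theorem abs_Xf_le (M : Imm d ι X) (u : X → ℝ) (a : ι) (p : X) : |M.Xf u a p| ≤ 1 := by
  have h1 := Finset.single_le_sum (f := fun a => M.Xf u a p * M.Xf u a p)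
    (fun a _ => mul_self_nonneg _) (Finset.mem_univ a)
  rw [M.sum_Xf_sq] at h1
  exact abs_le_one_iff_mul_self_le_one.2 (h1.trans (by nlinarith [sq_nonneg (M.vv u p)]))

theorem exists_RicF (hF : M.Sm F) : ∃ C : ℝ, ∀ u p, -C ≤ M.pre.RicF F (M.Xf u) p := by
  choose C hC0 hC using fun a b => exists_abs_le ((M.sm_Ric a b).sub (hF.hess a b)).continuous
  refine ⟨∑ a, ∑ b, C a b, fun u p => ?_⟩
  have e : M.pre.RicF F (M.Xf u) p =
      ∑ a, ∑ b, (M.pre.Ric a b p - M.pre.hess F a b p) * (M.Xf u a p * M.Xf u b p) := by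
    simp [Pre.RicF, Finset.sum_apply]
  rw [e, ← Finset.sum_neg_distrib]
  refine Finset.sum_le_sum fun a _ => ?_
  rw [← Finset.sum_neg_distrib]
  refine Finset.sum_le_sum fun b _ => neg_le_of_abs_le ?_
  rw [abs_mul, abs_mul]
  exact (mul_le_mul (hC a b p) (mul_le_one₀ (abs_Xf_le M u a p) (abs_nonneg _) (abs_Xf_le M u b p))
    (by positivity) (hC0 a b)).trans (mul_one _).le

end Sb

open Sb in
/-- stability -/
theorem stab : StabStmt := by
  intro d ι _ _ X _ _ _ _ _ _ M F _ hF Λ ε hε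
  obtain ⟨C1, hC1⟩ := exists_RicF hF
  obtain ⟨C2, -, hC2⟩ := exists_abs_le (hF.gam hF).continuous
  refine ⟨C1 + Λ + (1 + 1 / ε) * (C2 / 4), fun u hu z hz => ?_⟩
  have hs := hu.sm
  set N := M.graph u hs with hN
  have eP : N.pre = M.gS u := Imm.graph_pre hs
  have eμ : N.mu = M.gmu u := Imm.graph_mu hs
  have hw : N.Sm fun q => Real.exp (-(1 / 2) * F q) := ((Imm.sm_const _).mul hF).exp
  have hz' : N.Sm z := hz
  have hF' : N.Sm F := hF
  have hv : N.Sm (M.vv u) := hs.vv
  have ha : N.Sm (M.a2 u) := hs.a2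
  have hzw := hz'.mul hw
  have key := pic d (Option ι) X N F (M.vv u) _ hF hv (M.vv_pos u) (tst hzw)
  have ee : ∀ p, Real.exp (-(1 / 2) * F p) ^ 2 * Real.exp (F p) = 1 := fun p => by
    rw [sq, ← Real.exp_add, ← Real.exp_add, Real.exp_eq_one_iff]
    ring
  rw [← eP, ← eμ]
  have i1 := int (ha.mul (hz'.pow 2))
  have i2 := int (hz'.pow 2)
  have i3 := int (hz'.gam hz')
  have h1 : ∫ p, (M.a2 u p * z p ^ 2 - (C1 + Λ) * z p ^ 2) ∂N.mu ≤
      ∫ p, ((1 + ε) * N.pre.gam z z p + (1 + 1 / ε) * (C2 / 4) * z p ^ 2) ∂N.mu := by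
    refine le_trans (integral_mono (i1.sub (i2.const_mul _)) (int
      ((((hF'.lapF hv).neg.div hv fun p => (M.vv_pos u p).ne').mul (hzw.pow 2)).mul hF'.exp))
      fun p => ?_) (key.trans (integral_mono (int ((hzw.gam hzw).mul hF'.exp))
        ((i3.const_mul (1 + ε)).add (i2.const_mul ((1 + 1 / ε) * (C2 / 4)))) fun p => ?_))
    · have e1 := Imm.jacobi hs hF p
      rw [← eP] at e1
      have e2 := hC1 u p
      have e3 := hu.xh p
      simp only
      rw [e1, mul_div_cancel_right₀ _ (M.vv_pos u p).ne', mul_pow, mul_assoc, mul_assoc, ee,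
        mul_one, ← sub_mul]
      exact mul_le_mul_of_nonneg_right (by linarith) (sq_nonneg _)
    · have e1 := mul_le_mul_of_nonneg_right (gam_mul_le hz' hw hε p) (Real.exp_pos (F p)).le
      have e2 : N.pre.gam (fun q => Real.exp (-(1 / 2) * F q)) (fun q => Real.exp (-(1 / 2) * F q)) p
          = Real.exp (-(1 / 2) * F p) ^ 2 * (N.pre.gam F F p / 4) := by
        have : ∀ a, N.pre.D a (fun q => Real.exp (-(1 / 2) * F q)) p =
            Real.exp (-(1 / 2) * F p) * (-(1 / 2)) * N.pre.D a F p := fun a =>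
          Imm.D_comp (hF'.diffAt p) (g := fun t => Real.exp (-(1 / 2) * t))
            (by simpa using ((hasDerivAt_id (F p)).const_mul (-(1 / 2) : ℝ)).exp) a
        simp only [Imm.gam_apply, this, Finset.mul_sum, Finset.sum_div]
        exact Finset.sum_congr rfl fun a _ => by ring
      have e3 : N.pre.gam F F p ≤ C2 := by
        rw [eP]
        exact (M.gS_gam_le u F p).trans ((le_abs_self _).trans (hC2 p))
      refine e1.trans ?_
      have e4 : (1 + 1 / ε) * (z p ^ 2 * (N.pre.gam F F p / 4)) ≤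
          (1 + 1 / ε) * (z p ^ 2 * (C2 / 4)) := by gcongr
      rw [e2]
      calc _ = ((1 + ε) * N.pre.gam z z p + (1 + 1 / ε) * (z p ^ 2 * (N.pre.gam F F p / 4))) *
          (Real.exp (-(1 / 2) * F p) ^ 2 * Real.exp (F p)) := by ring
        _ ≤ _ := by rw [ee]; linarith
  rw [integral_sub i1 (i2.const_mul _), integral_add (i3.const_mul _) (i2.const_mul _),
    integral_const_mul, integral_const_mul, integral_const_mul] at h1
  linarith

end Crest.Agent.N222

end
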