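import Crest.Agent.N222.B.E0

/-!
# Row 222, part B, ε-regularity block: two planes violate the calibration inequality
-/

set_option autoImplicit false
set_option linter.unusedSectionVars false
open MeasureTheory Set Filter Topology Function Metric
open scoped ContDiff InnerProductSpace RealInnerProductSpace

noncomputable section

namespace Crest.Agent.N222

namespace EP
variable {d : ℕ} {n1 n2 : Y d} {J1 J2 : E (Fin d) →ₗᵢ[ℝ] Y d}

namespace TP

section gauss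
variable {F : Type} [NormedAddCommGroup F] [InnerProductSpace ℝ F] [FiniteDimensional ℝ F]
  [MeasurableSpace F] [BorelSpace F]

theorem integrable_gauss {b : ℝ} (hb : 0 < b) :
    Integrable fun y : F => Real.exp (-b * ‖y‖ ^ 2) := by
  refine (GaussianFourier.integrable_cexp_neg_mul_sq_norm_add (V := F) (b := b)
    (by simpa using hb) 0 0).norm.congr (.of_forall fun y => ?_)
  simp only [zero_mul, add_zero, Complex.norm_exp]
  congr 1
  rw [← Complex.ofReal_neg, ← Complex.ofReal_pow, ← Complex.ofReal_mul, Complex.ofReal_re]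

theorem integrable_of_le {u : F → ℝ} (hu : Continuous u) {b C : ℝ} (hb : 0 < b) (hC : 0 ≤ C)
    (h : ∀ y, |u y| ≤ C * (1 + ‖y‖ ^ 2) * Real.exp (-b * ‖y‖ ^ 2)) : Integrable u := by
  refine ((integrable_gauss (half_pos hb)).const_mul (C * (1 + 2 / b))).mono'
    hu.aestronglyMeasurable (.of_forall fun y => (h y).trans ?_)
  have e : Real.exp (-(b / 2) * ‖y‖ ^ 2)
      = Real.exp (b / 2 * ‖y‖ ^ 2) * Real.exp (-b * ‖y‖ ^ 2) := by
    rw [← Real.exp_add]; congr 1; ring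
  have h1 := Real.add_one_le_exp (b / 2 * ‖y‖ ^ 2)
  have h2 : 1 + ‖y‖ ^ 2 ≤ (1 + 2 / b) * (b / 2 * ‖y‖ ^ 2 + 1) := by
    have : (1 + 2 / b) * (b / 2 * ‖y‖ ^ 2 + 1) = 1 + ‖y‖ ^ 2 + (b / 2 * ‖y‖ ^ 2 + 2 / b) := by
      field_simp; ring
    rw [this]; exact le_add_of_nonneg_right (by positivity)
  rw [e, ← mul_assoc, mul_assoc C (1 + 2 / b)]
  gcongr
  exact h2.trans (mul_le_mul_of_nonneg_left h1 (by positivity))

end gauss

/-- the calibration inequality for two planes through `s₁ n₁` and `s₂ n₂` -/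
def Cal (n1 n2 : Y d) (J1 J2 : E (Fin d) →ₗᵢ[ℝ] Y d) (s1 s2 : ℝ) : Prop :=
  ∀ f : Y d → ℝ, ContDiff ℝ ∞ f → HasCompactSupport f → (∀ y, 0 ≤ f y) →
    2 * ((∫ z, f (s1 • n1 + J1 z)) + ∫ z, f (s2 • n2 + J2 z)) ≤ ∫ y, ‖fderiv ℝ f y‖

theorem plane_eq {n : Y d} {J : E (Fin d) →ₗᵢ[ℝ] Y d} (h : Split n J) (f : Y d → ℝ) (y : Y d) :
    ∫ z, f (y + J z) = ∫ z, f (⟪n, y⟫ • n + J z) := by
  obtain ⟨w, hw⟩ := h.surj y
  rw [← integral_add_left_eq_self (fun z => f (⟪n, y⟫ • n + J z)) w]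
  refine integral_congr_ae (.of_forall fun z => ?_)
  beta_reduce
  rw [map_add, ← add_assoc, ← hw]

theorem plane_scale (n : Y d) (J : E (Fin d) →ₗᵢ[ℝ] Y d) (f : Y d → ℝ) (s : ℝ) {l : ℝ}
    (hl : 0 < l) : ∫ z, f (l⁻¹ • (s • n + J z)) = l ^ d * ∫ z, f ((l⁻¹ * s) • n + J z) := by
  have := Measure.integral_comp_inv_smul_of_nonneg volume
    (fun z => f ((l⁻¹ * s) • n + J z)) hl.le
  rw [finrank_euclideanSpace_fin, smul_eq_mul] at this
  rw [← this]
  simp only [smul_add, map_smul, smul_smul]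

theorem norm_fderiv_scale {f : Y d → ℝ} (hf : Differentiable ℝ f) {c : ℝ} (hc : 0 ≤ c) (y : Y d) :
    ‖fderiv ℝ (fun y => f (c • y)) y‖ = c * ‖fderiv ℝ f (c • y)‖ := by
  have h : HasFDerivAt (fun y => f (c • y)) _ y :=
    (hf (c • y)).hasFDerivAt.comp y ((hasFDerivAt_id y).const_smul c)
  rw [h.fderiv, ContinuousLinearMap.comp_smul, ContinuousLinearMap.comp_id, norm_smul, Real.norm_of_nonneg hc]

/-- blowing down -/
theorem Cal.scale {s1 s2 : ℝ} (h : Cal n1 n2 J1 J2 s1 s2) {l : ℝ} (hl : 0 < l) :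
    Cal n1 n2 J1 J2 (l⁻¹ * s1) (l⁻¹ * s2) := fun f hf hc h0 => by
  have := h (fun y => f (l⁻¹ • y)) (hf.comp (contDiff_const_smul _))
    (hc.comp_homeomorph (Homeomorph.smulOfNeZero l⁻¹ (inv_ne_zero hl.ne'))) fun _ => h0 _
  simp only [norm_fderiv_scale (hf.differentiable (by simp)) (inv_nonneg.2 hl.le)] at this
  rw [plane_scale _ _ _ _ hl, plane_scale _ _ _ _ hl, integral_const_mul,
    Measure.integral_comp_inv_smul_of_nonneg volume (fun y => ‖fderiv ℝ f y‖) hl.le,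
    finrank_euclideanSpace_fin, smul_eq_mul, ← mul_add, pow_succ' l, mul_assoc l,
    inv_mul_cancel_left₀ hl.ne', mul_left_comm] at this
  exact le_of_mul_le_mul_left this (pow_pos hl d)

/-- the cut-off -/
def chi (y : Y d) : ℝ := Phi (‖y - 0‖ ^ 2 / 1 ^ 2)

theorem tendsto_plane {n : Y d} {J : E (Fin d) →ₗᵢ[ℝ] Y d} (h : Split n J) {g : Y d → ℝ}
    (hg : Continuous g) {b : ℝ} (hb : 0 < b) (h0 : ∀ y, 0 ≤ g y)
    (hle : ∀ y, g y ≤ Real.exp (-b * ‖y‖ ^ 2)) (s : ℝ) {c : ℕ → ℝ} (hc : Tendsto c atTop (𝓝 0)) :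
    Tendsto (fun k => ∫ z, g ((c k * s) • n + J z) * chi (c k • ((c k * s) • n + J z))) atTop
      (𝓝 (∫ z, g (J z))) := by
  have hχ : Continuous (chi : Y d → ℝ) := (contDiff_Phi_ball 0 1).continuous
  refine tendsto_integral_of_dominated_convergence (fun z => Real.exp (-b * ‖z‖ ^ 2))
    (fun k => Continuous.aestronglyMeasurable (by fun_prop)) (integrable_gauss hb)
    (fun k => .of_forall fun z => ?_) (.of_forall fun z => ?_)
  · rw [chi, Real.norm_of_nonneg (mul_nonneg (h0 _) (Phi_nonneg _))]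
    refine (mul_le_of_le_one_right (h0 _) (Phi_le_one _)).trans ((hle _).trans ?_)
    rw [h.norm_sq]
    exact Real.exp_le_exp.2 (by nlinarith [sq_nonneg (c k * s)])
  · have hF : Continuous fun t : ℝ => g ((t * s) • n + J z) * chi (t • ((t * s) • n + J z)) := by
      fun_prop
    have := (hF.tendsto 0).comp hc
    rw [zero_mul, zero_smul, zero_smul, zero_add, chi, Phi_of_le (by simp), mul_one] at this
    exact this

/-- the inequality for planes through the origin and rapidly decreasing functions -/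
theorem Cal.gauss (h1 : Split n1 J1) (h2 : Split n2 J2) {s1 s2 : ℝ} (h : Cal n1 n2 J1 J2 s1 s2)
    {g : Y d → ℝ} (hg : ContDiff ℝ ∞ g) {b : ℝ} (hb : 0 < b) (h0 : ∀ y, 0 ≤ g y)
    (hle : ∀ y, g y ≤ Real.exp (-b * ‖y‖ ^ 2)) (hD : Integrable fun y => ‖fderiv ℝ g y‖) :
    2 * ((∫ z, g (J1 z)) + ∫ z, g (J2 z)) ≤ ∫ y, ‖fderiv ℝ g y‖ := by
  have hχ : ContDiff ℝ ∞ (chi : Y d → ℝ) := contDiff_Phi_ball 0 1
  have hχc : HasCompactSupport (chi : Y d → ℝ) := hcs_Phi 0 one_pos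
  obtain ⟨C, hC⟩ := (hχ.continuous_fderiv (by simp)).bounded_above_of_compact_support
    (hχc.fderiv ℝ)
  have hgi : Integrable g := (integrable_gauss hb).mono' hg.continuous.aestronglyMeasurable
    (.of_forall fun y => by rw [Real.norm_of_nonneg (h0 y)]; exact hle y)
  have hc : Tendsto (fun k : ℕ => ((k : ℝ) + 1)⁻¹) atTop (𝓝 0) := by
    simpa using tendsto_one_div_add_atTop_nhds_zero_nat (𝕜 := ℝ)
  have hr := ((hc.mul_const (C * ∫ y, g y)).const_add (∫ y, ‖fderiv ℝ g y‖))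
  rw [zero_mul, add_zero] at hr
  refine le_of_tendsto_of_tendsto' (((tendsto_plane h1 hg.continuous hb h0 hle s1 hc).add
    (tendsto_plane h2 hg.continuous hb h0 hle s2 hc)).const_mul 2) hr fun k => ?_
  have hk : (0 : ℝ) < k + 1 := by positivity
  have hχk : ContDiff ℝ ∞ fun y : Y d => chi (((k : ℝ) + 1)⁻¹ • y) :=
    hχ.comp (contDiff_const_smul _)
  refine (h.scale hk (fun y => g y * chi (((k : ℝ) + 1)⁻¹ • y)) (hg.mul hχk)
    (hχc.comp_homeomorph (Homeomorph.smulOfNeZero _ (inv_ne_zero hk.ne'))).mul_left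
    fun y => mul_nonneg (h0 _) (Phi_nonneg _)).trans ?_
  rw [← mul_assoc, ← integral_const_mul, ← integral_add hD (hgi.const_mul _)]
  refine integral_mono_of_nonneg (.of_forall fun _ => norm_nonneg _) (hD.add (hgi.const_mul _))
    (.of_forall fun y => ?_)
  beta_reduce
  rw [fderiv_fun_mul (hg.differentiable (by simp) y) (hχk.differentiable (by simp) y)]
  refine (norm_add_le _ _).trans ((add_comm _ _).trans_le (add_le_add ?_ ?_))
  · rw [norm_smul, chi, Real.norm_of_nonneg (Phi_nonneg _)]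
    exact mul_le_of_le_one_left (norm_nonneg _) (Phi_le_one _)
  · rw [norm_smul, Real.norm_of_nonneg (h0 _), mul_comm,
      norm_fderiv_scale (hχ.differentiable (by simp)) (inv_nonneg.2 hk.le)]
    gcongr
    · exact h0 _
    · exact hC _

/-- the gradient of the quadratic form -/
def A (n1 n2 : Y d) (ε : ℝ) (y : Y d) : Y d := ⟪n1, y⟫ • n1 + ⟪n2, y⟫ • n2 + ε • y

/-- the anisotropic Gaussian -/
def g (n1 n2 : Y d) (ε : ℝ) (y : Y d) : ℝ :=
  Real.exp (-(⟪n1, y⟫ ^ 2 + ⟪n2, y⟫ ^ 2 + ε * ‖y‖ ^ 2) / 2)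

variable {ε : ℝ}

theorem g_comm (n1 n2 : Y d) (ε : ℝ) : g n1 n2 ε = g n2 n1 ε := by
  funext y; rw [g, g, add_comm (⟪n1, y⟫ ^ 2)]

theorem g_pos (y : Y d) : 0 < g n1 n2 ε y := Real.exp_pos _

theorem g_le (y : Y d) : g n1 n2 ε y ≤ Real.exp (-(ε / 2) * ‖y‖ ^ 2) :=
  Real.exp_le_exp.2 (by nlinarith [sq_nonneg ⟪n1, y⟫, sq_nonneg ⟪n2, y⟫])

theorem contDiff_g : ContDiff ℝ ∞ (g n1 n2 ε) :=
  (((((contDiff_const.inner ℝ contDiff_id).pow 2).add
    ((contDiff_const.inner ℝ contDiff_id).pow 2)).add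
    (contDiff_const.mul (contDiff_norm_sq ℝ))).neg.div_const 2).exp

theorem continuous_A : Continuous (A n1 n2 ε) := by unfold A; fun_prop

theorem fderiv_g (y v : Y d) :
    fderiv ℝ (g n1 n2 ε) y v = -(g n1 n2 ε y * ⟪A n1 n2 ε y, v⟫) := by
  have h : HasFDerivAt (g n1 n2 ε) _ y :=
    ((((((innerSL ℝ n1).hasFDerivAt.pow 2).add ((innerSL ℝ n2).hasFDerivAt.pow 2)).add
      ((hasStrictFDerivAt_norm_sq y).hasFDerivAt.const_mul ε)).neg.mul_const (2⁻¹ : ℝ)).exp)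
  rw [h.fderiv, g, A]
  simp [inner_add_left, inner_smul_left, div_eq_mul_inv]
  ring

theorem norm_A_le (hn1 : ‖n1‖ = 1) (hn2 : ‖n2‖ = 1) (hε : 0 < ε) (y : Y d) :
    ‖A n1 n2 ε y‖ ≤ (2 + ε) * ‖y‖ := by
  have a1 := abs_real_inner_le_norm n1 y
  have a2 := abs_real_inner_le_norm n2 y
  have := norm_add₃_le (a := ⟪n1, y⟫ • n1) (b := ⟪n2, y⟫ • n2) (c := ε • y)
  simp only [norm_smul, hn1, hn2, Real.norm_eq_abs, abs_of_pos hε, one_mul, mul_one] at *
  rw [A]; linarith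

theorem int_mul (hε : 0 < ε) {p : Y d → ℝ} (hp : Continuous p) {C : ℝ} (hC : 0 ≤ C)
    (h : ∀ y, |p y| ≤ C * (1 + ‖y‖ ^ 2)) : Integrable fun y => p y * g n1 n2 ε y :=
  integrable_of_le (hp.mul contDiff_g.continuous) (half_pos hε) hC fun y => by
    rw [abs_mul, abs_of_pos (g_pos y)]
    exact mul_le_mul (h y) (g_le y) (g_pos y).le (by positivity)

theorem int_g (hε : 0 < ε) : Integrable (g n1 n2 ε) := by
  simpa using int_mul (n1 := n1) (n2 := n2) hε (continuous_const (y := 1)) zero_le_one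
    fun y => by simp

theorem int_ibp (hn1 : ‖n1‖ = 1) (hn2 : ‖n2‖ = 1) (hε : 0 < ε) (u v : Y d) :
    Integrable fun y => ⟪u, y⟫ * ⟪A n1 n2 ε y, v⟫ * g n1 n2 ε y := by
  have := continuous_A (n1 := n1) (n2 := n2) (ε := ε)
  refine int_mul hε (by fun_prop) (C := ‖u‖ * ((2 + ε) * ‖v‖)) (by positivity) fun y => ?_
  rw [abs_mul]
  calc _ ≤ ‖u‖ * ‖y‖ * ((2 + ε) * ‖y‖ * ‖v‖) := by
        gcongr
        · exact abs_real_inner_le_norm _ _
        · exact (abs_real_inner_le_norm _ _).trans (by gcongr; exact norm_A_le hn1 hn2 hε y)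
    _ = ‖u‖ * ((2 + ε) * ‖v‖) * ‖y‖ ^ 2 := by ring
    _ ≤ _ := by gcongr; linarith

/-- Gaussian integration by parts -/
theorem ibp (hn1 : ‖n1‖ = 1) (hn2 : ‖n2‖ = 1) (hε : 0 < ε) (u v : Y d) :
    ∫ y, ⟪u, y⟫ * ⟪A n1 n2 ε y, v⟫ * g n1 n2 ε y = ⟪u, v⟫ * ∫ y, g n1 n2 ε y := by
  have e : ∀ y, fderiv ℝ (fun y : Y d => ⟪u, y⟫) y v = ⟪u, v⟫ := fun y =>
    congrArg (· v) (innerSL ℝ u).hasFDerivAt.fderiv
  have e' : ∀ y, ⟪u, y⟫ * fderiv ℝ (g n1 n2 ε) y v
      = -(⟪u, y⟫ * ⟪A n1 n2 ε y, v⟫ * g n1 n2 ε y) := fun y => by rw [fderiv_g]; ring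
  have := integral_mul_fderiv_eq_neg_fderiv_mul_of_integrable (μ := volume)
    (f := fun y : Y d => ⟪u, y⟫) (g := g n1 n2 ε) (v := v)
    (by simpa only [e] using (int_g hε).const_mul _)
    (by simp only [e']; exact (int_ibp hn1 hn2 hε u v).neg)
    (int_mul hε (by fun_prop) (norm_nonneg u) fun y => (abs_real_inner_le_norm _ _).trans
      (mul_le_mul_of_nonneg_left (by nlinarith [sq_nonneg (‖y‖ - 1)]) (norm_nonneg _)))
    (fun y _ => (innerSL ℝ u).differentiableAt)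
    fun y _ => contDiff_g.differentiable (by simp) y
  simp only [e, e', integral_neg, integral_const_mul] at this
  exact neg_injective this

theorem normSq_A (y : Y d) : ‖A n1 n2 ε y‖ ^ 2 * g n1 n2 ε y =
    ⟪n1, y⟫ * ⟪A n1 n2 ε y, n1⟫ * g n1 n2 ε y + ⟪n2, y⟫ * ⟪A n1 n2 ε y, n2⟫ * g n1 n2 ε y
      + ε * ∑ i, ⟪EuclideanSpace.basisFun (Fin (d + 1)) ℝ i, y⟫
        * ⟪A n1 n2 ε y, EuclideanSpace.basisFun (Fin (d + 1)) ℝ i⟫ * g n1 n2 ε y := by
  rw [← Finset.sum_mul, ← real_inner_self_eq_norm_sq]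
  simp only [mul_comm ⟪EuclideanSpace.basisFun (Fin (d + 1)) ℝ _, y⟫,
    OrthonormalBasis.sum_inner_mul_inner]
  conv_lhs => arg 1; arg 3; rw [A]
  simp only [inner_add_right, inner_smul_right]
  ring

theorem integral_normSq_A (hn1 : ‖n1‖ = 1) (hn2 : ‖n2‖ = 1) (hε : 0 < ε) :
    Integrable (fun y => ‖A n1 n2 ε y‖ ^ 2 * g n1 n2 ε y) ∧
      ∫ y, ‖A n1 n2 ε y‖ ^ 2 * g n1 n2 ε y = (2 + ε * (d + 1)) * ∫ y, g n1 n2 ε y := by
  have h := int_ibp hn1 hn2 hε
  have hs := (integrable_finsetSum Finset.univ fun i _ =>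
    h (EuclideanSpace.basisFun (Fin (d + 1)) ℝ i) (EuclideanSpace.basisFun (Fin (d + 1)) ℝ i))
  simp only [normSq_A]
  refine ⟨((h _ _).add (h _ _)).add (hs.const_mul ε), ?_⟩
  rw [integral_add ((h _ _).fun_add (h _ _)) (hs.const_mul ε), integral_add (h _ _) (h _ _),
    integral_const_mul, integral_finsetSum _ fun i _ => h _ _]
  simp only [ibp hn1 hn2 hε, real_inner_self_eq_norm_sq, hn1, hn2, OrthonormalBasis.norm_eq_one,
    Finset.sum_const, Finset.card_univ, Fintype.card_fin, nsmul_eq_mul]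
  push_cast
  ring

theorem norm_fderiv_g_le (y : Y d) : ‖fderiv ℝ (g n1 n2 ε) y‖
    ≤ 1 / 3 * (‖A n1 n2 ε y‖ ^ 2 * g n1 n2 ε y) + 3 / 4 * g n1 n2 ε y := by
  have h0 := g_pos (n1 := n1) (n2 := n2) (ε := ε) y
  refine le_trans (ContinuousLinearMap.opNorm_le_bound _ (M := g n1 n2 ε y * ‖A n1 n2 ε y‖)
    (by positivity) fun v => ?_) (by nlinarith [mul_nonneg h0.le (sq_nonneg (‖A n1 n2 ε y‖ - 3 / 2))])
  rw [fderiv_g, norm_neg, norm_mul, Real.norm_of_nonneg h0.le, mul_assoc]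
  gcongr
  exact norm_inner_le_norm _ _

/-- the total mass is controlled by the mass of a central slice -/
theorem integral_g_le (h1 : Split n1 J1) (n2 : Y d) (hε : 0 < ε) :
    ∫ y, g n1 n2 ε y ≤ √(Real.pi / (1 / 2)) * ∫ z, g n1 n2 ε (J1 z) := by
  obtain ⟨w, hw⟩ := h1.surj n2
  generalize ⟪n1, n2⟫ = c at hw
  have hi : Integrable fun z => g n1 n2 ε (J1 z) := (integrable_gauss (half_pos hε)).mono'
    (contDiff_g.continuous.comp J1.continuous).aestronglyMeasurable (.of_forall fun z => by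
      rw [Real.norm_of_nonneg (g_pos _).le, ← J1.norm_map z]; exact g_le _)
  have hW : 0 < ‖w‖ ^ 2 + ε := by positivity
  obtain ⟨κ, hκ⟩ : ∃ κ, c = κ * (‖w‖ ^ 2 + ε) := ⟨c / _, (div_mul_cancel₀ _ hW.ne').symm⟩
  have e : ∀ s z, ⟪n2, s • n1 + J1 z⟫ = s * c + ⟪w, z⟫ := fun s z => by
    rw [hw, inner_add_left, real_inner_smul_left, h1.inner_apply, inner_add_right,
      inner_smul_right, real_inner_comm n1, h1.orth, J1.inner_map_map]
    ring
  rw [h1.integral_eq (int_g hε), ← integral_gaussian, ← integral_mul_const]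
  refine integral_mono_of_nonneg (.of_forall fun s => integral_nonneg fun z => (g_pos _).le)
    ((integrable_exp_neg_mul_sq (by norm_num)).mul_const _) (.of_forall fun s => ?_)
  beta_reduce
  rw [← integral_add_right_eq_self (fun z => g n1 n2 ε (J1 z)) ((s * κ) • w),
    ← integral_const_mul]
  refine integral_mono_of_nonneg (.of_forall fun z => (g_pos _).le)
    ((hi.comp_add_right _).const_mul _) (.of_forall fun z => ?_)
  have e0 := e 0 (z + (s * κ) • w)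
  rw [zero_smul, zero_add, zero_mul, zero_add, inner_add_right, inner_smul_right,
    real_inner_self_eq_norm_sq] at e0
  simp only [g]
  rw [← Real.exp_add, h1.inner_apply, h1.orth, e, e0, h1.norm_sq, J1.norm_map, norm_add_sq_real,
    inner_smul_right, real_inner_comm w z, norm_smul, mul_pow, Real.norm_eq_abs, sq_abs, hκ]
  refine Real.exp_le_exp.2 ?_
  have : 0 ≤ ε * ((s * κ) ^ 2 * ‖w‖ ^ 2 + (s * κ) ^ 2 * ε + s ^ 2) := by positivity
  nlinarith

end TP

open TP in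
theorem two_planes (h1 : Split n1 J1) (h2 : Split n2 J2) (y1 y2 : Y d) :
    ¬ ∀ f : Y d → ℝ, ContDiff ℝ ∞ f → HasCompactSupport f → (∀ y, 0 ≤ f y) →
      2 * ((∫ z, f (y1 + J1 z)) + ∫ z, f (y2 + J2 z)) ≤ ∫ y, ‖fderiv ℝ f y‖ := by
  intro H
  have hC : Cal n1 n2 J1 J2 ⟪n1, y1⟫ ⟪n2, y2⟫ := fun f hf hc h0 => by
    rw [← plane_eq h1, ← plane_eq h2]; exact H f hf hc h0
  obtain ⟨ε, hε, hε'⟩ : ∃ ε : ℝ, 0 < ε ∧ ε * (d + 1) = 1 / 4 :=
    ⟨1 / 4 / (d + 1), by positivity, div_mul_cancel₀ _ (by positivity)⟩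
  obtain ⟨i1, e1⟩ := integral_normSq_A h1.unit h2.unit hε
  have ig := int_g (n1 := n1) (n2 := n2) hε
  have iR := (i1.const_mul (1 / 3)).fun_add (ig.const_mul (3 / 4))
  have hG := hC.gauss h1 h2 contDiff_g (half_pos hε) (fun y => (g_pos y).le) g_le
    (iR.mono' (contDiff_g.continuous_fderiv (by simp)).norm.aestronglyMeasurable
      (.of_forall fun y => by rw [norm_norm]; exact norm_fderiv_g_le y))
  have hD := integral_mono_of_nonneg (.of_forall fun _ => norm_nonneg _) iR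
    (.of_forall norm_fderiv_g_le)
  rw [integral_add (i1.const_mul _) (ig.const_mul _), integral_const_mul, integral_const_mul,
    e1, hε'] at hD
  have c1 := integral_g_le h1 n2 hε
  have c2 := integral_g_le h2 n1 hε
  rw [← g_comm] at c2
  have hM : 0 < ∫ y, g n1 n2 ε y := integral_pos_of_integrable_nonneg_nonzero (x := 0)
    contDiff_g.continuous ig (fun y => (g_pos y).le) (g_pos 0).ne'
  have hs : √(Real.pi / (1 / 2)) ≤ 13 / 5 :=
    Real.sqrt_le_iff.2 ⟨by norm_num, by linarith [Real.pi_lt_d2]⟩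
  have m1 : 0 ≤ ∫ z, g n1 n2 ε (J1 z) := integral_nonneg fun z => (g_pos _).le
  have m2 : 0 ≤ ∫ z, g n1 n2 ε (J2 z) := integral_nonneg fun z => (g_pos _).le
  nlinarith [mul_le_mul_of_nonneg_right hs m1, mul_le_mul_of_nonneg_right hs m2]

end EP

end Crest.Agent.N222

end
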