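import Crest.Agent.N222.B.E2

/-!
# Row 222, part B, ε-regularity block: energy estimate for W
-/

set_option autoImplicit false
set_option linter.unusedSectionVars false
open MeasureTheory Set Filter Topology Function Metric
open scoped ContDiff InnerProductSpace RealInnerProductSpace

noncomputable section

namespace Crest.Agent.N222
open EP

variable {d : ℕ} {ι : Type} [Fintype ι] [DecidableEq ι] {X : Type} [TopologicalSpace X]
  [T2Space X] [SecondCountableTopology X] [MeasurableSpace X] [BorelSpace X] [CompactSpace X]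
  {M : Imm d ι X}

namespace WEn

/-- the pointwise inequality -/
theorem pt {κ : Type} [Fintype κ] {η w s a ρ B K dv : ℝ} {T dw dη : κ → ℝ} (hη0 : 0 ≤ η)
    (hη1 : η ≤ 1) (hs0 : 0 ≤ s) (hs : s ^ 2 = 1 - w ^ 2) (ha : 0 ≤ a) (hρ : 0 < ρ) (hρ1 : ρ ≤ 1)
    (hB : 0 ≤ B) (hK : 0 ≤ K) (h4 : ρ ^ 2 * a ≤ 4) (hT : ∑ c, T c ^ 2 ≤ a * s ^ 2)
    (hdv : |dv - a * w| ≤ B * √(1 + a)) (hdw : ∀ c, |dw c + T c| ≤ B)
    (hdη : ∀ c, |dη c| ≤ K / ρ) :
    ρ ^ 2 * (a * η - (η * w * dv + ∑ c, T c * (η * dw c + dη c * w))) ≤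
      (8 + 2 * Fintype.card κ * K + 3 * B + 2 * Fintype.card κ * B) * (s + ρ) := by
  have hs1 : s ≤ 1 := by nlinarith [sq_nonneg w]
  have hw : |w| ≤ 1 := abs_le_one_iff_mul_self_le_one.2 (by nlinarith [sq_nonneg s])
  have h1 : ρ ^ 2 * (a * s ^ 2) ≤ 4 * s ^ 2 := by
    rw [← mul_assoc]; exact mul_le_mul_of_nonneg_right h4 (sq_nonneg s)
  have h2 : ρ ^ 2 * ∑ c, T c ^ 2 ≤ 4 * s ^ 2 :=
    (mul_le_mul_of_nonneg_left hT (sq_nonneg ρ)).trans h1
  have hss : s ^ 2 ≤ s := by nlinarith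
  have h3 : ∀ c, |ρ * T c| ≤ 2 * s := fun c => by
    refine abs_le_of_sq_le_sq' ?_ (by positivity) |> abs_le.2
    have := Finset.single_le_sum (f := fun c => T c ^ 2) (fun _ _ => sq_nonneg _)
      (Finset.mem_univ c)
    nlinarith [mul_le_mul_of_nonneg_left this (sq_nonneg ρ)]
  have h5 : ρ * √(1 + a) ≤ 3 := by
    refine abs_le_of_sq_le_sq' ?_ (by norm_num) |>.2
    rw [mul_pow, Real.sq_sqrt (by linarith)]
    nlinarith
  have t2 : -(ρ ^ 2 * (η * w * (dv - a * w))) ≤ 3 * B * ρ := by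
    refine (neg_le_abs _).trans ?_
    rw [abs_mul, abs_mul, abs_mul, abs_of_nonneg hη0, abs_of_nonneg (sq_nonneg ρ)]
    calc ρ ^ 2 * (η * |w| * |dv - a * w|) ≤ ρ ^ 2 * (1 * 1 * (B * √(1 + a))) := by gcongr
      _ = B * ρ * (ρ * √(1 + a)) := by ring
      _ ≤ B * ρ * 3 := by gcongr
      _ = _ := by ring
  have t4 : ∀ c, -(ρ ^ 2 * (T c * (η * dw c + dη c * w))) ≤
      η * (ρ ^ 2 * T c ^ 2) + (2 * B * ρ + 2 * K * s) := fun c => by
    have e1 : -(ρ ^ 2 * (T c * (η * dw c + dη c * w))) = η * (ρ ^ 2 * T c ^ 2) +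
        (-(ρ * η * (ρ * T c) * (dw c + T c)) + -((ρ * T c) * (ρ * dη c) * w)) := by ring
    have e2 : -(ρ * η * (ρ * T c) * (dw c + T c)) ≤ 2 * B * ρ := by
      refine (neg_le_abs _).trans ?_
      rw [abs_mul, abs_mul, abs_mul, abs_of_nonneg hη0, abs_of_pos hρ]
      calc ρ * η * |ρ * T c| * |dw c + T c| ≤ ρ * 1 * (2 * 1) * B := by
            gcongr
            · exact (h3 c).trans (by gcongr)
            · exact hdw c
        _ = _ := by ring
    have e3 : -((ρ * T c) * (ρ * dη c) * w) ≤ 2 * K * s := by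
      refine (neg_le_abs _).trans ?_
      rw [abs_mul, abs_mul, abs_mul ρ (dη c), abs_of_pos hρ]
      calc |ρ * T c| * (ρ * |dη c|) * |w| ≤ 2 * s * (ρ * (K / ρ)) * 1 := by
            gcongr
            · exact h3 c
            · exact hdη c
        _ = _ := by field_simp
    rw [e1]
    linarith
  have t5 := Finset.sum_le_sum fun c (_ : c ∈ Finset.univ) => t4 c
  rw [Finset.sum_neg_distrib, ← Finset.mul_sum, Finset.sum_add_distrib, ← Finset.mul_sum,
    ← Finset.mul_sum, Finset.sum_const, nsmul_eq_mul, Finset.card_univ] at t5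
  have t3 : η * (ρ ^ 2 * ∑ c, T c ^ 2) ≤ 4 * s :=
    (mul_le_mul hη1 h2 (by positivity) zero_le_one).trans (by linarith)
  have t1 : η * (ρ ^ 2 * (a * s ^ 2)) ≤ 4 * s :=
    (mul_le_mul hη1 h1 (by positivity) zero_le_one).trans (by linarith)
  have e : ρ ^ 2 * (a * η - (η * w * dv + ∑ c, T c * (η * dw c + dη c * w))) =
      η * (ρ ^ 2 * (a * s ^ 2)) + -(ρ ^ 2 * (η * w * (dv - a * w))) +
        -(ρ ^ 2 * ∑ c, T c * (η * dw c + dη c * w)) := by rw [hs]; ring
  rw [e]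
  have hN : (0 : ℝ) ≤ Fintype.card κ := Nat.cast_nonneg _
  nlinarith [mul_nonneg (mul_nonneg hN hK) hρ.le, mul_nonneg hB hs0,
    mul_nonneg (mul_nonneg hN hB) hs0]

variable {u : X → ℝ} {C : ℝ}

/-- the field `A(·, n)` -/
def T (M : Imm d ι X) (u : X → ℝ) (n : E (Option ι)) (a : Option ι) (q : X) : ℝ :=
  ∑ c, n c * M.A u a c q

theorem sm_T (hu : M.Sm u) (n : E (Option ι)) (a : Option ι) : M.Sm (T M u n a) :=
  Imm.sm_sum _ fun c _ => (Imm.sm_const _).mul (hu.A a c)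

theorem tan_T (hu : M.Sm u) (n : E (Option ι)) : (M.gS u).Tan (T M u n) := fun a => by
  funext q
  simp only [Finset.sum_apply, Pi.mul_apply, T, Finset.mul_sum]
  rw [Finset.sum_comm]
  refine Finset.sum_congr rfl fun c _ => ?_
  have h := congrFun (Imm.A_tan hu c a) q
  simp only [Finset.sum_apply, Pi.mul_apply] at h
  rw [← h, Finset.mul_sum]
  exact Finset.sum_congr rfl fun b _ => by ring

theorem A_nu (hu : M.Sm u) (a : Option ι) (q : X) : ∑ c, M.A u a c q * M.nu u c q = 0 := by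
  have h1 : ∀ b, ∑ c, (M.gS u).P b c q * M.nu u c q = 0 := fun b => by
    have h := (M.graph u hu).PL_apply q (M.nuv u q) b
    rw [Imm.graph_PL hu, Imm.PbL_nuv hu, real_inner_self_eq_norm_sq, Imm.norm_nuv hu,
      Imm.graph_pre hu] at h
    simpa [Imm.nuv] using h.symm
  have h2 : ∀ c, M.A u a c q = ∑ b, (M.gS u).P b c q * M.A u b a q := fun c => by
    have h := congrFun (Imm.A_tan hu a c) q
    simp only [Finset.sum_apply, Pi.mul_apply] at h
    rw [Imm.A_symm hu a c, ← h]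
    refine Finset.sum_congr rfl fun b _ => ?_
    rw [← Imm.graph_pre hu, (M.graph u hu).P_symm]
  simp only [h2, Finset.sum_mul]
  rw [Finset.sum_comm]
  refine Finset.sum_eq_zero fun b _ => ?_
  have : ∑ c, (M.gS u).P b c q * M.A u b a q * M.nu u c q =
      M.A u b a q * ∑ c, (M.gS u).P b c q * M.nu u c q := by
    rw [Finset.mul_sum]
    exact Finset.sum_congr rfl fun c _ => by ring
  rw [this, h1, mul_zero]

theorem sum_T_sq (hu : M.Sm u) {n : E (Option ι)} (hn : ‖n‖ = 1) (q : X) :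
    ∑ a, T M u n a q ^ 2 ≤ M.a2 u q * (1 - ⟪M.nuv u q, n⟫ ^ 2) := by
  set w := ⟪M.nuv u q, n⟫ with hw
  have h1 : ∑ c, (n c - w * M.nu u c q) ^ 2 = 1 - w ^ 2 := by
    have h2 : ‖n - w • M.nuv u q‖ ^ 2 = 1 - w ^ 2 := by
      rw [norm_sub_sq_real, hn, norm_smul, Imm.norm_nuv hu, real_inner_smul_right,
        real_inner_comm, ← hw, Real.norm_eq_abs, mul_one, sq_abs]
      ring
    rw [← h2, EuclideanSpace.real_norm_sq_eq]
    rfl
  rw [Imm.a2_apply, Finset.sum_mul]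
  refine Finset.sum_le_sum fun a _ => ?_
  have h3 : T M u n a q = ∑ c, M.A u a c q * (n c - w * M.nu u c q) := by
    have h4 : ∑ c, M.A u a c q * (n c - w * M.nu u c q) =
        ∑ c, n c * M.A u a c q - w * ∑ c, M.A u a c q * M.nu u c q := by
      rw [Finset.mul_sum, ← Finset.sum_sub_distrib]
      exact Finset.sum_congr rfl fun c _ => by ring
    rw [h4, A_nu hu, mul_zero, sub_zero, T]
  rw [h3, ← h1]
  refine (Finset.sum_mul_sq_le_sq_mul_sq _ _ _).trans_eq ?_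
  simp only [sq]

theorem abs_sum_le {n : E (Option ι)} (hn : ‖n‖ = 1) {f : Option ι → ℝ} {B : ℝ}
    (h : ∀ c, |f c| ≤ B) : |∑ c, n c * f c| ≤ Fintype.card (Option ι) * B := by
  refine (Finset.abs_sum_le_sum_abs _ _).trans ((Finset.sum_le_card_nsmul _ _ B
    fun c _ => ?_).trans_eq ?_)
  · rw [abs_mul]
    have h1 : |n c| ≤ 1 := hn ▸ PiLp.norm_apply_le n c
    exact (mul_le_of_le_one_left (abs_nonneg _) h1).trans (h c)
  · rw [nsmul_eq_mul, Finset.card_univ]

theorem dv_T (hu : M.Sm u) (n : E (Option ι)) (q : X) :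
    (M.gS u).dv (T M u n) q = ∑ c, n c * (M.gS u).dv (fun a => M.A u a c) q := by
  rw [← Imm.graph_pre hu]
  simp only [Imm.dv_apply, Finset.mul_sum]
  rw [Finset.sum_comm]
  refine Finset.sum_congr rfl fun a _ => ?_
  have h := Imm.D_sum (M := M.graph u hu) (p := q) Finset.univ
    (f := fun c q => n c * M.A u a c q)
    (fun c _ => g_diffAt hu ((Imm.sm_const _).mul (hu.A a c)) q) a
  refine h.trans (Finset.sum_congr rfl fun c _ => ?_)
  exact Imm.D_const_mul _ (g_diffAt hu (hu.A a c) q) a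

theorem abs_dv_T (hu : M.Sm u) (h : M.Sheet C u) {n : E (Option ι)} (hn : ‖n‖ = 1) (q : X) :
    |(M.gS u).dv (T M u n) q - M.a2 u q * ⟪M.nuv u q, n⟫| ≤
      Fintype.card (Option ι) * C * √(1 + M.a2 u q) := by
  rw [dv_T hu, inner_nuv, Finset.mul_sum, ← Finset.sum_sub_distrib, mul_assoc]
  refine le_of_eq_of_le (congrArg _ (Finset.sum_congr rfl fun c _ => ?_))
    (abs_sum_le hn fun c => h.n1 c q)
  ring

theorem abs_D_w (hu : M.Sm u) (h : M.Sheet C u) {n : E (Option ι)} (hn : ‖n‖ = 1) (a : Option ι)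
    (q : X) : |(M.gS u).D a (fun q => ⟪M.nuv u q, n⟫) q + T M u n a q| ≤
      Fintype.card (Option ι) * C := by
  rw [D_inner_nuv hu, T, ← Finset.sum_add_distrib]
  refine le_of_eq_of_le (congrArg _ (Finset.sum_congr rfl fun c _ => ?_))
    (abs_sum_le hn fun c => h.dnu a c q)
  ring

/-- the rescaled cut-off -/
def φ (ι : Type) [Fintype ι] (z : E (Option ι)) : ℝ := Phi (‖z - 0‖ ^ 2 / (1 / 10) ^ 2)

theorem contDiff_φ : ContDiff ℝ ∞ (φ ι) := contDiff_Phi_ball 0 _

theorem exists_K (ι : Type) [Fintype ι] : ∃ K, 0 ≤ K ∧ ∀ z, ‖fderiv ℝ (φ ι) z‖ ≤ K := by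
  classical
  have h1 : HasCompactSupport (φ ι) := hcs_Phi 0 (by norm_num)
  obtain ⟨K, hK⟩ := ((contDiff_φ (ι := ι)).continuous_fderiv
    (by simp)).bounded_above_of_compact_support (h1.fderiv (𝕜 := ℝ))
  exact ⟨K, (norm_nonneg _).trans (hK 0), hK⟩

theorem fderiv_φ {z : E (Option ι)} (hz : 1 / 10 < ‖z‖) : fderiv ℝ (φ ι) z = 0 := by
  have h : φ ι =ᶠ[𝓝 z] fun _ => 0 := by
    filter_upwards [(isOpen_lt continuous_const continuous_norm).mem_nhds hz] with y hy
    exact Phi_ball_zero (by norm_num) (by rw [sub_zero]; exact le_of_lt hy)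
  rw [h.fderiv_eq, fderiv_fun_const]
  rfl

theorem ph_eq {ρ : ℝ} (hρ : 0 < ρ) (p : X) :
    ph M u (M.gx u p) (ρ / 10) = fun q => φ ι (ry M u p ρ q) := by
  funext q
  have h : ‖M.gx u q - M.gx u p‖ ^ 2 / (ρ / 10) ^ 2 = ‖ry M u p ρ q - 0‖ ^ 2 / (1 / 10) ^ 2 := by
    rw [sub_zero, norm_ry hρ]
    field_simp
  exact congrArg Phi h

end WEn

open WEn in
/-- if the normal is close to `± n` in the mean, the curvature energy is small -/
theorem EP.energy_le (M : Imm d ι X) (C : ℝ) : ∃ K : ℝ, ∀ (u : X → ℝ) (p : X) (ρ : ℝ)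
    (n : E (Option ι)), M.Sm u → M.Sheet C u → 0 < ρ → ρ ≤ 1 → ‖n‖ = 1 →
    (∀ q, ‖M.gx u q - M.gx u p‖ < ρ → ρ ^ 2 * M.a2 u q ≤ 4) →
    ρ ^ 2 * ∫ q, M.a2 u q * ph M u (M.gx u p) (ρ / 10) q ∂M.gmu u ≤
      K * ∫ q, (√(1 - ⟪M.nuv u q, n⟫ ^ 2) + ρ) * ph M u (M.gx u p) ρ q ∂M.gmu u := by
  obtain ⟨K, hK0, hK⟩ := exists_K ι
  refine ⟨8 + 2 * Fintype.card (Option ι) * K + 3 * (Fintype.card (Option ι) * C) +
    2 * Fintype.card (Option ι) * (Fintype.card (Option ι) * C), ?_⟩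
  intro u p ρ n hu hS hρ hρ1 hn h4
  have hC : 0 ≤ C := (norm_nonneg _).trans (hS.H p)
  set η := ph M u (M.gx u p) (ρ / 10) with hη
  set w : X → ℝ := fun q => ⟪M.nuv u q, n⟫ with hw
  have sη : M.Sm η := sm_ph hu _ _
  have sw : M.Sm w := sm_inner_nuv hu n
  have hibp := g_ibp hu (f := fun q => η q * w q)
    (Imm.Sm.c1 (M := M.graph u hu) (sη.mul sw)) (sm_T hu n) (tan_T hu n)
  have c1 : Continuous fun q => M.a2 u q * η q := hu.a2.continuous.mul sη.continuous
  have c2 : Continuous fun q => η q * w q * (M.gS u).dv (T M u n) q :=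
    (sη.mul sw).continuous.mul (sm_gdv hu (sm_T hu n)).continuous
  have c3 : Continuous fun q => ∑ a, T M u n a q * (M.gS u).D a (fun q => η q * w q) q :=
    continuous_finsetSum _ fun a _ =>
      (sm_T hu n a).continuous.mul (sm_gD hu (sη.mul sw) a).continuous
  have c4 : Continuous fun q => η q * w q * (M.gS u).dv (T M u n) q +
      ∑ a, T M u n a q * (M.gS u).D a (fun q => η q * w q) q := c2.add c3
  have e1 : ∫ q, M.a2 u q * η q ∂M.gmu u = ∫ q, (M.a2 u q * η q -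
      (η q * w q * (M.gS u).dv (T M u n) q +
        ∑ a, T M u n a q * (M.gS u).D a (fun q => η q * w q) q)) ∂M.gmu u := by
    rw [integral_sub (integrable_gmu hu c1) (integrable_gmu hu c4),
      integral_add (integrable_gmu hu c2) (integrable_gmu hu c3), hibp, neg_add_cancel, sub_zero]
  rw [e1, ← integral_const_mul, ← integral_const_mul]
  refine integral_mono (integrable_gmu hu (continuous_const.mul (c1.sub c4)))
    (integrable_gmu hu (continuous_const.mul ((((continuous_const.sub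
      (sw.continuous.pow 2)).sqrt).add continuous_const).mul (sm_ph hu _ _).continuous)))
    fun q => ?_
  have hD : ∀ a, (M.gS u).D a (fun q => η q * w q) q =
      η q * (M.gS u).D a w q + (M.gS u).D a η q * w q := fun a => by
    rw [← Imm.graph_pre hu]
    exact Imm.D_mul (g_diffAt hu sη q) (g_diffAt hu sw q) a
  have hDη : ∀ a, |(M.gS u).D a η q| ≤ ‖fderiv ℝ (φ ι) (ry M u p ρ q)‖ / ρ := fun a => by
    rw [hη, ph_eq hρ]
    exact abs_D_ry_le hu hρ (contDiff_φ.differentiable (by simp) _) a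
  have hw1 : w q ^ 2 ≤ 1 := by
    have h := abs_real_inner_le_norm (M.nuv u q) n
    rw [Imm.norm_nuv hu, hn, mul_one] at h
    exact (sq_le_one_iff_abs_le_one _).2 h
  simp only [hD]
  by_cases hq : ‖ry M u p ρ q‖ ≤ 1 / 10
  · have h5 := (norm_ry_le hρ).1 hq
    have h6 : ph M u (M.gx u p) ρ q = 1 := Phi_ball_one hρ (by linarith)
    rw [h6, mul_one]
    refine pt (Phi_nonneg _) (Phi_le_one _) (Real.sqrt_nonneg _) (Real.sq_sqrt (by linarith))
      (M.a2_nonneg u q) hρ hρ1 (by positivity) hK0 (h4 q (by linarith)) ?_ (abs_dv_T hu hS hn q)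
      (fun a => abs_D_w hu hS hn a q)
      fun a => (hDη a).trans (div_le_div_of_nonneg_right (hK _) hρ.le)
    rw [Real.sq_sqrt (by linarith)]
    exact sum_T_sq hu hn q
  · have h5 : η q = 0 := by
      rw [hη, ph_eq hρ]
      exact Phi_ball_zero (by norm_num) (by rw [sub_zero]; exact (not_le.1 hq).le)
    have h6 : ∀ a, (M.gS u).D a η q = 0 := fun a => by
      have h := hDη a
      rw [fderiv_φ (not_le.1 hq), norm_zero, zero_div] at h
      exact abs_nonpos_iff.1 h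
    simp only [h5, h6, mul_zero, zero_mul, add_zero, Finset.sum_const_zero, sub_zero]
    have := Phi_nonneg (‖M.gx u q - M.gx u p‖ ^ 2 / ρ ^ 2)
    positivity

end Crest.Agent.N222

end
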